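import Vale.Agent.P143.Fusf

/-!
The forest measure satisfies the definition by exhaustions; measurability and naturality in the
graph.
-/

namespace Vale.Agent.P143

open Finset Filter Topology MeasureTheory

noncomputable section

theorem isSpanTree_iff {G : SimpleGraph ℕ} (H : G.Subgraph) {S : Finset ℕ} {F T : Finset (Sym2 ℕ)}
    (hS : (↑S : Set ℕ) = H.verts) (hF : (↑F : Set (Sym2 ℕ)) = H.edgeSet)
    (hed : ∀ e ∈ F, ¬ e.IsDiag ∧ ∀ v ∈ e, v ∈ S) :
    IsSpanTree H (↑T : Set (Sym2 ℕ)) ↔ T ∈ trees S F := by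
  unfold IsSpanTree
  rw [mem_trees, ← hF, ← hS, Finset.coe_subset]
  exact and_congr_right fun h => ⟨fun ht => ⟨fun e he => hed e (h he), ht⟩, fun ht => ht.2⟩

theorem ustProb_eq {G : SimpleGraph ℕ} (H : G.Subgraph) {S : Finset ℕ} {F : Finset (Sym2 ℕ)}
    (hS : (↑S : Set ℕ) = H.verts) (hF : (↑F : Set (Sym2 ℕ)) = H.edgeSet)
    (hed : ∀ e ∈ F, ¬ e.IsDiag ∧ ∀ v ∈ e, v ∈ S) (A : Finset (Sym2 ℕ)) (η : Cfg) :
    ustProb H A η = ratio S F A η := by
  classical
  have hset : ∀ P : Finset (Sym2 ℕ) → Prop, ∀ Q : Set (Sym2 ℕ) → Prop,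
      (∀ T : Finset (Sym2 ℕ), Q ↑T ↔ P T) →
      {T : Set (Sym2 ℕ) | IsSpanTree H T ∧ Q T}.ncard = ((trees S F).filter P).card := by
    intro P Q hPQ
    have himg : {T : Set (Sym2 ℕ) | IsSpanTree H T ∧ Q T} =
        (fun T : Finset (Sym2 ℕ) => (↑T : Set (Sym2 ℕ))) '' ↑((trees S F).filter P) := by
      ext T
      simp only [Set.mem_image, Finset.coe_filter, Set.mem_ofPred_eq]
      constructor
      · rintro ⟨hT, hq⟩
        have hfin : T.Finite := (F.finite_toSet.subset (hF.symm ▸ hT.1))
        lift T to Finset (Sym2 ℕ) using hfin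
        exact ⟨T, ⟨(isSpanTree_iff H hS hF hed).1 hT, (hPQ T).1 hq⟩, rfl⟩
      · rintro ⟨T', ⟨hT, hp⟩, rfl⟩
        exact ⟨(isSpanTree_iff H hS hF hed).2 hT, (hPQ T').2 hp⟩
    rw [himg, Set.ncard_image_of_injective _ Finset.coe_injective, Set.ncard_coe_finset]
  have h1 := hset (fun T => tcfg T ∈ cyl A η) (fun T => ∀ e ∈ A, (e ∈ T ↔ η e = true)) (fun T => by
    simp only [cyl, Set.mem_ofPred_eq, tcfg, Finset.mem_coe]
    refine forall₂_congr fun e _ => ?_
    by_cases he : e ∈ T <;> cases η e <;> simp [he])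
  have h2 : {T : Set (Sym2 ℕ) | IsSpanTree H T}.ncard = (trees S F).card := by
    simpa using hset (fun _ => True) (fun _ => True) (fun _ => Iff.rfl)
  unfold ustProb ratio Zp
  rw [h1, h2, Zf_zero, ← Finset.sum_filter]
  simp [wt]

theorem isFUSF_fusf {a : Cfg} (ha : Good a) : IsFUSF (graphOf a) (fusf a) := by
  classical
  refine ⟨inferInstance, fun H hH A η => ?_⟩
  obtain ⟨hfc, hmono, hv, he⟩ := hH
  let S : ℕ → Finset ℕ := fun n => (hfc n).1.toFinset
  let F : ℕ → Finset (Sym2 ℕ) := fun n => (S n).sym2.filter (fun e => e ∈ (H n).edgeSet)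
  have hS : ∀ n, (↑(S n) : Set ℕ) = (H n).verts := fun n => by simp [S]
  have hF : ∀ n, (↑(F n) : Set (Sym2 ℕ)) = (H n).edgeSet := by
    intro n; ext e
    induction e using Sym2.ind with
    | h u v =>
      simp only [F, Finset.coe_filter, Set.mem_ofPred_eq, Finset.mk_mem_sym2_iff,
        SimpleGraph.Subgraph.mem_edgeSet]
      refine ⟨fun h => h.2, fun h => ⟨⟨?_, ?_⟩, h⟩⟩
      · simpa [S] using (H n).edge_vert h
      · simpa [S] using (H n).edge_vert h.symm
  have hed : ∀ n, ∀ e ∈ F n, ¬ e.IsDiag ∧ ∀ v ∈ e, v ∈ S n := by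
    intro n e hn
    simp only [F, Finset.mem_filter, Finset.mem_sym2_iff] at hn
    exact ⟨(graphOf a).not_isDiag_of_mem_edgeSet ((H n).edgeSet_subset hn.2), hn.1⟩
  have hsub : ∀ n, (↑(F n) : Set (Sym2 ℕ)) ⊆ eset a := fun n => by
    rw [hF n, ← edgeSet_graphOf]; exact (H n).edgeSet_subset
  have hE : Exh a S F := by
    refine ⟨hed, hsub, fun n => trees_nonempty (hed n) ?_, fun e hea => ?_⟩
    · have hadj : ∀ u v, (H n).Adj u v ↔ u ≠ v ∧ s(u, v) ∈ (↑(F n) : Set (Sym2 ℕ)) := fun u v => by
        rw [hF n]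
        exact ⟨fun h => ⟨h.ne, h⟩, fun h => h.2⟩
      let f : (H n).coe →g
          (SimpleGraph.fromEdgeSet (↑(F n) : Set (Sym2 ℕ))).induce (↑(S n) : Set ℕ) :=
        ⟨fun z => ⟨z.1, by rw [hS n]; exact z.2⟩, fun {u v} huv => by
          simp only [SimpleGraph.induce, SimpleGraph.comap_adj, SimpleGraph.fromEdgeSet_adj]
          exact ⟨((hadj u v).1 huv).2, ((hadj u v).1 huv).1⟩⟩
      exact SimpleGraph.Connected.map f (fun z => ⟨⟨z.1, hS n ▸ z.2⟩, rfl⟩) (hfc n).2.coe
    · induction e using Sym2.ind with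
      | h u v =>
        obtain ⟨N, hN⟩ := he u v ((adj_iff a u v).2 hea)
        filter_upwards [eventually_ge_atTop N] with n hn
        rw [← Finset.mem_coe, hF n]
        exact SimpleGraph.Subgraph.edgeSet_mono (hmono hn) hN
  refine ((fusf_spec ha).2 S F hE A η).congr fun n => ?_
  rw [ustProb_eq (H n) (hS n) (hF n) (hed n)]

theorem exists_exhaustion {a : Cfg} (ha : Good a) :
    ∃ H : ℕ → (graphOf a).Subgraph, IsExhaustion (graphOf a) H := by
  classical
  refine ⟨fun n => (⊤ : (graphOf a).Subgraph).induce ↑(ballS a {0} n),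
    fun n => ⟨by simp, ?_⟩, ?_, fun v => ?_, fun u v huv => ?_⟩
  · rw [SimpleGraph.Subgraph.connected_iff]
    have h0 : 0 ∈ ballS a {0} n :=
      (mem_ballS ha).2 (inBall_mono (Nat.zero_le n) (by simp [InBall]))
    refine ⟨?_, ⟨0, by simpa using h0⟩⟩
    rw [SimpleGraph.Subgraph.preconnected_iff]
    have key : ∀ m ≤ n, ∀ v (hv : v ∈ ballS a {0} n), InBall a {0} m v →
        ((⊤ : (graphOf a).Subgraph).induce ↑(ballS a {0} n)).coe.Reachable
          ⟨0, h0⟩ ⟨v, hv⟩ := by
      intro m
      induction m with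
      | zero =>
        intro _ v hv hm
        obtain rfl : v = 0 := by simpa [InBall] using hm
        exact SimpleGraph.Reachable.refl _
      | succ m ih =>
        intro hle v hv hm
        rcases hm with hm | ⟨x, hx, hxv⟩
        · exact ih (by omega) v hv hm
        · have hxn : x ∈ ballS a {0} n := (mem_ballS ha).2 (inBall_mono (by omega) hx)
          refine (ih (by omega) x hxn hx).trans (SimpleGraph.Adj.reachable ?_)
          exact ⟨hxn, hv, (adj_iff a x v).2 hxv⟩
    rintro ⟨x, hx⟩ ⟨z, hz⟩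
    have hx' : x ∈ ballS a {0} n := hx
    have hz' : z ∈ ballS a {0} n := hz
    exact (key n le_rfl x hx' ((mem_ballS ha).1 hx')).symm.trans
      (key n le_rfl z hz' ((mem_ballS ha).1 hz'))
  · intro m n h
    have : (↑(ballS a {0} m) : Set ℕ) ⊆ ↑(ballS a {0} n) := fun v hv =>
      (mem_ballS ha).2 (inBall_mono h ((mem_ballS ha).1 hv))
    exact SimpleGraph.Subgraph.induce_mono le_rfl this
  · obtain ⟨n, hn⟩ := inBall_exists ha (Finset.singleton_nonempty 0) v
    exact ⟨n, by simpa using (mem_ballS ha).2 hn⟩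
  · obtain ⟨m, hm⟩ := inBall_exists ha (Finset.singleton_nonempty 0) u
    obtain ⟨k, hk⟩ := inBall_exists ha (Finset.singleton_nonempty 0) v
    exact ⟨max m k, (mem_ballS ha).2 (inBall_mono (le_max_left _ _) hm),
      (mem_ballS ha).2 (inBall_mono (le_max_right _ _) hk), huv⟩

theorem isFUSF_unique {a : Cfg} (ha : Good a) {μ : Measure Cfg} (hμ : IsFUSF (graphOf a) μ) :
    μ = fusf a := by
  obtain ⟨H, hH⟩ := exists_exhaustion ha
  have := hμ.1
  exact cyl_ext fun A η =>
    tendsto_nhds_unique (hμ.2 H hH A η) ((isFUSF_fusf ha).2 H hH A η)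

theorem measurableSet_good : MeasurableSet {a : Cfg | Good a} := by
  classical
  have h1 : MeasurableSet {a : Cfg | ∀ u, a s(u, u) = false} := by
    rw [Set.ofPred_forall]
    exact MeasurableSet.iInter fun u =>
      (measurable_pi_apply (X := fun _ : Sym2 ℕ => Bool) s(u, u)) (measurableSet_singleton false)
  have hreach : ∀ a : Cfg, (graphOf a).Connected ↔ ∀ v, ∃ n, InBall a {0} n v := by
    intro a
    constructor
    · intro hc v
      obtain ⟨p⟩ := hc.preconnected 0 v
      have : ∀ (x z : ℕ), (graphOf a).Walk x z →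
          (∃ n, InBall a {0} n x) → ∃ n, InBall a {0} n z := by
        intro x z q
        induction q with
        | nil => exact id
        | cons hadj _ ih =>
          rintro ⟨n, hn⟩
          exact ih ⟨n + 1, Or.inr ⟨_, hn, (adj_iff a _ _).1 hadj⟩⟩
      exact this 0 v p ⟨0, by simp [InBall]⟩
    · intro h
      rw [SimpleGraph.connected_iff_exists_forall_reachable]
      refine ⟨0, fun v => ?_⟩
      obtain ⟨n, hn⟩ := h v
      induction n generalizing v with
      | zero => obtain rfl : v = 0 := by simpa [InBall] using hn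
                exact SimpleGraph.Reachable.refl _
      | succ n ih =>
        rcases hn with hn | ⟨x, hx, hxv⟩
        · exact ih v hn
        · exact (ih x hx).trans ((adj_iff a x v).2 hxv).reachable
  have h2 : MeasurableSet {a : Cfg | (graphOf a).Connected} := by
    simp only [hreach, Set.ofPred_forall, Set.ofPred_exists]
    exact MeasurableSet.iInter fun v => MeasurableSet.iUnion fun n => measurable_inBall {0} n v
  have hfin : ∀ a : Cfg, ∀ v, ((graphOf a).neighborSet v).Finite ↔
      ∃ t : Finset ℕ, ∀ w, s(v, w) ∈ eset a → w ∈ t := fun a v =>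
    ⟨fun h => ⟨h.toFinset, fun w hw => by simpa using (adj_iff a v w).2 hw⟩,
      fun ⟨t, ht⟩ => t.finite_toSet.subset fun w hw => ht w ((adj_iff a v w).1 hw)⟩
  have h3 : MeasurableSet {a : Cfg | ∀ v, ((graphOf a).neighborSet v).Finite} := by
    simp only [hfin, Set.ofPred_forall, Set.ofPred_exists]
    refine MeasurableSet.iInter fun v => MeasurableSet.iUnion fun t => MeasurableSet.iInter fun w => ?_
    by_cases hw : w ∈ t
    · simp [hw]
    · simpa [hw, Set.compl_ofPred] using (measurable_coord s(v, w)).compl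
  have : {a : Cfg | Good a} = {a | ∀ u, a s(u, u) = false} ∩ ({a | (graphOf a).Connected} ∩
      {a | ∀ v, ((graphOf a).neighborSet v).Finite}) := rfl
  rw [this]
  exact h1.inter (h2.inter h3)

theorem measurable_ratio (W : Finset ℕ) (n : ℕ) (A : Finset (Sym2 ℕ)) (η : Cfg) :
    Measurable (fun a : Cfg => ratio (ballS a W n) (edgesIn a (ballS a W n)) A η) := by
  intro t _
  have : (fun a : Cfg => ratio (ballS a W n) (edgesIn a (ballS a W n)) A η) ⁻¹' t =
      ⋃ b ∈ {b : Finset ℕ × Finset (Sym2 ℕ) | ratio b.1 b.2 A η ∈ t},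
        (fun a : Cfg => (ballS a W n, edgesIn a (ballS a W n))) ⁻¹' {b} := by
    ext a; simp
  rw [this]
  exact MeasurableSet.biUnion (Set.to_countable _) fun b _ => code_fiber W n b

theorem measurable_fusf_cyl (A : Finset (Sym2 ℕ)) (η : Cfg) :
    Measurable (fun a => fusf a (cyl A η)) := by
  classical
  have heq : (fun a => fusf a (cyl A η)) = fun a => if Good a then
      ENNReal.ofReal (limsup (fun n => ratio (ballS a {0} n) (edgesIn a (ballS a {0} n)) A η) atTop)
      else (cyl A η).indicator 1 (fun _ => false) := by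
    funext a
    split_ifs with ha
    · rw [((fusf_spec ha).2 _ _ (ball_exh ha (seed_single a 0)) A η).limsup_eq, ofReal_measureReal]
    · rw [fusf, dif_neg ha, Measure.dirac_apply' _ (measurableSet_cyl A η)]
  rw [heq]
  exact Measurable.ite measurableSet_good
    (ENNReal.measurable_ofReal.comp (Measurable.limsup fun n => measurable_ratio {0} n A η))
    measurable_const

theorem measurable_fusf : Measurable fusf := by
  classical
  refine Measurable.measure_of_isPiSystem_of_isProbabilityMeasure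
    generateFrom_measurableCylinders.symm isPiSystem_measurableCylinders fun s hs => ?_
  obtain ⟨I, B, hB, rfl⟩ := (mem_measurableCylinders s).1 hs
  have hB' : (B : Set _).Finite := Set.toFinite B
  let η : (∀ _e : I, Bool) → Cfg := fun b e => if he : e ∈ I then b ⟨e, he⟩ else false
  have hu : cylinder I B = ⋃ b ∈ hB'.toFinset, cyl I (η b) := by
    ext ω
    simp only [mem_cylinder, Set.mem_iUnion, cyl, Set.mem_ofPred_eq, Set.Finite.mem_toFinset,
      exists_prop]
    constructor
    · exact fun h => ⟨_, h, fun e he => by simp [η, he, Finset.restrict]⟩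
    · rintro ⟨b, hb, hh⟩
      have : I.restrict ω = b := by funext e; simpa [η, e.2] using hh e.1 e.2
      rwa [this]
  have hd : ∀ a : Cfg, fusf a (cylinder I B) = ∑ b ∈ hB'.toFinset, fusf a (cyl I (η b)) := by
    intro a
    rw [hu, measure_biUnion_finset ?_ fun b _ => measurableSet_cyl _ _]
    intro b _ c _ hbc
    refine Set.disjoint_left.2 fun ω h1 h2 => hbc ?_
    funext e
    have := (h1 e.1 e.2).symm.trans (h2 e.1 e.2)
    simpa [η, e.2] using this
  simp only [hd]
  exact Finset.measurable_sum _ fun b _ => measurable_fusf_cyl I (η b)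

theorem relabel_apply (φ : ℕ ≃ ℕ) (ω : Cfg) (e : Sym2 ℕ) :
    relabel φ ω (eperm φ e) = ω e := by
  show ω ((eperm φ).symm (eperm φ e)) = ω e
  simp

theorem relabel_relabel_symm (φ : ℕ ≃ ℕ) (ω : Cfg) : relabel φ.symm (relabel φ ω) = ω := by
  funext e
  simp [relabel, Sym2.map_map, Sym2.map_id']

theorem good_relabel_iff (φ : ℕ ≃ ℕ) (a : Cfg) : Good (relabel φ a) ↔ Good a :=
  ⟨fun h => relabel_relabel_symm φ a ▸ good_relabel φ.symm h, good_relabel φ⟩

theorem measurable_relabel (φ : ℕ ≃ ℕ) : Measurable (relabel φ) :=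
  measurable_pi_lambda _ fun _ => measurable_pi_apply _

theorem ratio_relabel (φ : ℕ ≃ ℕ) (S : Finset ℕ) (F A : Finset (Sym2 ℕ)) (η : Cfg) :
    ratio (S.image φ) (F.image (eperm φ)) (A.image (eperm φ)) (relabel φ η) = ratio S F A η := by
  classical
  have h0 : ((0 : Sym2 ℕ → ℝ) ∘ (eperm φ).symm) = 0 := rfl
  unfold ratio Zp
  rw [trees_relabel, Finset.sum_image fun x _ z _ h => Finset.image_injective (eperm φ).injective h,
    ← h0, Zf_relabel, h0]
  congr 1
  refine Finset.sum_congr rfl fun T _ => ?_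
  have : tcfg (T.image (eperm φ)) ∈ cyl (A.image (eperm φ)) (relabel φ η) ↔ tcfg T ∈ cyl A η := by
    simp only [cyl, Set.mem_ofPred_eq, Finset.forall_mem_image, relabel_apply, tcfg,
      (eperm φ).injective.mem_finset_image]
  rw [if_congr this rfl rfl]
  simp [wt]

theorem fusf_relabel (φ : ℕ ≃ ℕ) (a : Cfg) : fusf (relabel φ a) = (fusf a).map (relabel φ) := by
  classical
  by_cases ha : Good a
  swap
  · have h' : ¬ Good (relabel φ a) := fun h => ha ((good_relabel_iff φ a).1 h)
    rw [fusf, dif_neg h', fusf, dif_neg ha, Measure.map_dirac' (measurable_relabel φ)]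
    congr 1
  have ha' := good_relabel φ ha
  have : IsProbabilityMeasure ((fusf a).map (relabel φ)) :=
    Measure.isProbabilityMeasure_map (measurable_relabel φ).aemeasurable
  refine cyl_ext fun A' η' => ?_
  obtain ⟨A, rfl⟩ : ∃ A : Finset (Sym2 ℕ), A.image (eperm φ) = A' :=
    ⟨A'.image (eperm φ).symm, by simp [Finset.image_image]⟩
  obtain ⟨η, rfl⟩ : ∃ η, relabel φ η = η' :=
    ⟨relabel φ.symm η', by simpa using relabel_relabel_symm φ.symm η'⟩
  have hpre : relabel φ ⁻¹' cyl (A.image (eperm φ)) (relabel φ η) = cyl A η := by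
    ext ω
    simp only [Set.mem_preimage, cyl, Set.mem_ofPred_eq, Finset.forall_mem_image, relabel_apply]
  rw [map_measureReal_apply (measurable_relabel φ) (measurableSet_cyl _ _), hpre]
  refine tendsto_nhds_unique ((fusf_spec ha').2 _ _
      (ball_exh ha' (seed_single _ (φ 0))) _ _) ?_
  refine ((fusf_spec ha).2 _ _ (ball_exh ha (seed_single _ 0)) A η).congr fun n => ?_
  have hb := ballS_relabel φ a {0} n
  rw [Finset.image_singleton] at hb
  rw [hb, edgesIn_relabel, ratio_relabel]

end

end Vale.Agent.P143
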