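import Vale.Agent.P143.Exh

/-!
Measurability and naturality of the canonical transfer current.
-/

namespace Vale.Agent.P143

open Finset Filter Topology MeasureTheory

noncomputable section

/-- A function that factors through a countably valued measurable code is measurable. -/
theorem measurable_of_code {α β γ δ : Type*} [MeasurableSpace α] [MeasurableSpace γ]
    [MeasurableSpace δ] [Countable β] (c : α → β) (hc : ∀ b, MeasurableSet (c ⁻¹' {b}))
    (g : β → γ → δ) (hg : ∀ b, Measurable (g b)) :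
    Measurable (fun p : α × γ => g (c p.1) p.2) := by
  intro s hs
  have : (fun p : α × γ => g (c p.1) p.2) ⁻¹' s = ⋃ b, (c ⁻¹' {b}) ×ˢ (g b ⁻¹' s) := by
    ext p; simp
  rw [this]
  exact MeasurableSet.iUnion fun b => (hc b).prod (hg b hs)

theorem measurable_coord (e : Sym2 ℕ) : MeasurableSet {a : Sym2 ℕ → Bool | e ∈ eset a} := by
  by_cases he : e.IsDiag
  · simp [eset, he]
  · simp only [eset, he, not_false_eq_true, true_and, Set.mem_ofPred_eq]
    exact (measurable_pi_apply (X := fun _ : Sym2 ℕ => Bool) e) (measurableSet_singleton true)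

theorem measurable_inBall (W : Finset ℕ) :
    ∀ (n v : ℕ), MeasurableSet {a : Sym2 ℕ → Bool | InBall a W n v}
  | 0, v => by simp only [InBall]; exact MeasurableSet.const _
  | n + 1, v => by
    have : {a : Sym2 ℕ → Bool | InBall a W (n + 1) v} =
        {a | InBall a W n v} ∪ ⋃ u, ({a | InBall a W n u} ∩ {a | s(u, v) ∈ eset a}) := by
      ext a; simp [InBall]
    rw [this]
    exact (measurable_inBall W n v).union
      (MeasurableSet.iUnion fun u => (measurable_inBall W n u).inter (measurable_coord _))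

theorem measurableSet_inBall_eq (W : Finset ℕ) (n : ℕ) (s : Finset ℕ) :
    MeasurableSet {a : Sym2 ℕ → Bool | {v | InBall a W n v} = ↑s} := by
  have : {a : Sym2 ℕ → Bool | {v | InBall a W n v} = ↑s} =
      ⋂ v, {a | InBall a W n v ↔ v ∈ s} := by
    ext a; simp [Set.ext_iff]
  rw [this]
  refine MeasurableSet.iInter fun v => ?_
  by_cases hv : v ∈ s
  · simpa [hv] using measurable_inBall W n v
  · simpa [hv, Set.compl_ofPred] using (measurable_inBall W n v).compl

theorem ballS_fiber (W : Finset ℕ) (n : ℕ) (s : Finset ℕ) :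
    MeasurableSet {a : Sym2 ℕ → Bool | ballS a W n = s} := by
  classical
  have : {a : Sym2 ℕ → Bool | ballS a W n = s} =
      {a | {v | InBall a W n v} = ↑s} ∪
        ({_a | s = ∅} ∩ (⋃ t : Finset ℕ, {a | {v | InBall a W n v} = ↑t})ᶜ) := by
    ext a
    simp only [ballS, Set.mem_ofPred_eq, Set.mem_union, Set.mem_inter_iff, Set.mem_compl_iff,
      Set.mem_iUnion, not_exists]
    constructor
    · intro h
      split_ifs at h with hfin
      · left; rw [← h]; simp
      · exact Or.inr ⟨h.symm, fun t ht => hfin (ht ▸ t.finite_toSet)⟩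
    · rintro (h | ⟨h, hall⟩)
      · rw [dif_pos (h ▸ s.finite_toSet)]
        apply Finset.coe_injective
        simpa using h
      · rw [dif_neg (fun hfin => hall hfin.toFinset (by simp)), h]
  rw [this]
  exact (measurableSet_inBall_eq W n s).union ((MeasurableSet.const _).inter
    (MeasurableSet.iUnion fun t => measurableSet_inBall_eq W n t).compl)

theorem code_fiber (W : Finset ℕ) (n : ℕ) (b : Finset ℕ × Finset (Sym2 ℕ)) :
    MeasurableSet ((fun a : Sym2 ℕ → Bool => (ballS a W n, edgesIn a (ballS a W n))) ⁻¹' {b}) := by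
  classical
  obtain ⟨s, f⟩ := b
  have : (fun a : Sym2 ℕ → Bool => (ballS a W n, edgesIn a (ballS a W n))) ⁻¹' {(s, f)} =
      {a | ballS a W n = s} ∩ ⋂ e, {a | ((∀ v ∈ e, v ∈ s) ∧ e ∈ eset a) ↔ e ∈ f} := by
    ext a
    simp only [Set.mem_preimage, Set.mem_singleton_iff, Prod.mk.injEq, Set.mem_inter_iff,
      Set.mem_ofPred_eq, Set.mem_iInter]
    refine and_congr_right fun h => ?_
    rw [h, Finset.ext_iff]
    simp only [mem_edgesIn]
  rw [this]
  refine (ballS_fiber W n s).inter (MeasurableSet.iInter fun e => ?_)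
  by_cases hv : ∀ v ∈ e, v ∈ s
  · by_cases he : e ∈ f
    · simp only [he, iff_true]; simpa [eq_true hv] using measurable_coord e
    · simp only [he, iff_false]; simpa [eq_true hv, Set.compl_ofPred] using (measurable_coord e).compl
  · simp [hv]

theorem measurable_curr (S : Finset ℕ) (F : Finset (Sym2 ℕ)) (e g : Sym2 ℕ) :
    Measurable (fun y : Sym2 ℕ → ℝ => curr S F y e g) := by
  classical
  unfold curr Zf
  refine Measurable.div (Finset.measurable_sum _ fun T _ => ?_)
    (Finset.measurable_sum _ fun T _ => by unfold wt; fun_prop)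
  split_ifs
  · unfold wt; fun_prop
  · fun_prop

theorem measurable_entry (S : Finset ℕ) (F : Finset (Sym2 ℕ)) (e g : Sym2 ℕ) :
    Measurable (fun y : Sym2 ℕ → ℝ => entry S F y e g) := by
  unfold entry
  split_ifs
  · exact (by fun_prop : Measurable fun y : Sym2 ℕ → ℝ => Real.exp ((y e - y g) / 2)).mul
      (measurable_curr S F e g)
  · fun_prop

theorem measurable_locEntry (n : ℕ) (j g : Sym2 ℕ) :
    Measurable (fun p : (Sym2 ℕ → Bool) × (Sym2 ℕ → ℝ) => locEntry p.1 p.2 n j g) :=
  measurable_of_code (fun a : Sym2 ℕ → Bool =>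
      (ballS a g.toFinset n, edgesIn a (ballS a g.toFinset n)))
    (code_fiber g.toFinset n) (fun b y => entry b.1 b.2 y j g)
    (fun b => measurable_entry b.1 b.2 j g)

theorem measurable_marg (e : Sym2 ℕ) :
    Measurable (fun p : (Sym2 ℕ → Bool) × (Sym2 ℕ → ℝ) => marg p.1 p.2 e) := by
  unfold marg
  exact measurable_const.max (measurable_const.min
    (Measurable.limsup fun n => measurable_locEntry n e e))

theorem measurable_kern (j e : Sym2 ℕ) :
    Measurable (fun p : (Sym2 ℕ → Bool) × (Sym2 ℕ → ℝ) => kern p.1 p.2 j e) := by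
  unfold kern
  split_ifs
  · exact ((measurable_marg e).pow_const 2).add
      ((measurable_const.sub (measurable_marg e)).pow_const 2)
  · exact measurable_const.mul
      (Measurable.limsup fun n => (measurable_locEntry n j e).pow_const 2)

/-! ### Naturality -/

/-- The action of a relabelling on pairs. -/
def eperm (φ : ℕ ≃ ℕ) : Sym2 ℕ ≃ Sym2 ℕ where
  toFun e := e.map φ
  invFun e := e.map φ.symm
  left_inv e := by simp [Sym2.map_map, Sym2.map_id']
  right_inv e := by simp [Sym2.map_map, Sym2.map_id']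

theorem eperm_mk (φ : ℕ ≃ ℕ) (u v : ℕ) : eperm φ s(u, v) = s(φ u, φ v) := by
  simp [eperm]

theorem eperm_apply (φ : ℕ ≃ ℕ) (e : Sym2 ℕ) : eperm φ e = e.map φ := rfl

theorem mem_eperm (φ : ℕ ≃ ℕ) (e : Sym2 ℕ) (v : ℕ) : φ v ∈ eperm φ e ↔ v ∈ e := by
  induction e using Sym2.ind with
  | h x z => simp [eperm_mk]

theorem isDiag_eperm (φ : ℕ ≃ ℕ) (e : Sym2 ℕ) : (eperm φ e).IsDiag ↔ e.IsDiag := by
  induction e using Sym2.ind with
  | h x z => simp [eperm_mk]

theorem mem_eset_relabel (φ : ℕ ≃ ℕ) (a : Sym2 ℕ → Bool) (e : Sym2 ℕ) :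
    eperm φ e ∈ eset (relabel φ a) ↔ e ∈ eset a := by
  have : relabel φ a (eperm φ e) = a e := by
    show a ((eperm φ).symm (eperm φ e)) = a e
    simp
  simp [eset, this, isDiag_eperm]

theorem inBall_relabel (φ : ℕ ≃ ℕ) (a : Sym2 ℕ → Bool) (W : Finset ℕ) :
    ∀ n v, InBall (relabel φ a) (W.image φ) n (φ v) ↔ InBall a W n v
  | 0, v => by simp [InBall]
  | n + 1, v => by
    simp only [InBall, inBall_relabel φ a W n v]
    refine or_congr_right ⟨fun ⟨u, hu, hh⟩ => ⟨φ.symm u, ?_, ?_⟩, fun ⟨u, hu, hh⟩ => ⟨φ u, ?_, ?_⟩⟩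
    · rw [← inBall_relabel φ a W n (φ.symm u)]; simpa using hu
    · rw [← mem_eset_relabel φ, eperm_mk]; simpa using hh
    · exact (inBall_relabel φ a W n u).2 hu
    · rw [← eperm_mk, mem_eset_relabel]; exact hh

theorem ballS_relabel (φ : ℕ ≃ ℕ) (a : Sym2 ℕ → Bool) (W : Finset ℕ) (n : ℕ) :
    ballS (relabel φ a) (W.image φ) n = (ballS a W n).image φ := by
  classical
  have hset : {v | InBall (relabel φ a) (W.image φ) n v} = φ '' {v | InBall a W n v} := by
    ext v
    obtain ⟨u, rfl⟩ := φ.surjective v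
    simp [inBall_relabel]
  unfold ballS
  by_cases h : {v | InBall a W n v}.Finite
  · have h' : {v | InBall (relabel φ a) (W.image φ) n v}.Finite := hset ▸ h.image _
    rw [dif_pos h, dif_pos h']
    apply Finset.coe_injective
    simp [hset]
  · have h' : ¬ {v | InBall (relabel φ a) (W.image φ) n v}.Finite := by
      rw [hset]; exact fun hh => h (hh.of_finite_image φ.injective.injOn)
    rw [dif_neg h, dif_neg h', Finset.image_empty]

theorem edgesIn_relabel (φ : ℕ ≃ ℕ) (a : Sym2 ℕ → Bool) (S : Finset ℕ) :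
    edgesIn (relabel φ a) (S.image φ) = (edgesIn a S).image (eperm φ) := by
  classical
  ext e
  obtain ⟨d, rfl⟩ := (eperm φ).surjective e
  rw [Finset.mem_image]
  simp only [mem_edgesIn, mem_eset_relabel, EmbeddingLike.apply_eq_iff_eq, exists_eq_right]
  refine and_congr_left fun _ => ⟨fun h v hv => ?_, fun h w hw => ?_⟩
  · simpa using h (φ v) ((mem_eperm φ d v).2 hv)
  · obtain ⟨v, rfl⟩ := φ.surjective w
    exact Finset.mem_image_of_mem _ (h v ((mem_eperm φ d v).1 hw))

theorem isT_map (φ : ℕ ≃ ℕ) {S : Finset ℕ} {T : Finset (Sym2 ℕ)} (h : IsT S T) :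
    IsT (S.image φ) (T.image (eperm φ)) := by
  classical
  obtain ⟨hT, hne, hcard, hconst⟩ := isT_iff.1 h
  rw [isT_iff]
  refine ⟨?_, hne.image _, ?_, fun f hf u hu v hv => ?_⟩
  · intro e he
    obtain ⟨d, hd, rfl⟩ := Finset.mem_image.1 he
    refine ⟨fun hh => (hT d hd).1 ((isDiag_eperm φ d).1 hh), fun w hw => ?_⟩
    obtain ⟨v, rfl⟩ := φ.surjective w
    exact Finset.mem_image_of_mem _ ((hT d hd).2 v ((mem_eperm φ d v).1 hw))
  · rw [Finset.card_image_of_injective _ (eperm φ).injective,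
      Finset.card_image_of_injective _ φ.injective, hcard]
  · obtain ⟨u', hu', rfl⟩ := Finset.mem_image.1 hu
    obtain ⟨v', hv', rfl⟩ := Finset.mem_image.1 hv
    refine hconst (f ∘ φ) (fun e he => ?_) u' hu' v' hv'
    induction e using Sym2.ind with
    | h x z =>
      rw [grd_eq_zero_iff]
      exact (grd_eq_zero_iff f _ _).1 (by rw [← eperm_mk]; exact hf _ (Finset.mem_image_of_mem _ he))

theorem isT_relabel (φ : ℕ ≃ ℕ) (S : Finset ℕ) (T : Finset (Sym2 ℕ)) :
    IsT (S.image φ) (T.image (eperm φ)) ↔ IsT S T := by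
  classical
  refine ⟨fun h => ?_, isT_map φ⟩
  have := isT_map φ.symm h
  rw [Finset.image_image, Finset.image_image] at this
  have h1 : ((φ.symm : ℕ → ℕ) ∘ φ) = id := by funext x; simp
  have h2 : ((eperm φ.symm : Sym2 ℕ → Sym2 ℕ) ∘ eperm φ) = id := by
    funext e; exact (eperm φ).symm_apply_apply e
  rwa [h1, h2, Finset.image_id, Finset.image_id] at this

/-- The change of orientation of an edge under a relabelling. -/
def osgn (φ : ℕ ≃ ℕ) (e : Sym2 ℕ) : ℝ := if φ e.inf ≤ φ e.sup then 1 else -1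

theorem osgn_sq (φ : ℕ ≃ ℕ) (e : Sym2 ℕ) : osgn φ e * osgn φ e = 1 := by
  unfold osgn; split_ifs <;> norm_num

theorem grd_eperm (φ : ℕ ≃ ℕ) (f : ℕ → ℝ) (e : Sym2 ℕ) :
    grd f (eperm φ e) = osgn φ e * grd (f ∘ φ) e := by
  induction e using Sym2.ind with
  | h x z =>
    rw [eperm_mk, grd_mk, grd_mk]
    unfold osgn
    simp only [Sym2.inf_mk, Sym2.sup_mk]
    rcases le_total x z with h | h
    · simp only [max_eq_right h, min_eq_left h, Function.comp_apply]
      split_ifs with h'
      · rw [max_eq_right h', min_eq_left h']; ring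
      · rw [max_eq_left (le_of_not_ge h'), min_eq_right (le_of_not_ge h')]; ring
    · simp only [max_eq_left h, min_eq_right h, Function.comp_apply]
      split_ifs with h'
      · rw [max_eq_left h', min_eq_right h']; ring
      · rw [max_eq_right (le_of_not_ge h'), min_eq_left (le_of_not_ge h')]; ring

theorem coef_relabel (φ : ℕ ≃ ℕ) {S : Finset ℕ} {T : Finset (Sym2 ℕ)} (h : IsT S T)
    {e g : Sym2 ℕ} (he : ∀ v ∈ e, v ∈ S) :
    coef (S.image φ) (T.image (eperm φ)) (eperm φ e) (eperm φ g) =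
      osgn φ e * osgn φ g * coef S T e g := by
  classical
  have hf : ∀ e' ∈ T.image (eperm φ),
      grd (fun x => 0 + osgn φ g * pot S T g (φ.symm x)) e' =
        if e' = eperm φ g then 1 else 0 := by
    intro e' he'
    obtain ⟨d, hd, rfl⟩ := Finset.mem_image.1 he'
    rw [grd_smul_add (fun _ => (0:ℝ)), grd_eperm φ (fun x => pot S T g (φ.symm x)) d]
    have : ((fun x => pot S T g (φ.symm x)) ∘ φ) = pot S T g := by funext x; simp
    rw [this, pot_spec h g d hd]
    simp only [grd, sub_self, zero_add, EmbeddingLike.apply_eq_iff_eq]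
    split_ifs with hdg
    · subst hdg; rw [mul_one, osgn_sq]
    · simp
  have he' : ∀ w ∈ eperm φ e, w ∈ S.image φ := by
    intro w hw
    obtain ⟨v, rfl⟩ := φ.surjective w
    exact Finset.mem_image_of_mem _ (he v ((mem_eperm φ e v).1 hw))
  rw [coef_eq (isT_map φ h) hf he', grd_smul_add (fun _ => (0:ℝ)),
    grd_eperm φ (fun x => pot S T g (φ.symm x)) e]
  have : ((fun x => pot S T g (φ.symm x)) ∘ φ) = pot S T g := by funext x; simp
  rw [this]
  simp only [grd, coef, sub_self, zero_add]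
  ring

theorem trees_relabel (φ : ℕ ≃ ℕ) (S : Finset ℕ) (F : Finset (Sym2 ℕ)) :
    trees (S.image φ) (F.image (eperm φ)) = (trees S F).image (fun T => T.image (eperm φ)) := by
  classical
  ext T'
  simp only [mem_trees, Finset.mem_image]
  constructor
  · rintro ⟨hs, hT⟩
    obtain ⟨T, hTF, rfl⟩ := Finset.subset_image_iff.1 hs
    exact ⟨T, ⟨hTF, (isT_relabel φ S T).1 hT⟩, rfl⟩
  · rintro ⟨T, ⟨hTF, hT⟩, rfl⟩
    exact ⟨Finset.image_subset_image hTF, isT_map φ hT⟩

theorem wt_relabel (φ : ℕ ≃ ℕ) (y : Sym2 ℕ → ℝ) (T : Finset (Sym2 ℕ)) :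
    wt (y ∘ (eperm φ).symm) (T.image (eperm φ)) = wt y T := by
  classical
  simp [wt, Finset.sum_image (eperm φ).injective.injOn]

theorem Zf_relabel (φ : ℕ ≃ ℕ) (S : Finset ℕ) (F : Finset (Sym2 ℕ)) (y : Sym2 ℕ → ℝ) :
    Zf (S.image φ) (F.image (eperm φ)) (y ∘ (eperm φ).symm) = Zf S F y := by
  classical
  unfold Zf
  rw [trees_relabel, Finset.sum_image fun x _ z _ h => Finset.image_injective (eperm φ).injective h]
  exact Finset.sum_congr rfl fun T _ => wt_relabel φ y T

theorem entry_relabel (φ : ℕ ≃ ℕ) {S : Finset ℕ} {F : Finset (Sym2 ℕ)}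
    (hF : ∀ e ∈ F, ∀ v ∈ e, v ∈ S) (y : Sym2 ℕ → ℝ) (e g : Sym2 ℕ) :
    entry (S.image φ) (F.image (eperm φ)) (y ∘ (eperm φ).symm) (eperm φ e) (eperm φ g) =
      osgn φ e * osgn φ g * entry S F y e g := by
  classical
  unfold entry
  simp only [(eperm φ).injective.mem_finset_image, Function.comp_apply, Equiv.symm_apply_apply]
  split_ifs with h
  · unfold curr
    rw [Zf_relabel, trees_relabel,
      Finset.sum_image fun x _ z _ h => Finset.image_injective (eperm φ).injective h]
    have : ∀ T ∈ trees S F, (if eperm φ g ∈ T.image (eperm φ) then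
        wt (y ∘ (eperm φ).symm) (T.image (eperm φ)) *
          coef (S.image φ) (T.image (eperm φ)) (eperm φ e) (eperm φ g) else 0) =
        osgn φ e * osgn φ g * (if g ∈ T then wt y T * coef S T e g else 0) := by
      intro T hT
      simp only [(eperm φ).injective.mem_finset_image, wt_relabel]
      split_ifs
      · rw [coef_relabel φ (mem_trees.1 hT).2 (hF e h.1)]; ring
      · simp
    rw [Finset.sum_congr rfl this, ← Finset.mul_sum]
    ring
  · simp

theorem locEntry_relabel (φ : ℕ ≃ ℕ) (a : Sym2 ℕ → Bool) (y : Sym2 ℕ → ℝ) (n : ℕ)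
    (j g : Sym2 ℕ) :
    locEntry (relabel φ a) (y ∘ (eperm φ).symm) n (eperm φ j) (eperm φ g) =
      osgn φ j * osgn φ g * locEntry a y n j g := by
  classical
  have hW : (eperm φ g).toFinset = g.toFinset.image φ := by
    ext w
    obtain ⟨v, rfl⟩ := φ.surjective w
    simp [mem_eperm]
  unfold locEntry
  rw [hW, ballS_relabel, edgesIn_relabel]
  exact entry_relabel φ (fun e he => (mem_edgesIn.1 he).1) y j g

theorem marg_relabel (φ : ℕ ≃ ℕ) (a : Sym2 ℕ → Bool) (y : Sym2 ℕ → ℝ) (e : Sym2 ℕ) :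
    marg (relabel φ a) (y ∘ (eperm φ).symm) (eperm φ e) = marg a y e := by
  unfold marg
  congr 3
  funext n
  rw [locEntry_relabel, osgn_sq, one_mul]

theorem kern_relabel (φ : ℕ ≃ ℕ) (a : Sym2 ℕ → Bool) (y : Sym2 ℕ → ℝ) (j e : Sym2 ℕ) :
    kern (relabel φ a) (y ∘ (eperm φ).symm) (eperm φ j) (eperm φ e) = kern a y j e := by
  unfold kern
  simp only [EmbeddingLike.apply_eq_iff_eq, marg_relabel]
  congr 2
  congr 1
  funext n
  rw [locEntry_relabel, mul_pow]
  have : (osgn φ j * osgn φ e) ^ 2 = 1 := by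
    rw [mul_pow, pow_two, pow_two, osgn_sq, osgn_sq, one_mul]
  rw [this, one_mul]

theorem good_relabel (φ : ℕ ≃ ℕ) {a : Sym2 ℕ → Bool} (ha : Good a) : Good (relabel φ a) := by
  have hadj : ∀ u v, (graphOf (relabel φ a)).Adj (φ u) (φ v) ↔ (graphOf a).Adj u v := fun u v => by
    rw [adj_iff, adj_iff, ← eperm_mk, mem_eset_relabel]
  refine ⟨fun u => ?_, ?_, fun v => ?_⟩
  · simpa [relabel] using ha.1 (φ.symm u)
  · let f : graphOf a ≃g graphOf (relabel φ a) := ⟨φ, fun {u v} => hadj u v⟩
    exact (f.connected_iff).1 ha.2.1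
  · obtain ⟨u, rfl⟩ := φ.surjective v
    refine ((ha.2.2 u).image φ).subset fun w hw => ?_
    obtain ⟨x, rfl⟩ := φ.surjective w
    exact ⟨x, (hadj u x).1 hw, rfl⟩

end

end Vale.Agent.P143
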