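import Vale.Agent.P143.Urg

/-!
Cayley graphs as unimodular random graphs, and transfer along a numbering of the group.
-/

namespace Vale.Agent.P143

open Finset Filter Topology MeasureTheory ProbabilityTheory
open scoped ENNReal

noncomputable section

variable {Γ : Type*}

open scoped Classical in
/-- The code of a graph along a numbering of its vertices. -/
def codeOf (ψ : Γ ≃ ℕ) (G : SimpleGraph Γ) : Cfg := fun e => decide (e.map ψ.symm ∈ G.edgeSet)

theorem graphOf_codeOf (ψ : Γ ≃ ℕ) (G : SimpleGraph Γ) (g h : Γ) :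
    (graphOf (codeOf ψ G)).Adj (ψ g) (ψ h) ↔ G.Adj g h := by
  classical
  show (ψ g ≠ ψ h ∧ decide (Sym2.map ψ.symm s(ψ g, ψ h) ∈ G.edgeSet) = true) ↔ _
  rw [decide_eq_true_eq, Sym2.map_mk, Equiv.symm_apply_apply, Equiv.symm_apply_apply,
    SimpleGraph.mem_edgeSet]
  exact ⟨fun hh => hh.2, fun hh => ⟨fun he => hh.ne (ψ.injective he), hh⟩⟩

/-- Pulling an edge configuration back along a numbering. -/
def pull (ψ : Γ ≃ ℕ) (ω : Cfg) : Sym2 Γ → Bool := fun e => ω (e.map ψ)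

theorem measurable_pull (ψ : Γ ≃ ℕ) : Measurable (pull ψ) :=
  measurable_pi_lambda _ fun _ => measurable_pi_apply _

/-- A subgraph moved along the numbering. -/
def moveSub (ψ : Γ ≃ ℕ) {G : SimpleGraph Γ} (H : G.Subgraph) :
    (graphOf (codeOf ψ G)).Subgraph where
  verts := ψ '' H.verts
  Adj u v := H.Adj (ψ.symm u) (ψ.symm v)
  adj_sub {u v} h := by
    have := (graphOf_codeOf ψ G (ψ.symm u) (ψ.symm v)).2 (H.adj_sub h)
    simpa using this
  edge_vert {u v} h := ⟨ψ.symm u, H.edge_vert h, by simp⟩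
  symm := ⟨fun u v h => h.symm⟩

theorem mem_edgeSet_moveSub (ψ : Γ ≃ ℕ) {G : SimpleGraph Γ} (H : G.Subgraph) (e : Sym2 Γ) :
    e.map ψ ∈ (moveSub ψ H).edgeSet ↔ e ∈ H.edgeSet := by
  induction e using Sym2.ind with
  | h g h => simp [moveSub]

theorem map_map_symm (ψ : Γ ≃ ℕ) (e : Sym2 ℕ) : (e.map ψ.symm).map ψ = e := by
  simp [Sym2.map_map, Sym2.map_id']

theorem isSpanTree_move (ψ : Γ ≃ ℕ) {G : SimpleGraph Γ} (H : G.Subgraph) (T : Set (Sym2 Γ)) :
    IsSpanTree (moveSub ψ H) (Sym2.map ψ '' T) ↔ IsSpanTree H T := by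
  have hinj : Function.Injective (Sym2.map ψ) := Sym2.map.injective ψ.injective
  unfold IsSpanTree
  refine and_congr ⟨fun h e he => (mem_edgeSet_moveSub ψ H e).1 (h ⟨e, he, rfl⟩), ?_⟩ ?_
  · rintro h _ ⟨e, he, rfl⟩
    exact (mem_edgeSet_moveSub ψ H e).2 (h he)
  · let f : (SimpleGraph.fromEdgeSet T).induce H.verts ≃g
        (SimpleGraph.fromEdgeSet (Sym2.map ψ '' T)).induce (moveSub ψ H).verts :=
      { toEquiv := ψ.image H.verts
        map_rel_iff' := fun {x z} => by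
          show (s(ψ x.1, ψ z.1) ∈ Sym2.map ψ '' T ∧ ψ x.1 ≠ ψ z.1) ↔ (s(x.1, z.1) ∈ T ∧ x.1 ≠ z.1)
          rw [← Sym2.map_mk (f := ψ), hinj.mem_set_image, ψ.injective.ne_iff] }
    exact f.isTree_iff.symm

theorem ustProb_move (ψ : Γ ≃ ℕ) {G : SimpleGraph Γ} (H : G.Subgraph) (A : Finset (Sym2 Γ))
    (η : Sym2 Γ → Bool) :
    ustProb H A η = ustProb (moveSub ψ H) (A.image (Sym2.map ψ)) (fun e => η (e.map ψ.symm)) := by
  classical
  have hinj : Function.Injective (Set.image (Sym2.map ψ)) :=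
    Set.image_injective.2 (Sym2.map.injective ψ.injective)
  have hsurj : ∀ T' : Set (Sym2 ℕ), ∃ T : Set (Sym2 Γ), Sym2.map ψ '' T = T' := fun T' =>
    ⟨Sym2.map ψ.symm '' T', by
      rw [Set.image_image]; simp only [map_map_symm, Set.image_id']⟩
  have h1 : {T : Set (Sym2 ℕ) | IsSpanTree (moveSub ψ H) T ∧
      ∀ e ∈ A.image (Sym2.map ψ), (e ∈ T ↔ η (e.map ψ.symm) = true)} =
      Set.image (Sym2.map ψ) '' {T | IsSpanTree H T ∧ ∀ e ∈ A, (e ∈ T ↔ η e = true)} := by
    ext T'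
    obtain ⟨T, rfl⟩ := hsurj T'
    rw [hinj.mem_set_image]
    simp only [Set.mem_ofPred_eq, isSpanTree_move, Finset.forall_mem_image,
      (Sym2.map.injective ψ.injective).mem_set_image, Sym2.map_map, Equiv.symm_comp_self,
      Sym2.map_id', id_eq]
  have h2 : {T : Set (Sym2 ℕ) | IsSpanTree (moveSub ψ H) T} =
      Set.image (Sym2.map ψ) '' {T | IsSpanTree H T} := by
    ext T'
    obtain ⟨T, rfl⟩ := hsurj T'
    rw [hinj.mem_set_image]
    simp only [Set.mem_ofPred_eq, isSpanTree_move]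
  unfold ustProb
  rw [h1, h2, Set.ncard_image_of_injective _ hinj, Set.ncard_image_of_injective _ hinj]

theorem exhaustion_move (ψ : Γ ≃ ℕ) {G : SimpleGraph Γ} {H : ℕ → G.Subgraph}
    (hH : IsExhaustion G H) :
    IsExhaustion (graphOf (codeOf ψ G)) (fun n => moveSub ψ (H n)) := by
  obtain ⟨hfc, hmono, hv, he⟩ := hH
  refine ⟨fun n => ⟨(hfc n).1.image ψ, ?_⟩, fun m n h => ⟨Set.image_mono (hmono h).1, fun u v huv => (hmono h).2 huv⟩,
    fun v => ?_, fun u v huv => ?_⟩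
  · let f : (H n).coe →g (moveSub ψ (H n)).coe :=
      ⟨fun z => ⟨ψ z.1, z.1, z.2, rfl⟩, fun {u v} huv => by
        show (H n).Adj (ψ.symm (ψ u.1)) (ψ.symm (ψ v.1))
        simpa using huv⟩
    exact ⟨SimpleGraph.Connected.map f (fun z => by
      obtain ⟨g, hg, hgz⟩ := z.2
      exact ⟨⟨g, hg⟩, Subtype.ext hgz⟩) (hfc n).2.coe⟩
  · obtain ⟨n, hn⟩ := hv (ψ.symm v)
    exact ⟨n, ψ.symm v, hn, by simp⟩
  · obtain ⟨n, hn⟩ := he (ψ.symm u) (ψ.symm v) ((graphOf_codeOf ψ G _ _).1 (by simpa using huv))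
    exact ⟨n, hn⟩

theorem isFUSF_pull (ψ : Γ ≃ ℕ) {G : SimpleGraph Γ} {μ : Measure Cfg}
    (h : IsFUSF (graphOf (codeOf ψ G)) μ) : IsFUSF G (μ.map (pull ψ)) := by
  classical
  have := h.1
  refine ⟨Measure.isProbabilityMeasure_map (measurable_pull ψ).aemeasurable, fun H hH A η => ?_⟩
  have hlim := h.2 _ (exhaustion_move ψ hH) (A.image (Sym2.map ψ)) (fun e => η (e.map ψ.symm))
  have hset : pull ψ ⁻¹' {ω | ∀ e ∈ A, ω e = η e} =
      {ω : Cfg | ∀ e ∈ A.image (Sym2.map ψ), ω e = η (e.map ψ.symm)} := by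
    ext ω
    simp [pull, Sym2.map_map, Sym2.map_id']
  have hm : MeasurableSet {ω : Sym2 Γ → Bool | ∀ e ∈ A, ω e = η e} := by
    have : {ω : Sym2 Γ → Bool | ∀ e ∈ A, ω e = η e} =
        ⋂ e ∈ A, (fun ω : Sym2 Γ → Bool => ω e) ⁻¹' {η e} := by ext ω; simp
    rw [this]
    exact MeasurableSet.biInter A.countable_toSet fun e _ =>
      (measurable_pi_apply (X := fun _ : Sym2 Γ => Bool) e) (measurableSet_singleton _)
  rw [map_measureReal_apply (measurable_pull ψ) hm, hset]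
  exact hlim.congr fun n => (ustProb_move ψ (H n) A η).symm

variable [Group Γ]

/-- The numbered action of left multiplication. -/
def leftPerm (ψ : Γ ≃ ℕ) (γ : Γ) : ℕ ≃ ℕ := (ψ.symm.trans (Equiv.mulLeft γ)).trans ψ

theorem leftPerm_apply (ψ : Γ ≃ ℕ) (γ g : Γ) : leftPerm ψ γ (ψ g) = ψ (γ * g) := by
  simp [leftPerm]

theorem cayley_adj (S : Finset Γ) (g h : Γ) :
    (cayley S).Adj g h ↔ g ≠ h ∧ (g⁻¹ * h ∈ S ∨ h⁻¹ * g ∈ S) := by
  simp [cayley]

theorem cayley_translate (S : Finset Γ) (γ g h : Γ) :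
    (cayley S).Adj (γ * g) (γ * h) ↔ (cayley S).Adj g h := by
  simp [cayley_adj, mul_assoc]

theorem relabel_codeOf (ψ : Γ ≃ ℕ) (S : Finset Γ) (γ : Γ) :
    relabel (leftPerm ψ γ) (codeOf ψ (cayley S)) = codeOf ψ (cayley S) := by
  classical
  funext e
  induction e using Sym2.ind with
  | h u v =>
    simp only [relabel, codeOf, Sym2.map_mk, SimpleGraph.mem_edgeSet, decide_eq_decide, leftPerm,
      Equiv.symm_trans_apply, Equiv.symm_symm, Equiv.symm_apply_apply, Equiv.mulLeft_symm_apply]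
    exact cayley_translate S γ⁻¹ _ _

theorem cayley_connected (S : Finset Γ) (hgen : Subgroup.closure (S : Set Γ) = ⊤) :
    (cayley S).Connected := by
  let hom : ∀ γ : Γ, cayley S →g cayley S := fun γ =>
    ⟨fun g => γ * g, fun {a b} h => (cayley_translate S γ a b).2 h⟩
  have h : ∀ g : Γ, (cayley S).Reachable 1 g := by
    intro g
    have hg : g ∈ Subgroup.closure (S : Set Γ) := hgen ▸ Subgroup.mem_top g
    induction hg using Subgroup.closure_induction with
    | mem x hx =>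
      by_cases h1 : (1 : Γ) = x
      · rw [← h1]
      · exact SimpleGraph.Adj.reachable ((cayley_adj S 1 x).2 ⟨h1, Or.inl (by simpa using hx)⟩)
    | one => exact SimpleGraph.Reachable.refl _
    | mul x z _ _ hx hz =>
      refine hx.trans ?_
      have := hz.map (hom x)
      simpa [hom] using this
    | inv x _ hx =>
      have := hx.map (hom x⁻¹)
      simpa [hom] using this.symm
  rw [SimpleGraph.connected_iff_exists_forall_reachable]
  exact ⟨1, h⟩

theorem good_codeOf (ψ : Γ ≃ ℕ) (S : Finset Γ) (hgen : Subgroup.closure (S : Set Γ) = ⊤) :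
    Good (codeOf ψ (cayley S)) := by
  classical
  refine ⟨fun u => by simp [codeOf], ?_, fun v => ?_⟩
  · let f : cayley S →g graphOf (codeOf ψ (cayley S)) :=
      ⟨ψ, fun {a b} h => (graphOf_codeOf ψ (cayley S) a b).2 h⟩
    exact SimpleGraph.Connected.map f ψ.surjective (cayley_connected S hgen)
  · obtain ⟨g, rfl⟩ := ψ.surjective v
    refine ((S.image fun s => ψ (g * s)) ∪ (S.image fun s => ψ (g * s⁻¹))).finite_toSet.subset ?_
    intro w hw
    obtain ⟨h, rfl⟩ := ψ.surjective w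
    have hadj := (graphOf_codeOf ψ (cayley S) g h).1 hw
    rw [cayley_adj] at hadj
    simp only [Finset.coe_union, Set.mem_union, Finset.coe_image, Set.mem_image, Finset.mem_coe]
    rcases hadj.2 with h1 | h1
    · exact Or.inl ⟨_, h1, by simp⟩
    · exact Or.inr ⟨_, h1, by simp⟩

theorem isURG_cayley (ψ : Γ ≃ ℕ) (S : Finset Γ) (hgen : Subgroup.closure (S : Set Γ) = ⊤) :
    IsURG (Measure.dirac (codeOf ψ (cayley S), ψ 1)) := by
  refine ⟨inferInstance, ?_, fun f _ hinv => ?_⟩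
  · rw [ae_dirac_eq]
    exact good_codeOf ψ S hgen
  · rw [lintegral_dirac, lintegral_dirac]
    simp only
    rw [← ψ.tsum_eq, ← ψ.tsum_eq (fun v => f (codeOf ψ (cayley S)) v (ψ 1)),
      ← (Equiv.inv Γ).tsum_eq (fun g => f (codeOf ψ (cayley S)) (ψ g) (ψ 1))]
    refine tsum_congr fun g => ?_
    have h := hinv (leftPerm ψ g⁻¹) (codeOf ψ (cayley S)) (ψ 1) (ψ g)
    rw [relabel_codeOf, leftPerm_apply, leftPerm_apply, mul_one, inv_mul_cancel] at h
    simpa using h.symm

theorem countable_of_fg (S : Finset Γ) (hgen : Subgroup.closure (S : Set Γ) = ⊤) : Countable Γ := by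
  let f : FreeGroup (↥(S : Set Γ)) →* Γ := FreeGroup.lift Subtype.val
  have hr : f.range = ⊤ := by
    rw [FreeGroup.range_lift_eq_closure, Subtype.range_coe, hgen]
  exact (MonoidHom.range_eq_top.1 hr).countable

/-- On every Cayley graph the free forest is a factor of iid. -/
theorem cayley_factor [Infinite Γ] (S : Finset Γ) (hgen : Subgroup.closure (S : Set Γ) = ⊤) :
    ∃ Φ : (Γ → ℝ) → Sym2 Γ → Bool, Measurable Φ ∧
      (∀ (γ : Γ) (U : Γ → ℝ) (e : Sym2 Γ),
        Φ (fun v => U (γ⁻¹ * v)) (e.map (γ * ·)) = Φ U e) ∧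
      IsFUSF (cayley S) ((iidUnif Γ).map Φ) := by
  have := countable_of_fg S hgen
  obtain ⟨ψ⟩ := nonempty_equiv_of_countable (α := Γ) (β := ℕ)
  set a := codeOf ψ (cayley S) with ha
  have hre : Measurable fun U : Γ → ℝ => U ∘ ψ.symm :=
    measurable_pi_lambda _ fun v => measurable_pi_apply _
  have hfa : Measurable (factorMap a) := measurable_factorMap.comp measurable_prodMk_left
  refine ⟨fun U => pull ψ (factorMap a (U ∘ ψ.symm)),
    (measurable_pull ψ).comp (hfa.comp hre), fun γ U e => ?_, ?_⟩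
  · have h := factorMap_relabel (leftPerm ψ γ) a (U ∘ ψ.symm) (e.map ψ)
    rw [ha, relabel_codeOf] at h
    have h1 : (fun v => U (γ⁻¹ * v)) ∘ ψ.symm = (U ∘ ψ.symm) ∘ (leftPerm ψ γ).symm := by
      funext v; simp [leftPerm]
    have h2 : (e.map (γ * ·)).map ψ = (e.map ψ).map (leftPerm ψ γ) := by
      rw [Sym2.map_map, Sym2.map_map]
      congr 1
      funext g; simp [leftPerm]
    show factorMap a _ _ = factorMap a _ _
    rw [h1, h2, ha]
    exact h
  · have hlaw : (iidUnif Γ).map (fun U : Γ → ℝ => U ∘ ψ.symm) = iidUnif ℕ :=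
      Measure.map_infinitePi_infinitePi_of_inj (P := fun _ : Γ => unif) ψ.symm.injective
    have hst := stable_ae (isURG_cayley ψ S hgen)
    rw [ae_dirac_eq] at hst
    have hlawf := factorMap_law (good_codeOf ψ S hgen) hst
    rw [show (fun U : Γ → ℝ => pull ψ (factorMap a (U ∘ ψ.symm))) =
        (pull ψ ∘ factorMap a) ∘ (fun U : Γ → ℝ => U ∘ ψ.symm) from rfl,
      ← Measure.map_map ((measurable_pull ψ).comp hfa) hre, hlaw,
      ← Measure.map_map (measurable_pull ψ) hfa, hlawf]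
    exact isFUSF_pull ψ (isFUSF_fusf (good_codeOf ψ S hgen))

end

end Vale.Agent.P143
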