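import Vale.Agent.P143.Law

/-!
The contraction: on a unimodular random graph the iteration recovers the observations.
-/

namespace Vale.Agent.P143

open Finset Filter Topology MeasureTheory ProbabilityTheory
open scoped ENNReal

noncomputable section

/-- Exponential time weight. -/
def wgt (lam t : ℝ) : ℝ≥0∞ := ENNReal.ofReal (Real.exp (-lam * t))

open scoped Classical in
/-- Disagreement of the iteration with the observation in one slot. -/
def diffI (a : Cfg) (ω : Omg) (k : ℕ) (i : Idx) : ℝ≥0∞ :=
  if Ring a (tq ω) i ∧ it a (seedsOf a ω) k i ≠ Xt ω i then 1 else 0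

/-- Log-conductances from the iteration. -/
def yA (a : Cfg) (ω : Omg) (k : ℕ) (t : ℝ) : Sym2 ℕ → ℝ :=
  yOf a (tq ω) (it a (seedsOf a ω) k) t

/-- Log-conductances from the observations. -/
def yX (a : Cfg) (ω : Omg) (t : ℝ) : Sym2 ℕ → ℝ := yOf a (tq ω) (Xt ω) t

open scoped Classical in
/-- Number of disagreements at an edge before time `t`. -/
def cntI (a : Cfg) (ω : Omg) (k : ℕ) (t : ℝ) (j : Sym2 ℕ) : ℝ≥0∞ :=
  ∑ n ∈ Finset.range (⌊t⌋₊ + 1), if tim (tq ω) (j, n) < t then diffI a ω k (j, n) else 0

/-- Difference of predictions. -/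
def dm (a : Cfg) (ω : Omg) (k : ℕ) (t : ℝ) (e : Sym2 ℕ) : ℝ≥0∞ :=
  ENNReal.ofReal |marg a (yX a ω t) e - marg a (yA a ω k t) e|

theorem ennreal_mul_le {b c : ℝ≥0∞} (h : b ≤ c) (a : ℝ≥0∞) : a * b ≤ a * c :=
  mul_le_mul' le_rfl h

theorem dm_le {a : Cfg} (ha : Good a) (ω : Omg) (k : ℕ) {t : ℝ} {B : ℝ}
    (hB : ((⌊t⌋₊ + 1 : ℕ) : ℝ) * kap ≤ B) (e : Sym2 ℕ) :
    dm a ω k t e ≤ ENNReal.ofReal (1 + Real.exp B) *
      ∑' j, (ENNReal.ofReal (kern a (yA a ω k t) j e) + ENNReal.ofReal (kern a (yX a ω t) j e)) *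
        cntI a ω k t j := by
  classical
  have h1 : ∀ j, |yA a ω k t j| ≤ B := fun j => (abs_yOf_le _ _ _ _ _).trans hB
  have h2 : ∀ j, |yX a ω t j| ≤ B := fun j => (abs_yOf_le _ _ _ _ _).trans hB
  unfold dm
  rw [marg_eq ha h1, marg_eq ha h2, ← ENNReal.tsum_mul_left]
  refine (Pe_lipschitz (eset a) h1 h2 e).trans (ENNReal.tsum_le_tsum fun j => ?_)
  rw [kern_eq ha h1, kern_eq ha h2]
  split_ifs with h
  · exact zero_le
  · have hone : (1 : ℝ≥0∞) ≤ cntI a ω k t j := by
      obtain ⟨n, hn, hne⟩ : ∃ n ∈ Finset.range (⌊t⌋₊ + 1),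
          Ring a (tq ω) (j, n) ∧ tim (tq ω) (j, n) < t ∧
            it a (seedsOf a ω) k (j, n) ≠ Xt ω (j, n) := by
        by_contra hc
        push Not at hc
        refine h ?_
        unfold yA yX yOf
        refine Finset.sum_congr rfl fun n hn => ?_
        by_cases hr : Ring a (tq ω) (j, n) ∧ tim (tq ω) (j, n) < t
        · simp only [if_pos hr, hc n hn hr.1 hr.2]
        · simp only [if_neg hr]
      refine le_trans ?_ (Finset.single_le_sum (fun m _ => zero_le) hn)
      rw [if_pos hne.2.1, diffI, if_pos ⟨hne.1, hne.2.2⟩]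
    rw [← mul_assoc]
    exact le_mul_of_one_le_right' hone

theorem lintegral_jlaw_resample (a : Cfg) (i : Idx) {f : Omg → ℝ≥0∞} (hf : Measurable f) :
    ∫⁻ ω, f ω ∂jlaw a =
      ∫⁻ ω, ∫⁻ z, f (ω.1, Function.update ω.2 i z) ∂sq2.prod sq2 ∂jlaw a := by
  have hupd : Measurable fun p : Noise × ((ℝ × ℝ) × ℝ × ℝ) => Function.update p.1 i p.2 :=
    measurable_update'
  have hm : Measurable fun ω : Omg => ∫⁻ z, f (ω.1, Function.update ω.2 i z) ∂sq2.prod sq2 := by
    refine Measurable.lintegral_prod_right'
      (f := fun p : Omg × ((ℝ × ℝ) × ℝ × ℝ) => f (p.1.1, Function.update p.1.2 i p.2)) ?_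
    exact hf.comp ((measurable_fst.comp measurable_fst).prodMk
      (hupd.comp ((measurable_snd.comp measurable_fst).prodMk measurable_snd)))
  unfold jlaw qlaw
  rw [lintegral_prod _ hf.aemeasurable, lintegral_prod _ hm.aemeasurable]
  exact lintegral_congr fun σ => lintegral_resample _ i (hf.comp measurable_prodMk_left)

theorem unif_Icc_le (x z : ℝ) : unif (Set.Icc x z) ≤ ENNReal.ofReal (z - x) := by
  rw [← Real.volume_Icc]
  exact Measure.restrict_apply_le _ _

theorem between_le {p p' : ℝ} (hp : 1 / 4 ≤ p) (hp1 : p ≤ 3 / 4) (b : Bool) :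
    unif {w : ℝ | if b then p' ≤ w * p else p + w * (1 - p) < p'} ≤
      ENNReal.ofReal (4 * |p - p'|) := by
  have hae : ∀ᵐ w ∂unif, w ∈ Set.Icc (0 : ℝ) 1 := ae_restrict_mem measurableSet_Icc
  cases b with
  | true =>
    refine (measure_mono_ae (?_ : ∀ᵐ w ∂unif, _ → w ∈ Set.Icc (p' / p) 1)).trans
      ((unif_Icc_le _ _).trans (ENNReal.ofReal_le_ofReal ?_))
    · filter_upwards [hae] with w hw h
      have h : p' ≤ w * p := h
      exact ⟨by rw [div_le_iff₀ (by linarith)]; linarith, hw.2⟩
    · have hp0 : (0 : ℝ) < p := by linarith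
      have h0 : (p - p') / p ≤ 4 * |p - p'| := by
        rw [div_le_iff₀ hp0]
        nlinarith [le_abs_self (p - p'), abs_nonneg (p - p')]
      have : (p - p') / p = 1 - p' / p := by field_simp
      linarith
  | false =>
    refine (measure_mono_ae (?_ : ∀ᵐ w ∂unif, _ → w ∈ Set.Icc 0 ((p' - p) / (1 - p)))).trans
      ((unif_Icc_le _ _).trans (ENNReal.ofReal_le_ofReal ?_))
    · filter_upwards [hae] with w hw h
      have h : p + w * (1 - p) < p' := h
      exact ⟨hw.1, by rw [le_div_iff₀ (by linarith)]; linarith⟩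
    · rw [sub_zero, div_le_iff₀ (by linarith)]
      nlinarith [neg_abs_le (p - p'), abs_nonneg (p - p')]

theorem measurable_diffI {α : Type*} [MeasurableSpace α] {fa : α → Cfg} {fω : α → Omg}
    (ha : Measurable fa) (hω : Measurable fω) (k : ℕ) (i : Idx) :
    Measurable fun x => diffI (fa x) (fω x) k i := by
  classical
  have hit : Measurable fun x => it (fa x) (seedsOf (fa x) (fω x)) k i :=
    (measurable_pi_apply i).comp (measurable_it ha (measurable_seedsOf.comp (ha.prodMk hω)) k)
  have hX : Measurable fun x => Xt (fω x) i :=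
    (measurable_pi_apply i).comp (measurable_Xt.comp hω)
  exact Measurable.ite ((measurableSet_ring ha (measurable_tq.comp hω) i).inter
    (measurableSet_eq_fun hit hX).compl) measurable_const measurable_const

theorem measurable_yA {α : Type*} [MeasurableSpace α] {fa : α → Cfg} {fω : α → Omg} {ft : α → ℝ}
    (ha : Measurable fa) (hω : Measurable fω) (ht : Measurable ft) (k : ℕ) :
    Measurable fun x => yA (fa x) (fω x) k (ft x) :=
  measurable_yOf ha (measurable_tq.comp hω)
    (measurable_it ha (measurable_seedsOf.comp (ha.prodMk hω)) k) ht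

theorem measurable_yX {α : Type*} [MeasurableSpace α] {fa : α → Cfg} {fω : α → Omg} {ft : α → ℝ}
    (ha : Measurable fa) (hω : Measurable fω) (ht : Measurable ft) :
    Measurable fun x => yX (fa x) (fω x) (ft x) :=
  measurable_yOf ha (measurable_tq.comp hω) (measurable_Xt.comp hω) ht

theorem measurable_dm {α : Type*} [MeasurableSpace α] {fa : α → Cfg} {fω : α → Omg} {ft : α → ℝ}
    (ha : Measurable fa) (hω : Measurable fω) (ht : Measurable ft) (k : ℕ) (e : Sym2 ℕ) :
    Measurable fun x => dm (fa x) (fω x) k (ft x) e :=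
  (((measurable_marg e).comp (ha.prodMk (measurable_yX ha hω ht))).sub
    ((measurable_marg e).comp (ha.prodMk (measurable_yA ha hω ht k)))).abs.ennreal_ofReal

theorem measurable_cntI {α : Type*} [MeasurableSpace α] {fa : α → Cfg} {fω : α → Omg} {ft : α → ℝ}
    (ha : Measurable fa) (hω : Measurable fω) (ht : Measurable ft) (k : ℕ) (j : Sym2 ℕ) :
    Measurable fun x => cntI (fa x) (fω x) k (ft x) j := by
  classical
  have hterm : ∀ n, Measurable fun x =>
      if tim (tq (fω x)) (j, n) < ft x then diffI (fa x) (fω x) k (j, n) else 0 := fun n =>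
    Measurable.ite (measurableSet_lt (measurable_tim (measurable_tq.comp hω) (j, n)) ht)
      (measurable_diffI ha hω k (j, n)) measurable_const
  have hfl : Measurable fun x => ⌊ft x⌋₊ := Nat.measurable_floor.comp ht
  intro s hs
  have : (fun x => cntI (fa x) (fω x) k (ft x) j) ⁻¹' s =
      ⋃ m : ℕ, (fun x => ⌊ft x⌋₊) ⁻¹' {m} ∩ (fun x => ∑ n ∈ Finset.range (m + 1),
        if tim (tq (fω x)) (j, n) < ft x then diffI (fa x) (fω x) k (j, n) else 0) ⁻¹' s := by
    ext x; simp [cntI]
  rw [this]
  exact MeasurableSet.iUnion fun m => (hfl (measurableSet_singleton m)).inter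
    ((Finset.measurable_sum _ fun n _ => hterm n) hs)

theorem measurable_wgt (lam : ℝ) : Measurable (wgt lam) := by
  unfold wgt; fun_prop

theorem measurable_slot (lam : ℝ) {α : Type*} [MeasurableSpace α] {fa : α → Cfg} {fω : α → Omg}
    (ha : Measurable fa) (hω : Measurable fω) (k : ℕ) (i : Idx) :
    Measurable fun x => diffI (fa x) (fω x) k i * wgt lam (tim (tq (fω x)) i) :=
  (measurable_diffI ha hω k i).mul
    ((measurable_wgt lam).comp (measurable_tim (measurable_tq.comp hω) i))

theorem measurable_slot' (lam : ℝ) (a : Cfg) (k : ℕ) (i : Idx) :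
    Measurable fun ω : Omg => diffI a ω k i * wgt lam (tim (tq ω) i) :=
  measurable_slot lam (fa := fun _ : Omg => a) measurable_const measurable_id k i

theorem Xt_update (σ : Cfg) (q : Noise) (i : Idx) (z : (ℝ × ℝ) × ℝ × ℝ) :
    Xt (σ, Function.update q i z) i = (if z.2.1 < 3 / 4 then σ i.1 else !σ i.1) := by
  simp [Xt]

/-- The estimate for one slot with all other slots fixed. -/
theorem one_slot_inner {a : Cfg} (ha : Good a) (lam : ℝ) (k : ℕ) {i : Idx} (hi : i.1 ∈ eset a)
    (σ : Cfg) (q : Noise) :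
    ∫⁻ z, diffI a (σ, Function.update q i z) (k + 1) i *
        wgt lam (tim (tq (σ, Function.update q i z)) i) ∂sq2.prod sq2 ≤
      4 * ∫⁻ τ, wgt lam (i.2 + τ) *
        ∫⁻ z, dm a (σ, Function.update q i z) k (i.2 + τ) i.1 ∂sq2.prod sq2 ∂unif := by
  classical
  have hdm : Measurable fun p : Omg × ℝ => dm a p.1 k (i.2 + p.2) i.1 :=
    measurable_dm measurable_const measurable_fst (by fun_prop) k i.1
  have hslot : Measurable fun ω : Omg => diffI a ω (k + 1) i * wgt lam (tim (tq ω) i) :=
    measurable_slot' lam a (k + 1) i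
  have hrate := rate_bounds ha hi
  set r := rate a i.1
  let z0 : (ℝ × ℝ) × ℝ × ℝ := ((2, 0), (0, 0))
  have hupd : Measurable fun p : Noise × ((ℝ × ℝ) × ℝ × ℝ) => Function.update p.1 i p.2 :=
    measurable_update'
  set ω0 : Omg := (σ, Function.update q i z0)
  have hsame : ∀ (z : (ℝ × ℝ) × ℝ × ℝ) (t : ℝ), (z.1.1 < r → t ≤ i.2 + z.1.2) →
      SamePast a t (σ, Function.update q i z) ω0 := by
    intro z t hz
    refine ⟨rfl, fun j => ?_⟩
    by_cases hji : j = i
    · subst hji
      have h1 : ¬ (Ring a (tq (σ, Function.update q j z)) j ∧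
          tim (tq (σ, Function.update q j z)) j < t) := by
        rintro ⟨⟨-, hr⟩, ht⟩
        simp only [tq, Function.update_self, tim] at hr ht
        linarith [hz hr]
      have h2 : ¬ (Ring a (tq ω0) j ∧ tim (tq ω0) j < t) := by
        rintro ⟨⟨-, hr⟩, -⟩
        simp only [ω0, tq, Function.update_self, z0] at hr
        linarith [hrate.2.1]
      exact ⟨iff_of_false h1 h2, fun h => absurd h h1⟩
    · simp [ω0, tq, Ring, tim, Function.update_of_ne hji]
  have hdm0 : ∀ (z : (ℝ × ℝ) × ℝ × ℝ) (t : ℝ), (z.1.1 < r → t ≤ i.2 + z.1.2) →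
      dm a (σ, Function.update q i z) k t i.1 = dm a ω0 k t i.1 := by
    intro z t hz
    have h := hsame z t hz
    simp only [dm, yX, yA, h.yX, h.yA k]
  -- the observation slot
  have hinner : ∀ ατ : ℝ × ℝ, ∫⁻ vw, diffI a (σ, Function.update q i (ατ, vw)) (k + 1) i *
        wgt lam (tim (tq (σ, Function.update q i (ατ, vw))) i) ∂sq2 ≤
      wgt lam (i.2 + ατ.2) * (2 * dm a ω0 k (i.2 + ατ.2) i.1) := by
    intro ατ
    set t := (i.2 : ℝ) + ατ.2
    have hpt : ∀ vw : ℝ × ℝ, diffI a (σ, Function.update q i (ατ, vw)) (k + 1) i *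
          wgt lam (tim (tq (σ, Function.update q i (ατ, vw))) i) ≤
        wgt lam t * (if (if (if vw.1 < 3 / 4 then σ i.1 else !σ i.1) = true then
            1 / 4 + marg a (yA a ω0 k t) i.1 / 2 ≤ vw.2 * (1 / 4 + marg a (yX a ω0 t) i.1 / 2)
          else 1 / 4 + marg a (yX a ω0 t) i.1 / 2 +
            vw.2 * (1 - (1 / 4 + marg a (yX a ω0 t) i.1 / 2)) <
              1 / 4 + marg a (yA a ω0 k t) i.1 / 2) then 1 else 0) := by
      intro vw
      set ω' : Omg := (σ, Function.update q i (ατ, vw)) with hω'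
      have htim : tim (tq ω') i = t := by simp [ω', tim, tq, t]
      rw [htim, mul_comm]
      refine ennreal_mul_le ?_ _
      by_cases hd : Ring a (tq ω') i ∧ it a (seedsOf a ω') (k + 1) i ≠ Xt ω' i
      swap
      · simp only [diffI, if_neg hd]; exact zero_le
      obtain ⟨hr, hne⟩ := hd
      simp only [diffI, if_pos (And.intro hr hne)]
      have hs : SamePast a t ω' ω0 := hsame (ατ, vw) t (fun _ => le_refl _)
      have hX : Xt ω' i = (if vw.1 < 3 / 4 then σ i.1 else !σ i.1) := Xt_update σ q i _
      have hpX : pr a (tq ω') (Xt ω') i = 1 / 4 + marg a (yX a ω0 t) i.1 / 2 := by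
        unfold pr yX; rw [htim, hs.yX]
      have hpA : pr a (tq ω') (it a (seedsOf a ω') k) i =
          1 / 4 + marg a (yA a ω0 k t) i.1 / 2 := by
        unfold pr yA; rw [htim, hs.yA k]
      have hw : (ω'.2 i).2.2 = vw.2 := by simp [ω']
      rw [it_succ_seedsOf hr, uOf, if_pos hr, hpX, hpA, hw, hX] at hne
      generalize (if vw.1 < 3 / 4 then σ i.1 else !σ i.1) = b at hne ⊢
      cases b with
      | true =>
        simp only [if_true] at hne ⊢
        refine le_of_eq (if_pos ?_).symm
        by_contra hlt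
        exact hne (decide_eq_true (lt_of_not_ge hlt))
      | false =>
        simp only [Bool.false_eq_true, if_false] at hne ⊢
        refine le_of_eq (if_pos ?_).symm
        by_contra hlt
        exact hne (decide_eq_false hlt)
    refine (lintegral_mono hpt).trans ?_
    set p := 1 / 4 + marg a (yX a ω0 t) i.1 / 2 with hp
    set p' := 1 / 4 + marg a (yA a ω0 k t) i.1 / 2 with hp'
    let Sset : Set (ℝ × ℝ) := {vw | if (if vw.1 < 3 / 4 then σ i.1 else !σ i.1) = true then
            p' ≤ vw.2 * p else p + vw.2 * (1 - p) < p'}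
    have hSm : MeasurableSet Sset := by
      have hb : MeasurableSet {vw : ℝ × ℝ | (if vw.1 < 3 / 4 then σ i.1 else !σ i.1) = true} :=
        measurableSet_eq_fun (Measurable.ite (measurableSet_lt measurable_fst measurable_const)
          measurable_const measurable_const) measurable_const
      have : Sset = ({vw | (if vw.1 < 3 / 4 then σ i.1 else !σ i.1) = true} ∩
            {vw | p' ≤ vw.2 * p}) ∪
          ({vw | (if vw.1 < 3 / 4 then σ i.1 else !σ i.1) = true}ᶜ ∩
            {vw | p + vw.2 * (1 - p) < p'}) := by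
        ext vw
        simp only [Sset, Set.mem_ofPred_eq, Set.mem_union, Set.mem_inter_iff, Set.mem_compl_iff]
        by_cases h : (if vw.1 < 3 / 4 then σ i.1 else !σ i.1) = true
        · simp only [eq_true h, if_true, true_and, not_true, false_and, or_false]
        · simp only [eq_false h, if_false, false_and, not_false_eq_true, true_and, false_or]
      rw [this]
      exact (hb.inter (measurableSet_le (by fun_prop) (by fun_prop))).union
        (hb.compl.inter (measurableSet_lt (by fun_prop) (by fun_prop)))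
    calc ∫⁻ vw, wgt lam t * (if vw ∈ Sset then 1 else 0) ∂sq2
        = wgt lam t * sq2 Sset := by
          rw [lintegral_const_mul (f := fun vw : ℝ × ℝ => if vw ∈ Sset then (1 : ℝ≥0∞) else 0) _
              (Measurable.ite hSm measurable_const measurable_const),
            ← lintegral_indicator_one hSm]
          congr 1
          exact lintegral_congr fun vw => by simp [Set.indicator_apply]
      _ ≤ wgt lam t * (2 * dm a ω0 k t i.1) := by
          refine ennreal_mul_le ?_ _
          rw [sq2, Measure.prod_apply hSm]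
          refine (lintegral_mono fun v => (?_ : _ ≤ 2 * dm a ω0 k t i.1)).trans (by simp)
          have hm0 := marg_mem a (yX a ω0 t) i.1
          refine (between_le (p := p) (p' := p') (by linarith [hm0.1]) (by linarith [hm0.2])
            (if v < 3 / 4 then σ i.1 else !σ i.1)).trans (le_of_eq ?_)
          rw [dm, show (2 : ℝ≥0∞) = ENNReal.ofReal 2 by simp, ← ENNReal.ofReal_mul zero_le_two,
            show p - p' = (marg a (yX a ω0 t) i.1 - marg a (yA a ω0 k t) i.1) / 2 by
              rw [hp, hp']; ring, abs_div, abs_two]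
          congr 1; ring
  have hz : ∀ t, dm a ω0 k t i.1 ≤
      2 * ∫⁻ z, dm a (σ, Function.update q i z) k t i.1 ∂sq2.prod sq2 := by
    intro t
    have hset : MeasurableSet ((Set.Icc r 1 ×ˢ (Set.univ : Set ℝ)) ×ˢ (Set.univ : Set (ℝ × ℝ))) :=
      (measurableSet_Icc.prod MeasurableSet.univ).prod MeasurableSet.univ
    have hlow : (sq2.prod sq2) ((Set.Icc r 1 ×ˢ (Set.univ : Set ℝ)) ×ˢ (Set.univ : Set (ℝ × ℝ))) =
        ENNReal.ofReal (1 - r) := by
      rw [Measure.prod_prod, measure_univ, mul_one]
      unfold sq2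
      rw [Measure.prod_prod, measure_univ, mul_one, unif,
        Measure.restrict_apply measurableSet_Icc,
        Set.inter_eq_left.2 (Set.Icc_subset_Icc hrate.1.le le_rfl), Real.volume_Icc]
    calc dm a ω0 k t i.1 ≤ 2 * (ENNReal.ofReal (1 - r) * dm a ω0 k t i.1) := by
          rw [← mul_assoc]
          refine le_mul_of_one_le_left' ?_
          rw [show (2 : ℝ≥0∞) = ENNReal.ofReal 2 by simp, ← ENNReal.ofReal_mul zero_le_two,
            ← ENNReal.ofReal_one]
          exact ENNReal.ofReal_le_ofReal (by linarith [hrate.2.1])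
      _ = 2 * ∫⁻ _z in (Set.Icc r 1 ×ˢ (Set.univ : Set ℝ)) ×ˢ (Set.univ : Set (ℝ × ℝ)),
            dm a ω0 k t i.1 ∂sq2.prod sq2 := by
          rw [setLIntegral_const, hlow, mul_comm (ENNReal.ofReal _)]
      _ ≤ _ := by
          refine ennreal_mul_le ?_ _
          refine le_trans (le_of_eq (setLIntegral_congr_fun hset fun z hz => ?_))
            (setLIntegral_le_lintegral _ _)
          exact (hdm0 z t (fun h => absurd h (not_lt.2 hz.1.1.1))).symm
  have hFm : Measurable fun z : (ℝ × ℝ) × ℝ × ℝ => diffI a (σ, Function.update q i z) (k + 1) i *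
      wgt lam (tim (tq (σ, Function.update q i z)) i) :=
    hslot.comp (measurable_const.prodMk (hupd.comp (measurable_const.prodMk measurable_id)))
  have hd0m : Measurable fun τ : ℝ => wgt lam (i.2 + τ) * (2 * dm a ω0 k (i.2 + τ) i.1) :=
    ((measurable_wgt lam).comp (by fun_prop)).mul
      ((hdm.comp (measurable_const.prodMk measurable_id)).const_mul 2)
  calc ∫⁻ z, diffI a (σ, Function.update q i z) (k + 1) i *
        wgt lam (tim (tq (σ, Function.update q i z)) i) ∂sq2.prod sq2
      ≤ ∫⁻ ατ, wgt lam (i.2 + ατ.2) * (2 * dm a ω0 k (i.2 + ατ.2) i.1) ∂sq2 := by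
        rw [lintegral_prod _ hFm.aemeasurable]
        exact lintegral_mono hinner
    _ = ∫⁻ τ, wgt lam (i.2 + τ) * (2 * dm a ω0 k (i.2 + τ) i.1) ∂unif := by
        rw [sq2, lintegral_prod (fun z : ℝ × ℝ => wgt lam (i.2 + z.2) * (2 * dm a ω0 k (i.2 + z.2) i.1))
          (hd0m.comp measurable_snd).aemeasurable]
        simp
    _ ≤ ∫⁻ τ, 4 * (wgt lam (i.2 + τ) *
          ∫⁻ z, dm a (σ, Function.update q i z) k (i.2 + τ) i.1 ∂sq2.prod sq2) ∂unif := by
        refine lintegral_mono fun τ => ?_
        rw [show (4 : ℝ≥0∞) = 2 * 2 by norm_num]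
        calc wgt lam (i.2 + τ) * (2 * dm a ω0 k (i.2 + τ) i.1)
            ≤ wgt lam (i.2 + τ) * (2 * (2 * ∫⁻ z, dm a (σ, Function.update q i z) k (i.2 + τ) i.1
                ∂sq2.prod sq2)) := ennreal_mul_le (ennreal_mul_le (hz _) _) _
          _ = _ := by ring
    _ = _ := lintegral_const_mul' 4 _ (by norm_num)

/-- Averaging a one-slot estimate. -/
theorem resample_bound {a : Cfg} (i : Idx) {F : Omg → ℝ≥0∞} {D : Omg × ℝ → ℝ≥0∞} {W : ℝ → ℝ≥0∞}
    (hF : Measurable F) (hD : Measurable D) (hW : Measurable W) (hW' : ∀ τ, W τ ≠ ⊤)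
    (key : ∀ σ q, ∫⁻ z, F (σ, Function.update q i z) ∂sq2.prod sq2 ≤
      4 * ∫⁻ τ, W τ * ∫⁻ z, D ((σ, Function.update q i z), τ) ∂sq2.prod sq2 ∂unif) :
    ∫⁻ ω, F ω ∂jlaw a ≤ 4 * ∫⁻ τ, W τ * ∫⁻ ω, D (ω, τ) ∂jlaw a ∂unif := by
  have hupd : Measurable fun p : Noise × ((ℝ × ℝ) × ℝ × ℝ) => Function.update p.1 i p.2 :=
    measurable_update'
  have hjoint : Measurable fun p : Omg × ℝ =>
      ∫⁻ z, D ((p.1.1, Function.update p.1.2 i z), p.2) ∂sq2.prod sq2 := by
    refine Measurable.lintegral_prod_right' (f := fun p : (Omg × ℝ) × ((ℝ × ℝ) × ℝ × ℝ) =>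
      D ((p.1.1.1, Function.update p.1.1.2 i p.2), p.1.2)) (hD.comp ?_)
    exact (((measurable_fst.comp (measurable_fst.comp measurable_fst)).prodMk
      (hupd.comp ((measurable_snd.comp (measurable_fst.comp measurable_fst)).prodMk measurable_snd)))).prodMk
      (measurable_snd.comp measurable_fst)
  rw [lintegral_jlaw_resample a i hF]
  refine (lintegral_mono fun ω : Omg => key ω.1 ω.2).trans (le_of_eq ?_)
  rw [lintegral_const_mul' 4 _ (by norm_num)]
  congr 1
  rw [lintegral_lintegral_swap ((hW.comp measurable_snd).mul hjoint).aemeasurable]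
  refine lintegral_congr fun τ => ?_
  rw [lintegral_const_mul' (W τ) _ (hW' τ)]
  congr 1
  exact (lintegral_jlaw_resample a i (hD.comp (measurable_id.prodMk measurable_const))).symm

/-- One slot: a disagreement is paid for by the disagreement of the predictions. -/
theorem one_slot {a : Cfg} (ha : Good a) (lam : ℝ) (k : ℕ) {i : Idx} (hi : i.1 ∈ eset a) :
    ∫⁻ ω, diffI a ω (k + 1) i * wgt lam (tim (tq ω) i) ∂jlaw a ≤
      4 * ∫⁻ τ, wgt lam (i.2 + τ) * ∫⁻ ω, dm a ω k (i.2 + τ) i.1 ∂jlaw a ∂unif := by
  have hD : Measurable fun p : Omg × ℝ => dm a p.1 k (i.2 + p.2) i.1 :=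
    measurable_dm measurable_const measurable_fst (by fun_prop) k i.1
  have hW : Measurable fun τ : ℝ => wgt lam (i.2 + τ) :=
    (measurable_wgt lam).comp (show Measurable fun τ : ℝ => (i.2 : ℝ) + τ by fun_prop)
  exact resample_bound (a := a) i (F := fun ω => diffI a ω (k + 1) i * wgt lam (tim (tq ω) i))
    (D := fun p => dm a p.1 k (i.2 + p.2) i.1) (W := fun τ => wgt lam (i.2 + τ))
    (measurable_slot' lam a (k + 1) i) hD hW (fun τ => ENNReal.ofReal_ne_top)
    (one_slot_inner ha lam k hi)

/-! ### Naturality of the ingredients -/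

theorem diffI_relabel (φ : ℕ ≃ ℕ) (a : Cfg) (ω : Omg) (k : ℕ) (i : Idx) :
    diffI (relabel φ a) (jperm φ ω) k (iperm φ i) = diffI a ω k i := by
  classical
  simp only [diffI, tq_relabel, ring_relabel, seedsOf_relabel, it_relabel, Xt_relabel,
    Function.comp_apply, iperm_symm_apply]

theorem yA_relabel (φ : ℕ ≃ ℕ) (a : Cfg) (ω : Omg) (k : ℕ) (t : ℝ) :
    yA (relabel φ a) (jperm φ ω) k t = yA a ω k t ∘ (eperm φ).symm := by
  simp only [yA, tq_relabel, seedsOf_relabel, it_relabel, yOf_relabel]

theorem yX_relabel (φ : ℕ ≃ ℕ) (a : Cfg) (ω : Omg) (t : ℝ) :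
    yX (relabel φ a) (jperm φ ω) t = yX a ω t ∘ (eperm φ).symm := by
  simp only [yX, tq_relabel, Xt_relabel, yOf_relabel]

theorem cntI_relabel (φ : ℕ ≃ ℕ) (a : Cfg) (ω : Omg) (k : ℕ) (t : ℝ) (j : Sym2 ℕ) :
    cntI (relabel φ a) (jperm φ ω) k t (eperm φ j) = cntI a ω k t j := by
  classical
  refine Finset.sum_congr rfl fun n _ => ?_
  have h1 := diffI_relabel φ a ω k (j, n)
  have h2 : tim (tq (jperm φ ω)) (iperm φ (j, n)) = tim (tq ω) (j, n) := by
    rw [tq_relabel]; exact tim_relabel φ _ _
  rw [iperm_apply] at h1 h2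
  simp only [h1, h2]

/-- The kernel-weighted disagreement felt by `e` from `j` at time `t`. -/
def feel (a : Cfg) (k : ℕ) (t : ℝ) (e j : Sym2 ℕ) (ω : Omg) : ℝ≥0∞ :=
  (ENNReal.ofReal (kern a (yA a ω k t) j e) + ENNReal.ofReal (kern a (yX a ω t) j e)) *
    cntI a ω k t j

theorem measurable_feel' (a : Cfg) (k : ℕ) (t : ℝ) (e j : Sym2 ℕ) : Measurable (feel a k t e j) := by
  unfold feel
  exact ((((measurable_kern j e).comp ((measurable_const (a := a)).prodMk
      (measurable_yA measurable_const measurable_id (measurable_const (a := t)) k))).ennreal_ofReal).add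
    (((measurable_kern j e).comp ((measurable_const (a := a)).prodMk
      (measurable_yX measurable_const measurable_id (measurable_const (a := t))))).ennreal_ofReal)).mul
    (measurable_cntI measurable_const measurable_id measurable_const k j)

theorem measurable_feel {α : Type*} [MeasurableSpace α] {fa : α → Cfg} {fω : α → Omg} {ft : α → ℝ}
    (ha : Measurable fa) (hω : Measurable fω) (ht : Measurable ft) (k : ℕ) (e j : Sym2 ℕ) :
    Measurable fun x => feel (fa x) k (ft x) e j (fω x) :=
  ((((measurable_kern j e).comp (ha.prodMk (measurable_yA ha hω ht k))).ennreal_ofReal).add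
    (((measurable_kern j e).comp (ha.prodMk (measurable_yX ha hω ht))).ennreal_ofReal)).mul
    (measurable_cntI ha hω ht k j)

open scoped Classical in
/-- Mass sent from `e` to `j`. -/
def flowG (a : Cfg) (k N : ℕ) (lam : ℝ) (e j : Sym2 ℕ) : ℝ≥0∞ :=
  if e ∈ eset a ∧ j ∈ eset a then
    ∑ n ∈ Finset.range N, ∫⁻ τ, wgt lam (n + τ) * ∫⁻ ω, feel a k (n + τ) e j ω ∂jlaw a ∂unif
  else 0

open scoped Classical in
/-- Weighted disagreement at a vertex. -/
def phiI (a : Cfg) (k N : ℕ) (lam : ℝ) (o : ℕ) : ℝ≥0∞ :=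
  ∫⁻ ω, ∑' j : Sym2 ℕ, (if o ∈ j then
    ∑ n ∈ Finset.range N, diffI a ω k (j, n) * wgt lam (tim (tq ω) (j, n)) else 0) ∂jlaw a

theorem unif_ae_Ico : ∀ᵐ τ ∂unif, τ ∈ Set.Ico (0 : ℝ) 1 := by
  rw [unif, Measure.restrict_congr_set Ico_ae_eq_Icc.symm]
  exact ae_restrict_mem measurableSet_Ico

theorem diffI_nonedge {a : Cfg} {ω : Omg} {k : ℕ} {i : Idx} (h : i.1 ∉ eset a) :
    diffI a ω k i = 0 := by
  classical
  exact if_neg fun hh => h hh.1.1

theorem floor_nat_add {n : ℕ} {τ : ℝ} (h : τ ∈ Set.Ico (0 : ℝ) 1) : ⌊(n : ℝ) + τ⌋₊ = n := by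
  rw [Nat.floor_eq_iff (by linarith [h.1, (Nat.cast_nonneg n : (0:ℝ) ≤ n)])]
  exact ⟨by linarith [h.1], by linarith [h.2]⟩

theorem phiI_step {a : Cfg} (ha : Good a) (k N : ℕ) (lam : ℝ) (o : ℕ) :
    phiI a (k + 1) N lam o ≤ (4 * ENNReal.ofReal (1 + Real.exp (N * kap))) *
      ∑' e : Sym2 ℕ, (open scoped Classical in
        if o ∈ e then ∑' j, flowG a k N lam e j else 0) := by
  classical
  unfold phiI
  rw [lintegral_tsum]
  swap
  · intro j
    split_ifs
    · exact (Finset.measurable_sum _ fun n _ =>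
        measurable_slot' lam a (k + 1) (j, n)).aemeasurable
    · exact aemeasurable_const
  rw [← ENNReal.tsum_mul_left]
  refine ENNReal.tsum_le_tsum fun e => ?_
  by_cases ho : o ∈ e
  swap
  · simp [ho]
  simp only [ho, if_true]
  by_cases he : e ∈ eset a
  swap
  · have : ∀ ω, ∑ n ∈ Finset.range N, diffI a ω (k + 1) (e, n) * wgt lam (tim (tq ω) (e, n)) = 0 :=
      fun ω => Finset.sum_eq_zero fun n _ => by rw [diffI_nonedge he, zero_mul]
    simp [this]
  rw [lintegral_finsetSum _ fun n _ =>
    measurable_slot' lam a (k + 1) (e, n)]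
  set C := ENNReal.ofReal (1 + Real.exp (N * kap))
  have hfl : ∀ j, flowG a k N lam e j = ∑ n ∈ Finset.range N,
      ∫⁻ τ, wgt lam (n + τ) * ∫⁻ ω, feel a k (n + τ) e j ω ∂jlaw a ∂unif := by
    intro j
    by_cases hj : j ∈ eset a
    · rw [flowG, if_pos ⟨he, hj⟩]
    · rw [flowG, if_neg (fun h => hj h.2)]
      refine (Finset.sum_eq_zero fun n _ => ?_).symm
      have : ∀ t ω, feel a k t e j ω = 0 := fun t ω => by
        have : cntI a ω k t j = 0 := Finset.sum_eq_zero fun m _ => by
          rw [diffI_nonedge hj]; simp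
        simp [feel, this]
      simp [this]
  calc ∑ n ∈ Finset.range N, ∫⁻ ω, diffI a ω (k + 1) (e, n) * wgt lam (tim (tq ω) (e, n)) ∂jlaw a
      ≤ ∑ n ∈ Finset.range N, 4 * (C * ∑' j,
          ∫⁻ τ, wgt lam (n + τ) * ∫⁻ ω, feel a k (n + τ) e j ω ∂jlaw a ∂unif) := by
        refine Finset.sum_le_sum fun n hn => (one_slot ha lam k (i := (e, n)) he).trans ?_
        refine ennreal_mul_le ?_ _
        have hfm : ∀ j, Measurable fun p : ℝ × Omg => feel a k (n + p.1) e j p.2 := fun j =>
          measurable_feel measurable_const measurable_snd (by fun_prop) k e j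
        have hfi : ∀ j, Measurable fun τ : ℝ =>
            wgt lam (n + τ) * ∫⁻ ω, feel a k (n + τ) e j ω ∂jlaw a := fun j =>
          ((measurable_wgt lam).comp (by fun_prop)).mul (hfm j).lintegral_prod_right'
        rw [← lintegral_tsum fun j => (hfi j).aemeasurable,
          ← lintegral_const_mul' C _ ENNReal.ofReal_ne_top]
        refine lintegral_mono_ae ?_
        filter_upwards [unif_ae_Ico] with τ hτ
        rw [ENNReal.tsum_mul_left, ← mul_assoc, mul_comm C, mul_assoc]
        refine ennreal_mul_le ?_ _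
        rw [← lintegral_tsum fun j => (measurable_feel' a k _ e j).aemeasurable,
          ← lintegral_const_mul' C _ ENNReal.ofReal_ne_top]
        refine lintegral_mono fun ω => dm_le ha ω k ?_ e
        rw [floor_nat_add hτ]
        exact mul_le_mul_of_nonneg_right (Nat.cast_le.2 (Finset.mem_range.1 hn)) kap_nonneg
    _ = _ := by
        simp only [hfl]
        rw [Summable.tsum_finsetSum fun n _ => ENNReal.summable, Finset.mul_sum]
        exact Finset.sum_congr rfl fun n _ => by ring

theorem lintegral_unit_shift (n : ℕ) {g : ℝ → ℝ≥0∞} :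
    ∫⁻ τ, g (n + τ) ∂unif = ∫⁻ t in Set.Ico (n : ℝ) (n + 1), g t := by
  rw [unif, Measure.restrict_congr_set Ico_ae_eq_Icc.symm]
  have h := (measurePreserving_add_left (volume : Measure ℝ) (n : ℝ)).setLIntegral_comp_preimage_emb
    (measurableEmbedding_addLeft (n : ℝ)) g (Set.Ico (n : ℝ) (n + 1))
  have hpre : (fun x : ℝ => (n : ℝ) + x) ⁻¹' Set.Ico (n : ℝ) (n + 1) = Set.Ico 0 1 := by
    ext x; simp only [Set.mem_preimage, Set.mem_Ico]; constructor <;> intro h <;> constructor <;>
      linarith [h.1, h.2]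
  rw [hpre] at h
  exact h

theorem time_sum_le {lam : ℝ} (hlam : 0 < lam) (t' : ℝ) (N : ℕ) :
    ∑ n ∈ Finset.range N, ∫⁻ τ, (open scoped Classical in
        if t' < n + τ then wgt lam (n + τ) else 0) ∂unif ≤
      ENNReal.ofReal (1 / lam) * wgt lam t' := by
  classical
  set g : ℝ → ℝ≥0∞ := fun t => if t' < t then wgt lam t else 0
  calc ∑ n ∈ Finset.range N, ∫⁻ τ, g (n + τ) ∂unif
      = ∑ n ∈ Finset.range N, ∫⁻ t in Set.Ico (n : ℝ) (n + 1), g t :=
        Finset.sum_congr rfl fun n _ => lintegral_unit_shift n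
    _ = ∫⁻ t in ⋃ n ∈ Finset.range N, Set.Ico (n : ℝ) (n + 1), g t := by
        rw [lintegral_biUnion_finset ?_ fun n _ => measurableSet_Ico]
        intro m _ n _ hmn
        exact Set.Ico_disjoint_Ico.2 (by
          rcases Nat.lt_or_gt_of_ne hmn with h | h
          · have : (m : ℝ) + 1 ≤ n := by exact_mod_cast h
            exact le_trans (min_le_left _ _) (le_trans this (le_max_right _ _))
          · have : (n : ℝ) + 1 ≤ m := by exact_mod_cast h
            exact le_trans (min_le_right _ _) (le_trans this (le_max_left _ _)))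
    _ ≤ ∫⁻ t, g t := setLIntegral_le_lintegral _ _
    _ = ∫⁻ t in Set.Ioi t', wgt lam t := by
        rw [← lintegral_indicator measurableSet_Ioi]
        exact lintegral_congr fun t => by simp [g, Set.indicator_apply]
    _ = _ := by
        unfold wgt
        rw [← ofReal_integral_eq_lintegral_ofReal
            (integrableOn_exp_mul_Ioi (by linarith : -lam < 0) t')
            (ae_of_all _ fun t => (Real.exp_pos _).le),
          integral_exp_mul_Ioi (by linarith : -lam < 0) t', ← ENNReal.ofReal_mul (by positivity)]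
        congr 1
        field_simp

theorem measurable_jlaw_lintegral' {α : Type*} [MeasurableSpace α] {fa : α → Cfg}
    (ha : Measurable fa) {f : α → Omg → ℝ≥0∞} (hf : Measurable (Function.uncurry f)) :
    Measurable fun x => ∫⁻ ω, f x ω ∂jlaw (fa x) := by
  have h1 : ∀ x, ∫⁻ ω, f x ω ∂jlaw (fa x) =
      ∫⁻ σ, ∫⁻ q, f x (σ, q) ∂qlaw ∂(fker.comap fa ha) x := fun x =>
    lintegral_prod _ (hf.comp measurable_prodMk_left).aemeasurable
  simp only [h1]
  have h2 : Measurable fun p : α × Cfg => ∫⁻ q, f p.1 (p.2, q) ∂qlaw := by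
    refine Measurable.lintegral_prod_right'
      (f := fun z : (α × Cfg) × Noise => f z.1.1 (z.1.2, z.2)) ?_
    exact hf.comp ((measurable_fst.comp measurable_fst).prodMk
      ((measurable_snd.comp measurable_fst).prodMk measurable_snd))
  exact h2.lintegral_kernel_prod_right' (κ := fker.comap fa ha)

theorem measurable_flowG (k N : ℕ) (lam : ℝ) (e j : Sym2 ℕ) :
    Measurable fun a => flowG a k N lam e j := by
  classical
  unfold flowG
  refine Measurable.ite ((measurable_coord e).inter (measurable_coord j))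
    (Finset.measurable_sum _ fun n _ => ?_) measurable_const
  refine Measurable.lintegral_prod_right' (f := fun p : Cfg × ℝ =>
    wgt lam (n + p.2) * ∫⁻ ω, feel p.1 k (n + p.2) e j ω ∂jlaw p.1) ?_
  refine ((measurable_wgt lam).comp (by fun_prop)).mul (measurable_jlaw_lintegral' measurable_fst ?_)
  exact measurable_feel (measurable_fst.comp measurable_fst) measurable_snd (by fun_prop) k e j

theorem flowG_relabel (φ : ℕ ≃ ℕ) (a : Cfg) (k N : ℕ) (lam : ℝ) (e j : Sym2 ℕ) :
    flowG (relabel φ a) k N lam (eperm φ e) (eperm φ j) = flowG a k N lam e j := by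
  classical
  unfold flowG
  simp only [mem_eset_relabel]
  split_ifs
  · refine Finset.sum_congr rfl fun n _ => lintegral_congr fun τ => ?_
    have hm : Measurable fun ω : Omg =>
        feel (relabel φ a) k ((n : ℝ) + τ) (eperm φ e) (eperm φ j) ω :=
      measurable_feel measurable_const measurable_id measurable_const k _ _
    rw [lintegral_relabel φ a hm]
    congr 1
    refine lintegral_congr fun ω => ?_
    simp only [feel, yA_relabel, yX_relabel, kern_relabel, cntI_relabel]
  · rfl

theorem tsum_mem_eq {a : Cfg} {e : Sym2 ℕ} (he : e ∈ eset a) (c : ℝ≥0∞) :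
    ∑' v : ℕ, (open scoped Classical in if v ∈ e then c else 0) = 2 * c := by
  classical
  rw [tsum_eq_sum (s := e.toFinset) fun v hv => by simp [Sym2.mem_toFinset] at hv; simp [hv],
    Finset.sum_congr rfl fun v hv => if_pos (Sym2.mem_toFinset.1 hv), Finset.sum_const,
    Sym2.card_toFinset_of_not_isDiag e he.1, nsmul_eq_mul]
  norm_num

open scoped Classical in
/-- The transport. -/
def trans (k N : ℕ) (lam : ℝ) (a : Cfg) (u v : ℕ) : ℝ≥0∞ :=
  if Good a then ∑' e : Sym2 ℕ, ∑' j : Sym2 ℕ, if u ∈ e ∧ v ∈ j then flowG a k N lam e j else 0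
  else 0

theorem measurable_trans (k N : ℕ) (lam : ℝ) (u v : ℕ) :
    Measurable fun a => trans k N lam a u v := by
  classical
  unfold trans
  refine Measurable.ite measurableSet_good (Measurable.ennreal_tsum fun e =>
    Measurable.ennreal_tsum fun j => ?_) measurable_const
  split_ifs
  · exact measurable_flowG k N lam e j
  · exact measurable_const

theorem trans_relabel (k N : ℕ) (lam : ℝ) (φ : ℕ ≃ ℕ) (a : Cfg) (u v : ℕ) :
    trans k N lam (relabel φ a) (φ u) (φ v) = trans k N lam a u v := by
  classical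
  unfold trans
  simp only [good_relabel_iff]
  split_ifs
  · rw [← (eperm φ).tsum_eq]
    refine tsum_congr fun e => ?_
    rw [← (eperm φ).tsum_eq]
    refine tsum_congr fun j => ?_
    simp only [mem_eperm, flowG_relabel]
  · rfl

theorem trans_out {a : Cfg} (ha : Good a) (k N : ℕ) (lam : ℝ) (o : ℕ) :
    ∑' v, trans k N lam a o v =
      2 * ∑' e : Sym2 ℕ, (open scoped Classical in
        if o ∈ e then ∑' j, flowG a k N lam e j else 0) := by
  classical
  simp only [trans, if_pos ha]
  rw [ENNReal.tsum_comm, ← ENNReal.tsum_mul_left]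
  refine tsum_congr fun e => ?_
  rw [ENNReal.tsum_comm]
  by_cases ho : o ∈ e
  · simp only [ho, true_and, if_true]
    rw [← ENNReal.tsum_mul_left]
    refine tsum_congr fun j => ?_
    by_cases hj : j ∈ eset a
    · exact tsum_mem_eq hj _
    · simp [flowG, hj]
  · simp [ho]

theorem kern_col {a : Cfg} (ha : Good a) {y : Sym2 ℕ → ℝ} {B : ℝ} (hy : ∀ e, |y e| ≤ B)
    (j : Sym2 ℕ) : ∑' e, ENNReal.ofReal (kern a y j e) = 1 := by
  simp only [kern_eq ha hy]
  simp only [fun e => infl_symm (eset a) y j e]
  exact infl_sum (eset a) y j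

theorem trans_in {a : Cfg} (ha : Good a) (k N : ℕ) {lam : ℝ} (hlam : 0 < lam) (o : ℕ) :
    ∑' v, trans k N lam a v o ≤ 4 * ENNReal.ofReal (1 / lam) * phiI a k N lam o := by
  classical
  simp only [trans, if_pos ha]
  rw [ENNReal.tsum_comm]
  calc ∑' e : Sym2 ℕ, ∑' v : ℕ, ∑' j : Sym2 ℕ, (if v ∈ e ∧ o ∈ j then flowG a k N lam e j else 0)
      = ∑' j : Sym2 ℕ, (if o ∈ j then 2 * ∑' e, flowG a k N lam e j else 0) := by
        rw [tsum_congr fun e => ENNReal.tsum_comm, ENNReal.tsum_comm]
        refine tsum_congr fun j => ?_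
        by_cases ho : o ∈ j
        · simp only [ho, and_true, if_true, ← ENNReal.tsum_mul_left]
          refine tsum_congr fun e => ?_
          by_cases he : e ∈ eset a
          · exact tsum_mem_eq he _
          · simp [flowG, he]
        · simp [ho]
    _ ≤ ∑' j : Sym2 ℕ, (if o ∈ j then 4 * ENNReal.ofReal (1 / lam) *
          ∫⁻ ω, ∑ n ∈ Finset.range N, diffI a ω k (j, n) * wgt lam (tim (tq ω) (j, n)) ∂jlaw a
          else 0) := by
        refine ENNReal.tsum_le_tsum fun j => ?_
        split_ifs with ho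
        swap
        · rfl
        rw [show (4 : ℝ≥0∞) = 2 * 2 by norm_num, mul_assoc, mul_assoc]
        refine ennreal_mul_le ?_ _
        have hfm : ∀ (n : ℕ) (e : Sym2 ℕ), Measurable fun p : ℝ × Omg =>
            feel a k (n + p.1) e j p.2 := fun n e =>
          measurable_feel measurable_const measurable_snd (by fun_prop) k e j
        have hcm : ∀ n : ℕ, Measurable fun p : ℝ × Omg =>
            wgt lam (n + p.1) * cntI a p.2 k (n + p.1) j := fun n =>
          ((measurable_wgt lam).comp (by fun_prop)).mul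
            (measurable_cntI measurable_const measurable_snd (by fun_prop) k j)
        have hfi : ∀ (n : ℕ) (e : Sym2 ℕ), Measurable fun τ : ℝ =>
            wgt lam (n + τ) * ∫⁻ ω, feel a k (n + τ) e j ω ∂jlaw a := fun n e =>
          ((measurable_wgt lam).comp (by fun_prop)).mul (hfm n e).lintegral_prod_right'
        calc ∑' e, flowG a k N lam e j
            ≤ ∑' e, ∑ n ∈ Finset.range N,
                ∫⁻ τ, wgt lam (n + τ) * ∫⁻ ω, feel a k (n + τ) e j ω ∂jlaw a ∂unif :=
              ENNReal.tsum_le_tsum fun e => by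
                unfold flowG; split_ifs
                · rfl
                · exact zero_le
          _ = ∑ n ∈ Finset.range N, ∫⁻ τ, wgt lam (n + τ) *
                ∫⁻ ω, ∑' e, feel a k (n + τ) e j ω ∂jlaw a ∂unif := by
              rw [Summable.tsum_finsetSum fun n _ => ENNReal.summable]
              refine Finset.sum_congr rfl fun n _ => ?_
              rw [← lintegral_tsum fun e => (hfi n e).aemeasurable]
              refine lintegral_congr fun τ => ?_
              rw [lintegral_tsum fun e => (measurable_feel' a k _ e j).aemeasurable,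
                ENNReal.tsum_mul_left]
          _ = ∑ n ∈ Finset.range N,
                ∫⁻ τ, ∫⁻ ω, 2 * (wgt lam (n + τ) * cntI a ω k (n + τ) j) ∂jlaw a ∂unif := by
              refine Finset.sum_congr rfl fun n _ => lintegral_congr fun τ => ?_
              rw [← lintegral_const_mul' (wgt lam (n + τ)) _ ENNReal.ofReal_ne_top]
              refine lintegral_congr fun ω => ?_
              simp only [feel]
              rw [ENNReal.tsum_mul_right, ENNReal.tsum_add,
                kern_col ha (fun e => show |yA a ω k (n + τ) e| ≤ _ from abs_yOf_le _ _ _ _ e),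
                kern_col ha (fun e => show |yX a ω (n + τ) e| ≤ _ from abs_yOf_le _ _ _ _ e),
                one_add_one_eq_two]
              ring
          _ = 2 * ∫⁻ ω, ∑ n ∈ Finset.range N,
                ∫⁻ τ, wgt lam (n + τ) * cntI a ω k (n + τ) j ∂unif ∂jlaw a := by
              have hsw : ∀ n : ℕ, ∫⁻ τ, ∫⁻ ω, 2 * (wgt lam (n + τ) * cntI a ω k (n + τ) j) ∂jlaw a ∂unif
                  = 2 * ∫⁻ ω, ∫⁻ τ, wgt lam (n + τ) * cntI a ω k (n + τ) j ∂unif ∂jlaw a := by
                intro n
                rw [lintegral_lintegral_swap ((hcm n).const_mul 2).aemeasurable]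
                simp only [lintegral_const_mul' (2 : ℝ≥0∞) _ (by norm_num)]
              simp only [hsw, ← Finset.mul_sum]
              rw [← lintegral_finsetSum (Finset.range N)
                (f := fun (n : ℕ) (ω : Omg) => ∫⁻ τ, wgt lam (n + τ) * cntI a ω k (n + τ) j ∂unif)
                fun n _ => ((hcm n).comp measurable_swap).lintegral_prod_right']
          _ ≤ 2 * ∫⁻ ω, ENNReal.ofReal (1 / lam) *
                ∑ m ∈ Finset.range N, diffI a ω k (j, m) * wgt lam (tim (tq ω) (j, m)) ∂jlaw a := by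
              refine ennreal_mul_le (lintegral_mono fun ω => ?_) _
              set T' : ℕ → ℝ := fun m => tim (tq ω) (j, m)
              calc ∑ n ∈ Finset.range N, ∫⁻ τ, wgt lam (n + τ) * cntI a ω k (n + τ) j ∂unif
                  ≤ ∑ n ∈ Finset.range N, ∫⁻ τ, ∑ m ∈ Finset.range N, diffI a ω k (j, m) *
                      (if T' m < n + τ then wgt lam (n + τ) else 0) ∂unif := by
                    refine Finset.sum_le_sum fun n hn => lintegral_mono_ae ?_
                    filter_upwards [unif_ae_Ico] with τ hτ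
                    rw [cntI, floor_nat_add hτ, Finset.mul_sum]
                    refine le_trans (le_of_eq (Finset.sum_congr rfl fun m _ => ?_))
                      (Finset.sum_le_sum_of_subset (Finset.range_mono (Finset.mem_range.1 hn)))
                    simp only [T']
                    split_ifs <;> ring
                _ = ∑ m ∈ Finset.range N, diffI a ω k (j, m) *
                      ∑ n ∈ Finset.range N,
                        ∫⁻ τ, (if T' m < n + τ then wgt lam (n + τ) else 0) ∂unif := by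
                    simp only [Finset.mul_sum]
                    rw [Finset.sum_comm]
                    refine Finset.sum_congr rfl fun n _ => ?_
                    have hmm : ∀ m, Measurable fun τ : ℝ =>
                        if T' m < n + τ then wgt lam (n + τ) else 0 := fun m =>
                      Measurable.ite (measurableSet_lt measurable_const (by fun_prop))
                        ((measurable_wgt lam).comp (by fun_prop)) measurable_const
                    rw [lintegral_finsetSum _ fun m _ => (hmm m).const_mul _]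
                    exact Finset.sum_congr rfl fun m _ => lintegral_const_mul _ (hmm m)
                _ ≤ _ := by
                    rw [Finset.mul_sum]
                    refine Finset.sum_le_sum fun m _ => ?_
                    rw [mul_left_comm]
                    exact ennreal_mul_le (time_sum_le hlam (T' m) N) _
          _ = _ := by rw [lintegral_const_mul' _ _ ENNReal.ofReal_ne_top]
    _ = _ := by
        unfold phiI
        rw [lintegral_tsum fun j => ?_, ← ENNReal.tsum_mul_left]
        · refine tsum_congr fun j => ?_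
          by_cases ho : o ∈ j <;> simp [ho]
        · split_ifs
          · exact (Finset.measurable_sum _ fun n _ =>
              measurable_slot' lam a k (j, n)).aemeasurable
          · exact aemeasurable_const

theorem lintegral_root {α : Type*} [MeasurableSpace α] {f : α → ℕ → ℝ≥0∞}
    (hf : ∀ u, Measurable fun a => f a u) : Measurable fun x : α × ℕ => f x.1 x.2 :=
  measurable_from_prod_countable_left fun u => hf u

theorem measurable_phiI (k N : ℕ) (lam : ℝ) (o : ℕ) : Measurable fun a => phiI a k N lam o := by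
  classical
  unfold phiI
  refine measurable_jlaw_lintegral' measurable_id (Measurable.ennreal_tsum fun j => ?_)
  split_ifs
  · exact Finset.measurable_sum _ fun n _ => measurable_slot lam measurable_fst measurable_snd k (j, n)
  · exact measurable_const

/-- The decay rate used for horizon `N`. -/
def lamN (N : ℕ) : ℝ := 16 * (1 + Real.exp (N * kap))

theorem lamN_pos (N : ℕ) : 0 < lamN N := by unfold lamN; positivity

/-- The total weighted disagreement at the root. -/
def Phi (P : Measure (Cfg × ℕ)) (k N : ℕ) : ℝ≥0∞ := ∫⁻ x, phiI x.1 k N (lamN N) x.2 ∂P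

theorem Phi_step {P : Measure (Cfg × ℕ)} (hP : IsURG P) (k N : ℕ) :
    Phi P (k + 1) N ≤ 2⁻¹ * Phi P k N := by
  classical
  obtain ⟨hprob, hgood, hmtp⟩ := hP
  set lam := lamN N
  set C := ENNReal.ofReal (1 + Real.exp (N * kap))
  have htm : Measurable fun x : Cfg × ℕ => ∑' v, trans k N lam x.1 x.2 v :=
    lintegral_root (f := fun a u => ∑' v, trans k N lam a u v)
      fun u => Measurable.ennreal_tsum fun v => measurable_trans k N lam u v
  calc Phi P (k + 1) N
      ≤ ∫⁻ x, 2 * C * ∑' v, trans k N lam x.1 x.2 v ∂P := by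
        refine lintegral_mono_ae ?_
        filter_upwards [hgood] with x hx
        refine (phiI_step hx k N lam x.2).trans (le_of_eq ?_)
        rw [trans_out hx]; ring
    _ = 2 * C * ∫⁻ x, ∑' v, trans k N lam x.1 v x.2 ∂P := by
        rw [lintegral_const_mul _ htm, hmtp (trans k N lam) (measurable_trans k N lam)
          (trans_relabel k N lam)]
    _ ≤ 2 * C * ∫⁻ x, 4 * ENNReal.ofReal (1 / lam) * phiI x.1 k N lam x.2 ∂P := by
        refine ennreal_mul_le (lintegral_mono_ae ?_) _
        filter_upwards [hgood] with x hx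
        exact trans_in hx k N (lamN_pos N) x.2
    _ = _ := by
        rw [lintegral_const_mul' _ _ (ENNReal.mul_ne_top (by norm_num) ENNReal.ofReal_ne_top),
          ← mul_assoc]
        congr 1
        have hpos : (0 : ℝ) < 1 + Real.exp (N * kap) := by positivity
        rw [show (2 : ℝ≥0∞) = ENNReal.ofReal 2 by simp,
          show (4 : ℝ≥0∞) = ENNReal.ofReal 4 by simp, ← ENNReal.ofReal_mul zero_le_two,
          ← ENNReal.ofReal_mul (by norm_num : (0:ℝ) ≤ 4), ← ENNReal.ofReal_mul (by positivity),
          ← ENNReal.ofReal_inv_of_pos two_pos]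
        congr 1
        simp only [lam, lamN]
        field_simp
        ring

theorem jlaw_ae_time (a : Cfg) (i : Idx) : ∀ᵐ ω ∂jlaw a, 0 ≤ tim (tq ω) i := by
  have h1 : Measure.QuasiMeasurePreserving (fun ω : Omg => ω.2 i) (jlaw a) (sq2.prod sq2) := by
    refine ⟨by fun_prop, Measure.AbsolutelyContinuous.mk fun S hS h0 => ?_⟩
    rw [show (fun ω : Omg => ω.2 i) = (fun q : Noise => q i) ∘ Prod.snd from rfl,
      ← Measure.map_map (by fun_prop) measurable_snd]
    unfold jlaw qlaw
    rw [Measure.map_snd_prod, measure_univ, one_smul, Measure.infinitePi_map_eval]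
    exact h0
  refine h1.ae (p := fun z : (ℝ × ℝ) × ℝ × ℝ => 0 ≤ (i.2 : ℝ) + z.1.2) ?_
  have : ∀ᵐ w ∂((sq2.prod sq2).map fun z : (ℝ × ℝ) × ℝ × ℝ => z.1.2), (0 : ℝ) ≤ w := by
    have h2 : ((sq2.prod sq2).map fun z : (ℝ × ℝ) × ℝ × ℝ => z.1.2) = unif := by
      rw [show (fun z : (ℝ × ℝ) × ℝ × ℝ => z.1.2) = Prod.snd ∘ Prod.fst from rfl,
        ← Measure.map_map measurable_snd measurable_fst, Measure.map_fst_prod, measure_univ,
        one_smul]
      simp [sq2]
    rw [h2]
    exact unif_ae_Ico.mono fun w hw => hw.1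
  refine (ae_of_ae_map (by fun_prop) this).mono fun z hz => ?_
  have : (0 : ℝ) ≤ (i.2 : ℝ) := Nat.cast_nonneg _
  linarith

theorem phiI_zero_le {a : Cfg} (ha : Good a) (N : ℕ) {lam : ℝ} (hlam : 0 < lam) (o : ℕ) :
    phiI a 0 N lam o ≤ N := by
  classical
  have hslot : ∀ (j : Sym2 ℕ) (n : ℕ), j ∈ eset a →
      ∫⁻ ω, diffI a ω 0 (j, n) * wgt lam (tim (tq ω) (j, n)) ∂jlaw a ≤
        ENNReal.ofReal (rate a j) := by
    intro j n hj
    have hset : MeasurableSet {ω : Omg | (ω.2 (j, n)).1.1 < rate a j} :=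
      measurableSet_lt (by fun_prop) measurable_const
    calc ∫⁻ ω, diffI a ω 0 (j, n) * wgt lam (tim (tq ω) (j, n)) ∂jlaw a
        ≤ ∫⁻ ω, {ω : Omg | (ω.2 (j, n)).1.1 < rate a j}.indicator 1 ω ∂jlaw a := by
          refine lintegral_mono_ae ?_
          filter_upwards [jlaw_ae_time a (j, n)] with ω hω
          unfold diffI
          split_ifs with h
          · rw [one_mul, Set.indicator_of_mem (show ω ∈ {ω : Omg | (ω.2 (j, n)).1.1 < rate a j}
              from h.1.2), Pi.one_apply, wgt, ← ENNReal.ofReal_one]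
            refine ENNReal.ofReal_le_ofReal (Real.exp_le_one_iff.2 ?_)
            nlinarith
          · simp
      _ ≤ _ := by
          rw [lintegral_indicator_one hset]
          have : {ω : Omg | (ω.2 (j, n)).1.1 < rate a j} = Set.univ ×ˢ
              ((fun q : Noise => q (j, n)) ⁻¹' ((Set.Iio (rate a j) ×ˢ Set.univ) ×ˢ Set.univ)) := by
            ext ω; simp
          rw [this, jlaw, Measure.prod_prod, measure_univ, one_mul, qlaw,
            (measurePreserving_eval_infinitePi (fun _ : Idx => sq2.prod sq2) (j, n)).measure_preimage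
              ((measurableSet_Iio.prod MeasurableSet.univ).prod MeasurableSet.univ).nullMeasurableSet,
            Measure.prod_prod, measure_univ, mul_one, sq2, Measure.prod_prod, measure_univ, mul_one,
            unif, Measure.restrict_apply measurableSet_Iio]
          refine (measure_mono (t := Set.Icc 0 (rate a j)) fun x hx => ⟨hx.2.1, hx.1.le⟩).trans ?_
          rw [Real.volume_Icc, sub_zero]
  unfold phiI
  rw [lintegral_tsum fun j => ?_]
  swap
  · split_ifs
    · exact (Finset.measurable_sum _ fun n _ =>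
        measurable_slot' lam a 0 (j, n)).aemeasurable
    · exact aemeasurable_const
  set S := (nbrs a o).image (fun w => s(o, w))
  rw [tsum_eq_sum (s := S) fun j hj => ?_]
  swap
  · by_cases ho : o ∈ j
    · obtain ⟨w, rfl⟩ := Sym2.mem_iff_exists.1 ho
      have : s(o, w) ∉ eset a := fun h => hj (Finset.mem_image_of_mem _ ((mem_nbrs ha).2 h))
      simp [diffI_nonedge (i := (s(o, w), _)) this]
    · simp [ho]
  rcases (nbrs a o).eq_empty_or_nonempty with hemp | hne
  · simp [S, hemp]
  calc ∑ j ∈ S, ∫⁻ ω, (if o ∈ j then ∑ n ∈ Finset.range N,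
        diffI a ω 0 (j, n) * wgt lam (tim (tq ω) (j, n)) else 0) ∂jlaw a
      ≤ ∑ _j ∈ S, ∑ _n ∈ Finset.range N, ENNReal.ofReal (1 / (nbrs a o).card) := by
        refine Finset.sum_le_sum fun j hj => ?_
        obtain ⟨w, hw, rfl⟩ := Finset.mem_image.1 hj
        have he := (mem_nbrs ha).1 hw
        rw [lintegral_congr fun ω => if_pos (Sym2.mem_mk_left o w),
          lintegral_finsetSum _ fun n _ => measurable_slot' lam a 0 _]
        refine Finset.sum_le_sum fun n _ => (hslot _ n he).trans (ENNReal.ofReal_le_ofReal ?_)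
        rw [le_div_iff₀ (by exact_mod_cast hne.card_pos)]
        exact (rate_bounds ha he).2.2 o (Sym2.mem_mk_left o w)
    _ ≤ N := by
        rw [Finset.sum_const, Finset.sum_const, Finset.card_range,
          Finset.card_image_of_injective _ (fun x z h => by
            simpa using Sym2.congr_right.1 h), nsmul_eq_mul, nsmul_eq_mul, mul_left_comm]
        refine mul_le_of_le_one_right' ?_
        rw [← ENNReal.ofReal_natCast, ← ENNReal.ofReal_mul (Nat.cast_nonneg _),
          mul_one_div_cancel (by exact_mod_cast hne.card_pos.ne'), ENNReal.ofReal_one]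

/-- The iteration eventually gives the observation in slot `i`. -/
def Stable (a : Cfg) (ω : Omg) (i : Idx) : Prop :=
  Ring a (tq ω) i → ∀ᶠ k in atTop, it a (seedsOf a ω) k i = Xt ω i

theorem measurableSet_stable (i : Idx) :
    MeasurableSet {p : Cfg × Omg | Stable p.1 p.2 i} := by
  classical
  have hr : MeasurableSet {p : Cfg × Omg | Ring p.1 (tq p.2) i} :=
    measurableSet_ring measurable_fst (measurable_tq.comp measurable_snd) i
  have he : ∀ k, MeasurableSet {p : Cfg × Omg | it p.1 (seedsOf p.1 p.2) k i = Xt p.2 i} := fun k =>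
    measurableSet_eq_fun
      ((measurable_pi_apply i).comp (measurable_it measurable_fst measurable_seedsOf k))
      ((measurable_pi_apply i).comp (measurable_Xt.comp measurable_snd))
  have : {p : Cfg × Omg | Stable p.1 p.2 i} = {p | Ring p.1 (tq p.2) i}ᶜ ∪
      ⋃ K : ℕ, ⋂ (k : ℕ) (_ : K ≤ k), {p | it p.1 (seedsOf p.1 p.2) k i = Xt p.2 i} := by
    ext p
    simp [Stable, Filter.eventually_atTop, imp_iff_not_or]
  rw [this]
  exact hr.compl.union (MeasurableSet.iUnion fun K =>
    MeasurableSet.iInter fun k => MeasurableSet.iInter fun _ => he k)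

open scoped Classical in
/-- The probability that the iteration fails at the vertex `v`. -/
def bad (a : Cfg) (v : ℕ) : ℝ≥0∞ :=
  ∑' j : Sym2 ℕ, ∑' n : ℕ,
    if v ∈ j then ∫⁻ ω, {ω | Stable a ω (j, n)}ᶜ.indicator 1 ω ∂jlaw a else 0

theorem measurable_bad (v : ℕ) : Measurable fun a => bad a v := by
  classical
  unfold bad
  refine Measurable.ennreal_tsum fun j => Measurable.ennreal_tsum fun n => ?_
  split_ifs
  · exact measurable_jlaw_lintegral' measurable_id
      ((measurable_one.indicator (measurableSet_stable (j, n)).compl) :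
        Measurable fun p : Cfg × Omg => {p : Cfg × Omg | Stable p.1 p.2 (j, n)}ᶜ.indicator 1 p)
  · exact measurable_const

theorem bad_relabel (φ : ℕ ≃ ℕ) (a : Cfg) (v : ℕ) : bad (relabel φ a) (φ v) = bad a v := by
  classical
  unfold bad
  rw [← (eperm φ).tsum_eq]
  refine tsum_congr fun j => tsum_congr fun n => ?_
  simp only [mem_eperm]
  split_ifs
  · have hS : MeasurableSet {ω : Omg | Stable (relabel φ a) ω (eperm φ j, n)}ᶜ :=
      (measurable_prodMk_left (measurableSet_stable (eperm φ j, n))).compl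
    rw [lintegral_relabel φ a (measurable_one.indicator hS)]
    refine lintegral_congr fun ω => ?_
    have h0 : Stable (relabel φ a) (jperm φ ω) (iperm φ (j, n)) ↔ Stable a ω (j, n) := by
      simp only [Stable, tq_relabel, ring_relabel, seedsOf_relabel, it_relabel, Xt_relabel,
        Function.comp_apply, iperm_symm_apply]
    rw [iperm_apply] at h0
    simp only [Set.indicator_apply, Set.mem_compl_iff, Set.mem_ofPred_eq, h0, Pi.one_apply]
  · rfl

/-- On a unimodular random graph the iteration recovers every observation. -/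
theorem stable_ae {P : Measure (Cfg × ℕ)} (hP : IsURG P) :
    ∀ᵐ x ∂P, ∀ i : Idx, ∀ᵐ ω ∂jlaw x.1, Stable x.1 ω i := by
  classical
  obtain ⟨hprob, hgood, hmtp⟩ := hP
  have hgeo : ∀ N, ∀ k, Phi P k N ≤ 2⁻¹ ^ k * (N : ℝ≥0∞) := by
    intro N k
    induction k with
    | zero =>
      rw [pow_zero, one_mul]
      calc Phi P 0 N ≤ ∫⁻ _x, (N : ℝ≥0∞) ∂P := lintegral_mono_ae
            (hgood.mono fun x hx => phiI_zero_le hx N (lamN_pos N) x.2)
        _ = N := by simp
    | succ k ih =>
      refine (Phi_step ⟨hprob, hgood, hmtp⟩ k N).trans ?_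
      rw [pow_succ', mul_assoc]
      exact ennreal_mul_le ih _
  have hroot : ∀ᵐ x ∂P, bad x.1 x.2 = 0 := by
    have hN : ∀ N, ∀ᵐ x ∂P, ∑' k, phiI x.1 k N (lamN N) x.2 ≠ ⊤ := by
      intro N
      have hm : ∀ k, Measurable fun x : Cfg × ℕ => phiI x.1 k N (lamN N) x.2 := fun k =>
        lintegral_root (f := fun a u => phiI a k N (lamN N) u) fun u => measurable_phiI k N _ u
      refine (ae_lt_top (Measurable.ennreal_tsum hm) ?_).mono fun x hx => hx.ne
      rw [lintegral_tsum fun k => (hm k).aemeasurable]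
      refine ne_top_of_le_ne_top ?_ (ENNReal.tsum_le_tsum (hgeo N))
      rw [ENNReal.tsum_mul_right, ENNReal.tsum_geometric]
      exact ENNReal.mul_ne_top (by simp) (by simp)
    filter_upwards [ae_all_iff.2 hN, hgood] with x hx hg
    unfold bad
    rw [ENNReal.tsum_eq_zero]
    intro j
    rw [ENNReal.tsum_eq_zero]
    intro n
    split_ifs with ho
    swap
    · rfl
    have hsm : ∀ k, Measurable fun ω : Omg =>
        diffI x.1 ω k (j, n) * wgt (lamN (n + 1)) (tim (tq ω) (j, n)) := fun k =>
      measurable_slot' _ x.1 k (j, n)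
    have hfin : ∫⁻ ω, ∑' k, diffI x.1 ω k (j, n) *
        wgt (lamN (n + 1)) (tim (tq ω) (j, n)) ∂jlaw x.1 ≠ ⊤ := by
      refine ne_top_of_le_ne_top (hx (n + 1)) ?_
      rw [lintegral_tsum fun k => (hsm k).aemeasurable]
      refine ENNReal.tsum_le_tsum fun k => lintegral_mono fun ω => ?_
      refine le_trans ?_ (ENNReal.le_tsum j)
      rw [if_pos ho]
      exact Finset.single_le_sum (f := fun m => diffI x.1 ω k (j, m) *
        wgt (lamN (n + 1)) (tim (tq ω) (j, m))) (fun m _ => zero_le) (Finset.self_mem_range_succ n)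
    have hae : ∀ᵐ ω ∂jlaw x.1, Stable x.1 ω (j, n) := by
      filter_upwards [ae_lt_top (Measurable.ennreal_tsum hsm) hfin] with ω hω hr
      have h0 := ENNReal.tendsto_atTop_zero_of_tsum_ne_top hω.ne
      have hW : (0 : ℝ≥0∞) < wgt (lamN (n + 1)) (tim (tq ω) (j, n)) :=
        ENNReal.ofReal_pos.2 (Real.exp_pos _)
      filter_upwards [h0.eventually (gt_mem_nhds hW)] with k hk
      by_contra hne
      simp [diffI, hr, hne] at hk
    have hS : MeasurableSet {ω : Omg | Stable x.1 ω (j, n)}ᶜ :=
      (measurable_prodMk_left (measurableSet_stable (j, n))).compl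
    rw [lintegral_indicator_one hS]
    exact ae_iff.1 hae
  have hbm : Measurable fun x : Cfg × ℕ => ∑' v, bad x.1 v :=
    (Measurable.ennreal_tsum fun v => measurable_bad v).comp measurable_fst
  have hall : ∫⁻ x, ∑' v, bad x.1 v ∂P = 0 := by
    rw [hmtp (fun a _ v => bad a v) (fun u v => measurable_bad v)
      (fun φ a _ v => bad_relabel φ a v)]
    refine lintegral_eq_zero_of_ae_eq_zero ?_
    filter_upwards [hroot] with x hx
    simp [hx]
  filter_upwards [(lintegral_eq_zero_iff hbm).1 hall] with x hx i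
  obtain ⟨j, n⟩ := i
  induction j using Sym2.ind with
  | h u v =>
    have h1 := ENNReal.tsum_eq_zero.1 hx u
    have h2 := ENNReal.tsum_eq_zero.1 (ENNReal.tsum_eq_zero.1 h1 s(u, v)) n
    rw [if_pos (Sym2.mem_mk_left u v)] at h2
    have hS : MeasurableSet {ω : Omg | Stable x.1 ω (s(u, v), n)}ᶜ :=
      (measurable_prodMk_left (measurableSet_stable (s(u, v), n))).compl
    rw [lintegral_indicator_one hS] at h2
    exact ae_iff.2 h2

end

end Vale.Agent.P143
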