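import Mathlib

/-!
Definitions used in the statement of the free uniform spanning forest theorem.
-/

namespace Vale.Agent.P143

open MeasureTheory Filter Topology

noncomputable section

/-- `T` is the edge set of a spanning tree of the subgraph `H`. -/
def IsSpanTree {V : Type*} {G : SimpleGraph V} (H : G.Subgraph) (T : Set (Sym2 V)) : Prop :=
  T ⊆ H.edgeSet ∧ ((SimpleGraph.fromEdgeSet T).induce H.verts).IsTree

/-- A sequence of finite connected subgraphs increasing to the whole graph. -/
def IsExhaustion {V : Type*} (G : SimpleGraph V) (H : ℕ → G.Subgraph) : Prop :=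
  (∀ n, (H n).verts.Finite ∧ (H n).Connected) ∧ Monotone H ∧
    (∀ v, ∃ n, v ∈ (H n).verts) ∧ ∀ u v, G.Adj u v → ∃ n, (H n).Adj u v

/-- The probability that the uniform spanning tree of `H`, seen as an indicator function of
edges, agrees with `η` on the finite set `A`. -/
def ustProb {V : Type*} {G : SimpleGraph V} (H : G.Subgraph) (A : Finset (Sym2 V))
    (η : Sym2 V → Bool) : ℝ :=
  ({T : Set (Sym2 V) | IsSpanTree H T ∧ ∀ e ∈ A, (e ∈ T ↔ η e = true)}.ncard : ℝ) /
    ({T : Set (Sym2 V) | IsSpanTree H T}.ncard : ℝ)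

/-- `μ` is the free uniform spanning forest measure of `G`: the weak limit of the uniform spanning
trees along every exhaustion. -/
def IsFUSF {V : Type*} (G : SimpleGraph V) (μ : Measure (Sym2 V → Bool)) : Prop :=
  IsProbabilityMeasure μ ∧ ∀ H : ℕ → G.Subgraph, IsExhaustion G H →
    ∀ (A : Finset (Sym2 V)) (η : Sym2 V → Bool),
      Tendsto (fun n => ustProb (H n) A η) atTop (𝓝 (μ.real {ω | ∀ e ∈ A, ω e = η e}))

/-- The uniform probability measure on `[0,1]`, as a measure on `ℝ`. -/
def unif : Measure ℝ := volume.restrict (Set.Icc (0 : ℝ) 1)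

instance : IsProbabilityMeasure unif := ⟨by simp [unif]⟩

/-- The law of independent uniform labels, one per vertex. -/
def iidUnif (V : Type*) : Measure (V → ℝ) := Measure.infinitePi (fun _ : V => unif)

instance (V : Type*) : IsProbabilityMeasure (iidUnif V) := by
  unfold iidUnif; infer_instance

/-- The right Cayley graph of `Γ` with respect to `S`: `g` is joined to `g * s`. -/
def cayley {Γ : Type*} [Group Γ] (S : Finset Γ) : SimpleGraph Γ :=
  SimpleGraph.fromRel (fun g h => g⁻¹ * h ∈ S)

/-- The simple graph on `ℕ` coded by `a`. -/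
def graphOf (a : Sym2 ℕ → Bool) : SimpleGraph ℕ where
  Adj u v := u ≠ v ∧ a s(u, v) = true
  symm := ⟨fun u v h => ⟨h.1.symm, by rw [Sym2.eq_swap]; exact h.2⟩⟩
  loopless := ⟨fun u h => h.1 rfl⟩

/-- Relabelling of a coded graph by a bijection of the vertices. -/
def relabel (φ : ℕ ≃ ℕ) (a : Sym2 ℕ → Bool) : Sym2 ℕ → Bool := fun e => a (e.map φ.symm)

/-- The codes of connected, locally finite simple graphs on `ℕ`. -/
def Good (a : Sym2 ℕ → Bool) : Prop :=
  (∀ u, a s(u, u) = false) ∧ (graphOf a).Connected ∧ ∀ v, ((graphOf a).neighborSet v).Finite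

/-- A unimodular random rooted graph: the law of a coded graph and a root, satisfying the mass
transport principle for all measurable relabelling-invariant transports. -/
def IsURG (P : Measure ((Sym2 ℕ → Bool) × ℕ)) : Prop :=
  IsProbabilityMeasure P ∧ (∀ᵐ x ∂P, Good x.1) ∧
    ∀ f : (Sym2 ℕ → Bool) → ℕ → ℕ → ENNReal, (∀ u v, Measurable (fun a => f a u v)) →
      (∀ (φ : ℕ ≃ ℕ) a u v, f (relabel φ a) (φ u) (φ v) = f a u v) →
      ∫⁻ x, ∑' v, f x.1 x.2 v ∂P = ∫⁻ x, ∑' v, f x.1 v x.2 ∂P

end

end Vale.Agent.P143
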