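import Vale.Agent.P143.Proj

/-!
Finite exhaustions of a coded graph, balls, and the limiting transfer current.
-/

namespace Vale.Agent.P143

open Finset Filter Topology

noncomputable section

/-- The edge set of the coded graph. -/
def eset (a : Sym2 ℕ → Bool) : Set (Sym2 ℕ) := {e | ¬ e.IsDiag ∧ a e = true}

theorem edgeSet_graphOf (a : Sym2 ℕ → Bool) : (graphOf a).edgeSet = eset a := by
  ext e
  induction e using Sym2.ind with
  | h u v => simp [eset, graphOf]

theorem adj_iff (a : Sym2 ℕ → Bool) (u v : ℕ) : (graphOf a).Adj u v ↔ s(u, v) ∈ eset a := by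
  simp [eset, graphOf]

/-- An exhaustion given by finite vertex and edge sets. -/
structure Exh (a : Sym2 ℕ → Bool) (S : ℕ → Finset ℕ) (F : ℕ → Finset (Sym2 ℕ)) : Prop where
  edges : ∀ n, ∀ e ∈ F n, ¬ e.IsDiag ∧ ∀ v ∈ e, v ∈ S n
  sub : ∀ n, (↑(F n) : Set (Sym2 ℕ)) ⊆ eset a
  tree : ∀ n, (trees (S n) (F n)).Nonempty
  cover : ∀ e ∈ eset a, ∀ᶠ n in atTop, e ∈ F n

theorem Exh.entry_tendsto {a : Sym2 ℕ → Bool} {S : ℕ → Finset ℕ} {F : ℕ → Finset (Sym2 ℕ)}
    (h : Exh a S F) {y : Sym2 ℕ → ℝ} {B : ℝ} (hy : ∀ e, |y e| ≤ B) (e g : Sym2 ℕ) :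
    Tendsto (fun n => entry (S n) (F n) y e g) atTop (𝓝 (Pe (eset a) y e g)) := by
  have := Pe_tendsto (Fk := fun n => (↑(F n) : Set (Sym2 ℕ))) h.sub
    (fun e he => (h.cover e he).mono fun n hn => by simpa using hn) hy (fun _ => hy)
    (fun _ => tendsto_const_nhds) e g
  refine this.congr fun n => Pe_finite (h.edges n) (h.tree n) y e g

theorem trees_nonempty {S : Finset ℕ} {F : Finset (Sym2 ℕ)}
    (hF : ∀ e ∈ F, ¬ e.IsDiag ∧ ∀ v ∈ e, v ∈ S)
    (hc : ((SimpleGraph.fromEdgeSet (F : Set (Sym2 ℕ))).induce (S : Set ℕ)).Connected) :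
    (trees S F).Nonempty := by
  classical
  obtain ⟨K, hK, hKt⟩ := hc.exists_isTree_le
  set T := F.filter (fun e => e ∈ Sym2.map (fun z : (S : Set ℕ) => z.1) '' K.edgeSet) with hT
  refine ⟨T, mem_trees.2 ⟨Finset.filter_subset _ _, fun e he => hF e (Finset.mem_filter.1 he).1, ?_⟩⟩
  have : (SimpleGraph.fromEdgeSet (T : Set (Sym2 ℕ))).induce (S : Set ℕ) = K := by
    ext u v
    simp only [SimpleGraph.induce, SimpleGraph.comap_adj, SimpleGraph.fromEdgeSet_adj,
      Function.Embedding.subtype_apply]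
    constructor
    · rintro ⟨hm, -⟩
      rw [Finset.mem_coe, hT, Finset.mem_filter] at hm
      obtain ⟨-, z, hz, hzz⟩ := hm
      have : z = s(u, v) := Sym2.map.injective Subtype.val_injective (hzz.trans (by simp))
      subst this
      exact hz
    · intro huv
      have h1 := hK huv
      simp only [SimpleGraph.induce, SimpleGraph.comap_adj, SimpleGraph.fromEdgeSet_adj,
        Function.Embedding.subtype_apply] at h1
      refine ⟨?_, h1.2⟩
      rw [Finset.mem_coe, hT, Finset.mem_filter]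
      exact ⟨h1.1, s(u, v), huv, by simp⟩
  rw [this]; exact hKt

/-- Membership in the ball of radius `n` about `W`. -/
def InBall (a : Sym2 ℕ → Bool) (W : Finset ℕ) : ℕ → ℕ → Prop
  | 0, v => v ∈ W
  | n + 1, v => InBall a W n v ∨ ∃ u, InBall a W n u ∧ s(u, v) ∈ eset a

open scoped Classical in
/-- The ball as a finset. -/
def ballS (a : Sym2 ℕ → Bool) (W : Finset ℕ) (n : ℕ) : Finset ℕ :=
  if h : {v | InBall a W n v}.Finite then h.toFinset else ∅

open scoped Classical in
/-- The edges with both ends in `S`. -/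
def edgesIn (a : Sym2 ℕ → Bool) (S : Finset ℕ) : Finset (Sym2 ℕ) :=
  S.sym2.filter (fun e => e ∈ eset a)

theorem mem_edgesIn {a : Sym2 ℕ → Bool} {S : Finset ℕ} {e : Sym2 ℕ} :
    e ∈ edgesIn a S ↔ (∀ v ∈ e, v ∈ S) ∧ e ∈ eset a := by
  simp [edgesIn, Finset.mem_sym2_iff]

theorem inBall_finite {a : Sym2 ℕ → Bool} (ha : Good a) (W : Finset ℕ) :
    ∀ n, {v | InBall a W n v}.Finite
  | 0 => W.finite_toSet.subset fun v hv => hv
  | n + 1 => by
    refine ((inBall_finite ha W n).union ((inBall_finite ha W n).biUnion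
      fun u _ => ha.2.2 u)).subset ?_
    rintro v (hv | ⟨u, hu, huv⟩)
    · exact Or.inl hv
    · exact Or.inr (Set.mem_biUnion hu ((adj_iff a u v).2 huv))

theorem mem_ballS {a : Sym2 ℕ → Bool} (ha : Good a) {W : Finset ℕ} {n v : ℕ} :
    v ∈ ballS a W n ↔ InBall a W n v := by
  simp [ballS, inBall_finite ha W n]

theorem inBall_mono {a : Sym2 ℕ → Bool} {W : Finset ℕ} {n m : ℕ} (h : n ≤ m) {v : ℕ}
    (hv : InBall a W n v) : InBall a W m v := by
  induction m, h using Nat.le_induction with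
  | base => exact hv
  | succ m _ ih => exact Or.inl ih

theorem inBall_exists {a : Sym2 ℕ → Bool} (ha : Good a) {W : Finset ℕ} (hW : W.Nonempty) (v : ℕ) :
    ∃ n, InBall a W n v := by
  obtain ⟨w, hw⟩ := hW
  obtain ⟨p⟩ := ha.2.1.preconnected w v
  have : ∀ (x z : ℕ), (graphOf a).Walk x z → (∃ n, InBall a W n x) → ∃ n, InBall a W n z := by
    intro x z q
    induction q with
    | nil => exact id
    | cons hadj _ ih =>
      rintro ⟨n, hn⟩
      exact ih ⟨n + 1, Or.inr ⟨_, hn, (adj_iff a _ _).1 hadj⟩⟩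
  exact this w v p ⟨0, hw⟩

/-- The admissible seeds for balls: nonempty, with any two members equal or adjacent. -/
def Seed (a : Sym2 ℕ → Bool) (W : Finset ℕ) : Prop :=
  W.Nonempty ∧ ∀ u ∈ W, ∀ v ∈ W, u = v ∨ s(u, v) ∈ eset a

theorem ball_exh {a : Sym2 ℕ → Bool} (ha : Good a) {W : Finset ℕ} (hW : Seed a W) :
    Exh a (ballS a W) (fun n => edgesIn a (ballS a W n)) := by
  classical
  have hed : ∀ n, ∀ e ∈ edgesIn a (ballS a W n), ¬ e.IsDiag ∧ ∀ v ∈ e, v ∈ ballS a W n :=
    fun n e he => ⟨(mem_edgesIn.1 he).2.1, (mem_edgesIn.1 he).1⟩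
  refine ⟨hed, fun n e he => (mem_edgesIn.1 he).2, fun n => trees_nonempty (hed n) ?_, fun e he => ?_⟩
  · obtain ⟨w, hw⟩ := hW.1
    set K := (SimpleGraph.fromEdgeSet (edgesIn a (ballS a W n) : Set (Sym2 ℕ))).induce
      (ballS a W n : Set ℕ) with hK
    have hwn : w ∈ ballS a W n := (mem_ballS ha).2 (inBall_mono (Nat.zero_le n) hw)
    have hadj : ∀ u v (hu : u ∈ ballS a W n) (hv : v ∈ ballS a W n), s(u, v) ∈ eset a →
        K.Adj ⟨u, hu⟩ ⟨v, hv⟩ := by
      intro u v hu hv he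
      simp only [hK, SimpleGraph.induce, SimpleGraph.comap_adj, SimpleGraph.fromEdgeSet_adj,
        Function.Embedding.subtype_apply, Finset.mem_coe, mem_edgesIn]
      exact ⟨⟨by simp [hu, hv], he⟩, by simpa using he.1⟩
    rw [SimpleGraph.connected_iff_exists_forall_reachable]
    refine ⟨⟨w, hwn⟩, ?_⟩
    suffices h : ∀ m ≤ n, ∀ v (hv : v ∈ ballS a W n), InBall a W m v →
        K.Reachable ⟨w, hwn⟩ ⟨v, hv⟩ by
      rintro ⟨v, hv⟩; exact h n le_rfl v hv ((mem_ballS ha).1 hv)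
    intro m
    induction m with
    | zero =>
      intro _ v hv hm
      rcases hW.2 w hw v hm with h | h
      · subst h; exact SimpleGraph.Reachable.refl _
      · exact (hadj w v hwn hv h).reachable
    | succ m ih =>
      intro hle v hv hm
      rcases hm with hm | ⟨u, hu, huv⟩
      · exact ih (by omega) v hv hm
      · have hun : u ∈ ballS a W n := (mem_ballS ha).2 (inBall_mono (by omega) hu)
        exact (ih (by omega) u hun hu).trans (hadj u v hun hv huv).reachable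
  · induction e using Sym2.ind with
    | h u v =>
      obtain ⟨nu, hu⟩ := inBall_exists ha hW.1 u
      obtain ⟨nv, hv⟩ := inBall_exists ha hW.1 v
      filter_upwards [eventually_ge_atTop (max nu nv)] with n hn
      refine mem_edgesIn.2 ⟨fun x hx => ?_, he⟩
      rcases Sym2.mem_iff.1 hx with rfl | rfl
      · exact (mem_ballS ha).2 (inBall_mono ((le_max_left _ _).trans hn) hu)
      · exact (mem_ballS ha).2 (inBall_mono ((le_max_right _ _).trans hn) hv)

open scoped Classical in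
/-- The finite approximation around the edge `g` of the transfer current. -/
def locEntry (a : Sym2 ℕ → Bool) (y : Sym2 ℕ → ℝ) (n : ℕ) (j g : Sym2 ℕ) : ℝ :=
  entry (ballS a g.toFinset n) (edgesIn a (ballS a g.toFinset n)) y j g

theorem seed_edge {a : Sym2 ℕ → Bool} {g : Sym2 ℕ} (hg : g ∈ eset a) : Seed a g.toFinset := by
  induction g using Sym2.ind with
  | h u v =>
    refine ⟨⟨u, by simp⟩, fun x hx z hz => ?_⟩
    simp only [Sym2.mem_toFinset, Sym2.mem_iff] at hx hz
    rcases hx with rfl | rfl <;> rcases hz with rfl | rfl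
    · exact Or.inl rfl
    · exact Or.inr hg
    · exact Or.inr (by rwa [Sym2.eq_swap])
    · exact Or.inl rfl

theorem locEntry_tendsto {a : Sym2 ℕ → Bool} (ha : Good a) {y : Sym2 ℕ → ℝ} {B : ℝ}
    (hy : ∀ e, |y e| ≤ B) (j g : Sym2 ℕ) :
    Tendsto (fun n => locEntry a y n j g) atTop (𝓝 (Pe (eset a) y j g)) := by
  by_cases hg : g ∈ eset a
  · exact (ball_exh ha (seed_edge hg)).entry_tendsto hy j g
  · rw [Pe_outside hg]
    refine tendsto_const_nhds.congr fun n => ?_
    have : g ∉ edgesIn a (ballS a g.toFinset n) := fun h => hg (mem_edgesIn.1 h).2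
    simp [locEntry, entry, this]

/-- The conditional probability of the edge `e` for log-conductances `y`, in canonical form. -/
def marg (a : Sym2 ℕ → Bool) (y : Sym2 ℕ → ℝ) (e : Sym2 ℕ) : ℝ :=
  max 0 (min 1 (limsup (fun n => locEntry a y n e e) atTop))

/-- The influence kernel in canonical form. -/
def kern (a : Sym2 ℕ → Bool) (y : Sym2 ℕ → ℝ) (j e : Sym2 ℕ) : ℝ :=
  if j = e then marg a y e ^ 2 + (1 - marg a y e) ^ 2
  else 2 * limsup (fun n => locEntry a y n j e ^ 2) atTop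

theorem marg_mem (a : Sym2 ℕ → Bool) (y : Sym2 ℕ → ℝ) (e : Sym2 ℕ) :
    marg a y e ∈ Set.Icc (0 : ℝ) 1 :=
  ⟨le_max_left _ _, max_le zero_le_one (min_le_left _ _)⟩

theorem marg_eq {a : Sym2 ℕ → Bool} (ha : Good a) {y : Sym2 ℕ → ℝ} {B : ℝ}
    (hy : ∀ e, |y e| ≤ B) (e : Sym2 ℕ) : marg a y e = Pe (eset a) y e e := by
  unfold marg
  rw [(locEntry_tendsto ha hy e e).limsup_eq]
  obtain ⟨h0, h1⟩ := Pe_diag_mem (eset a) y e
  rw [min_eq_right h1, max_eq_right h0]

theorem kern_eq {a : Sym2 ℕ → Bool} (ha : Good a) {y : Sym2 ℕ → ℝ} {B : ℝ}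
    (hy : ∀ e, |y e| ≤ B) (j e : Sym2 ℕ) : kern a y j e = infl (eset a) y j e := by
  unfold kern infl
  by_cases h : j = e
  · subst h; rw [if_pos rfl, if_pos rfl, marg_eq ha hy]
  · rw [if_neg h, if_neg h, ((locEntry_tendsto ha hy j e).pow 2).limsup_eq]
    ring

end

end Vale.Agent.P143
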