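import Vale.Agent.P143.Canon

/-!
Existence, uniqueness and basic identities of the free uniform spanning forest measure.
-/

namespace Vale.Agent.P143

open Finset Filter Topology MeasureTheory

noncomputable section

/-- A configuration of edges. -/
abbrev Cfg := Sym2 ℕ → Bool

/-- Agreement with `η` on `A`. -/
def cyl (A : Finset (Sym2 ℕ)) (η : Cfg) : Set Cfg := {ω | ∀ e ∈ A, ω e = η e}

theorem measurableSet_cyl (A : Finset (Sym2 ℕ)) (η : Cfg) : MeasurableSet (cyl A η) := by
  have : cyl A η = ⋂ e ∈ A, (fun ω : Cfg => ω e) ⁻¹' {η e} := by ext ω; simp [cyl]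
  rw [this]
  exact MeasurableSet.biInter A.countable_toSet
    fun e _ => (measurable_pi_apply (X := fun _ : Sym2 ℕ => Bool) e) (measurableSet_singleton _)

open scoped Classical in
/-- The indicator configuration of a finite edge set. -/
def tcfg (T : Finset (Sym2 ℕ)) : Cfg := fun e => decide (e ∈ T)

open scoped Classical in
/-- Weighted count of spanning trees matching `η` on `A`. -/
def Zp (S : Finset ℕ) (F A : Finset (Sym2 ℕ)) (η : Cfg) (y : Sym2 ℕ → ℝ) : ℝ :=
  ∑ T ∈ trees S F, if tcfg T ∈ cyl A η then wt y T else 0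

/-- Probability of `cyl A η` under the uniform spanning tree. -/
def ratio (S : Finset ℕ) (F A : Finset (Sym2 ℕ)) (η : Cfg) : ℝ :=
  Zp S F A η 0 / Zf S F 0

theorem curr_self_entry (S : Finset ℕ) (F : Finset (Sym2 ℕ)) (y : Sym2 ℕ → ℝ) (g : Sym2 ℕ) :
    curr S F y g g = entry S F y g g := by
  classical
  unfold entry
  by_cases hg : g ∈ F
  · simp [hg]
  · rw [if_neg (by simp [hg]), curr_self, Finset.sum_eq_zero, zero_div]
    intro T hT
    rw [Finset.mem_filter] at hT
    exact absurd ((mem_trees.1 hT.1).1 hT.2) hg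

open scoped Classical in
theorem wt_update (y : Sym2 ℕ → ℝ) (j : Sym2 ℕ) (c : ℝ) (T : Finset (Sym2 ℕ)) :
    wt (Function.update y j (y j + c)) T = wt y T * (if j ∈ T then Real.exp c else 1) := by
  unfold wt
  split_ifs with h
  · rw [Finset.sum_update_of_mem h, Finset.sdiff_singleton_eq_erase, ← Real.exp_add,
      ← Finset.add_sum_erase T y h]
    congr 1; ring
  · rw [mul_one]
    congr 1
    exact Finset.sum_congr rfl fun e he => Function.update_of_ne (fun hh : e = j => h (hh ▸ he)) _ _

open scoped Classical in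
theorem Zf_update {S : Finset ℕ} {F : Finset (Sym2 ℕ)} (hne : (trees S F).Nonempty)
    (y : Sym2 ℕ → ℝ) (j : Sym2 ℕ) (c : ℝ) :
    Zf S F (Function.update y j (y j + c)) =
      Zf S F y * (1 + (Real.exp c - 1) * curr S F y j j) := by
  have hZ := Zf_pos y hne
  rw [curr_self, mul_add, mul_one, ← mul_assoc, mul_comm (Zf S F y) (Real.exp c - 1), mul_assoc,
    mul_div_cancel₀ _ hZ.ne']
  unfold Zf
  rw [Finset.mul_sum, Finset.sum_filter, ← Finset.sum_add_distrib]
  refine Finset.sum_congr rfl fun T _ => ?_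
  rw [wt_update]
  split_ifs <;> ring

theorem bdd_of_supp {y : Sym2 ℕ → ℝ} {B : Finset (Sym2 ℕ)} (h : ∀ e ∉ B, y e = 0) :
    ∀ e, |y e| ≤ ∑ b ∈ B, |y b| := by
  intro e
  by_cases he : e ∈ B
  · exact Finset.single_le_sum (f := fun b => |y b|) (fun b _ => abs_nonneg _) he
  · rw [h e he, abs_zero]; exact Finset.sum_nonneg fun b _ => abs_nonneg _

theorem Zf_limit (a : Cfg) (B : Finset (Sym2 ℕ)) :
    ∀ y : Sym2 ℕ → ℝ, (∀ e ∉ B, y e = 0) →
      ∃ L, ∀ S F, Exh a S F → Tendsto (fun n => Zf (S n) (F n) y / Zf (S n) (F n) 0) atTop (𝓝 L) := by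
  classical
  induction B using Finset.induction with
  | empty =>
    intro y hy
    refine ⟨1, fun S F h => ?_⟩
    have : y = 0 := funext fun e => hy e (by simp)
    subst this
    refine tendsto_const_nhds.congr fun n => ?_
    rw [div_self (Zf_pos 0 (h.tree n)).ne']
  | insert j B hj ih =>
    intro y hy
    set y' := Function.update y j 0 with hy'
    have hs : ∀ e ∉ B, y' e = 0 := fun e he => by
      by_cases hej : e = j
      · simp [hy', hej]
      · rw [hy', Function.update_of_ne hej]; exact hy e (by simp [he, hej])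
    obtain ⟨L, hL⟩ := ih y' hs
    refine ⟨L * (1 + (Real.exp (y j) - 1) * Pe (eset a) y' j j), fun S F h => ?_⟩
    have hy2 : y = Function.update y' j (y' j + y j) := by
      funext e
      by_cases hej : e = j
      · subst hej; simp [hy']
      · simp [hy', hej]
    refine ((hL S F h).mul ((tendsto_const_nhds.mul
      (h.entry_tendsto (bdd_of_supp hs) j j)).const_add 1)).congr fun n => ?_
    conv_rhs => rw [hy2, Zf_update (h.tree n), curr_self_entry]
    ring

open scoped Classical in
theorem Zp_insert_true {S : Finset ℕ} {F A : Finset (Sym2 ℕ)} {e : Sym2 ℕ}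
    (η : Cfg) (hη : η e = true) (y : Sym2 ℕ → ℝ) :
    Zp S F (insert e A) η y =
      (Zp S F A η (Function.update y e (y e + 1)) - Zp S F A η y) / (Real.exp 1 - 1) := by
  have h1 : Real.exp 1 - 1 ≠ 0 := by
    have := Real.add_one_lt_exp (x := (1 : ℝ)) one_ne_zero; linarith
  rw [eq_div_iff h1]
  unfold Zp
  rw [Finset.sum_mul, ← Finset.sum_sub_distrib]
  refine Finset.sum_congr rfl fun T _ => ?_
  rw [wt_update]
  by_cases hA : tcfg T ∈ cyl A η <;> by_cases he : e ∈ T
  · have : tcfg T ∈ cyl (insert e A) η := by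
      intro x hx
      rcases Finset.mem_insert.1 hx with rfl | hx
      · simp [tcfg, he, hη]
      · exact hA x hx
    simp [hA, he, this]; ring
  · have : tcfg T ∉ cyl (insert e A) η := fun hh => he (by
      simpa [tcfg, hη] using hh e (Finset.mem_insert_self _ _))
    simp [hA, he, this]
  all_goals
    have : tcfg T ∉ cyl (insert e A) η := fun hh => hA fun x hx =>
      hh x (Finset.mem_insert_of_mem hx)
    simp [hA, this]

open scoped Classical in
theorem Zp_insert_false {S : Finset ℕ} {F A : Finset (Sym2 ℕ)} {e : Sym2 ℕ} (he' : e ∉ A)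
    (η : Cfg) (hη : η e = false) (y : Sym2 ℕ → ℝ) :
    Zp S F (insert e A) η y =
      Zp S F A η y - Zp S F (insert e A) (Function.update η e true) y := by
  unfold Zp
  rw [← Finset.sum_sub_distrib]
  refine Finset.sum_congr rfl fun T _ => ?_
  have e1 : ∀ ξ : Cfg, tcfg T ∈ cyl (insert e A) ξ ↔
      (tcfg T e = ξ e ∧ tcfg T ∈ cyl A ξ) := fun ξ => by simp [cyl]
  have e2 : tcfg T ∈ cyl A (Function.update η e true) ↔ tcfg T ∈ cyl A η := by
    simp only [cyl, Set.mem_ofPred_eq]
    refine forall₂_congr fun x hx => ?_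
    rw [Function.update_of_ne (fun h : x = e => he' (h ▸ hx))]
  rw [if_congr (e1 η) rfl rfl, if_congr (e1 (Function.update η e true)) rfl rfl]
  simp only [e2, Function.update_self, hη]
  by_cases hA : tcfg T ∈ cyl A η <;> cases h : tcfg T e <;> simp [hA]

theorem Zp_empty (S : Finset ℕ) (F : Finset (Sym2 ℕ)) (η : Cfg) (y : Sym2 ℕ → ℝ) :
    Zp S F ∅ η y = Zf S F y := by
  simp [Zp, Zf, cyl]

theorem Zp_limit (a : Cfg) (A : Finset (Sym2 ℕ)) :
    ∀ (η : Cfg) (y : Sym2 ℕ → ℝ) (B : Finset (Sym2 ℕ)), (∀ e ∉ B, y e = 0) →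
      ∃ L, ∀ S F, Exh a S F →
        Tendsto (fun n => Zp (S n) (F n) A η y / Zf (S n) (F n) 0) atTop (𝓝 L) := by
  classical
  induction A using Finset.induction with
  | empty =>
    intro η y B hB
    obtain ⟨L, hL⟩ := Zf_limit a B y hB
    exact ⟨L, fun S F h => by simpa [Zp_empty] using hL S F h⟩
  | insert e A he ih =>
    have htrue : ∀ (η : Cfg), η e = true → ∀ (y : Sym2 ℕ → ℝ) (B : Finset (Sym2 ℕ)),
        (∀ x ∉ B, y x = 0) → ∃ L, ∀ S F, Exh a S F →
        Tendsto (fun n => Zp (S n) (F n) (insert e A) η y / Zf (S n) (F n) 0) atTop (𝓝 L) := by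
      intro η hη y B hB
      obtain ⟨L1, h1⟩ := ih η y B hB
      obtain ⟨L2, h2⟩ := ih η (Function.update y e (y e + 1)) (insert e B) (fun x hx => by
        rw [Finset.mem_insert, not_or] at hx
        rw [Function.update_of_ne hx.1]; exact hB x hx.2)
      refine ⟨(L2 - L1) / (Real.exp 1 - 1), fun S F h => ?_⟩
      refine (((h2 S F h).sub (h1 S F h)).div_const (Real.exp 1 - 1)).congr fun n => ?_
      rw [Zp_insert_true η hη]; ring
    intro η y B hB
    cases hη : η e with
    | true => exact htrue η hη y B hB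
    | false =>
      obtain ⟨L1, h1⟩ := ih η y B hB
      obtain ⟨L2, h2⟩ := htrue (Function.update η e true) (by simp) y B hB
      refine ⟨L1 - L2, fun S F h => ((h1 S F h).sub (h2 S F h)).congr fun n => ?_⟩
      rw [Zp_insert_false he η hη]; ring

theorem seed_single (a : Cfg) (v : ℕ) : Seed a {v} :=
  ⟨by simp, fun x hx z hz => Or.inl (by
    rw [Finset.mem_singleton] at hx hz; rw [hx, hz])⟩

/-- The defining property of the forest measure. -/
def Spec (a : Cfg) (μ : Measure Cfg) : Prop :=
  IsProbabilityMeasure μ ∧ ∀ S F, Exh a S F → ∀ A η,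
    Tendsto (fun n => ratio (S n) (F n) A η) atTop (𝓝 (μ.real (cyl A η)))

open scoped Classical in
/-- The uniform spanning tree measure of a finite graph. -/
def ustMeasure (S : Finset ℕ) (F : Finset (Sym2 ℕ)) : Measure Cfg :=
  ∑ T ∈ trees S F, ENNReal.ofReal (1 / Zf S F 0) • Measure.dirac (tcfg T)

theorem Zf_zero (S : Finset ℕ) (F : Finset (Sym2 ℕ)) : Zf S F 0 = (trees S F).card := by
  simp [Zf, wt]

theorem ustMeasure_prob {S : Finset ℕ} {F : Finset (Sym2 ℕ)} (h : (trees S F).Nonempty) :
    IsProbabilityMeasure (ustMeasure S F) := by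
  constructor
  have hc : (0 : ℝ) < (trees S F).card := by exact_mod_cast h.card_pos
  simp only [ustMeasure, Measure.coe_finsetSum, Finset.sum_apply, Measure.smul_apply,
    Measure.dirac_apply_of_mem (Set.mem_univ _), smul_eq_mul, mul_one, Finset.sum_const,
    nsmul_eq_mul, Zf_zero]
  rw [← ENNReal.ofReal_natCast, ← ENNReal.ofReal_mul hc.le, mul_one_div_cancel hc.ne',
    ENNReal.ofReal_one]

open scoped Classical in
theorem ustMeasure_integral {S : Finset ℕ} {F : Finset (Sym2 ℕ)} (h : (trees S F).Nonempty)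
    (f : Cfg → ℝ) (hf : Measurable f) :
    ∫ ω, f ω ∂ustMeasure S F = (∑ T ∈ trees S F, f (tcfg T)) / Zf S F 0 := by
  have hc : (0 : ℝ) < 1 / Zf S F 0 := one_div_pos.2 (Zf_pos 0 h)
  unfold ustMeasure
  rw [integral_finsetSum_measure, Finset.sum_div]
  · refine Finset.sum_congr rfl fun T _ => ?_
    rw [integral_smul_measure, integral_dirac' _ _ hf.stronglyMeasurable,
      ENNReal.toReal_ofReal hc.le, smul_eq_mul]
    ring
  · intro T _
    exact (integrable_dirac' hf.stronglyMeasurable (by simp [enorm_lt_top])).smul_measure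
      ENNReal.ofReal_ne_top

open scoped Classical in
/-- The indicator of a cylinder, as a continuous function. -/
def cylFun (A : Finset (Sym2 ℕ)) (η : Cfg) : BoundedContinuousFunction Cfg ℝ :=
  BoundedContinuousFunction.mkOfCompact
    ⟨fun ω => ∏ e ∈ A, if ω e = η e then 1 else 0,
      continuous_finsetProd _ fun e _ =>
        (continuous_of_discreteTopology (f := fun b : Bool => if b = η e then (1 : ℝ) else 0)).comp
          (continuous_apply e)⟩

open scoped Classical in
theorem cylFun_eq (A : Finset (Sym2 ℕ)) (η : Cfg) (ω : Cfg) :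
    cylFun A η ω = (cyl A η).indicator 1 ω := by
  show (∏ e ∈ A, if ω e = η e then (1 : ℝ) else 0) = _
  by_cases h : ω ∈ cyl A η
  · rw [Set.indicator_of_mem h, Finset.prod_eq_one fun e he => if_pos (h e he)]; rfl
  · rw [Set.indicator_of_notMem h]
    simp only [cyl, Set.mem_ofPred_eq, not_forall] at h
    obtain ⟨e, he, hne⟩ := h
    exact Finset.prod_eq_zero he (if_neg hne)

theorem integral_cylFun (μ : Measure Cfg) (A : Finset (Sym2 ℕ)) (η : Cfg) :
    ∫ ω, cylFun A η ω ∂μ = μ.real (cyl A η) := by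
  rw [show (fun ω => cylFun A η ω) = (cyl A η).indicator 1 from funext (cylFun_eq A η),
    integral_indicator_one (measurableSet_cyl A η)]

theorem exists_spec {a : Cfg} (ha : Good a) : ∃ μ, Spec a μ := by
  classical
  have h0 := ball_exh ha (seed_single a 0)
  set S := ballS a {0}
  set F := fun n => edgesIn a (ballS a {0} n)
  let ν : ℕ → ProbabilityMeasure Cfg := fun n => ⟨ustMeasure (S n) (F n), ustMeasure_prob (h0.tree n)⟩
  obtain ⟨μ, hμ⟩ := exists_clusterPt_of_compactSpace (map ν atTop)
  refine ⟨μ, inferInstance, fun S' F' h' A η => ?_⟩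
  obtain ⟨L, hL⟩ := Zp_limit a A η 0 ∅ (fun _ _ => rfl)
  suffices (μ : Measure Cfg).real (cyl A η) = L by
    rw [this]; exact hL S' F' h'
  have hc : Continuous fun m : ProbabilityMeasure Cfg => ∫ ω, cylFun A η ω ∂(m : Measure Cfg) :=
    ProbabilityMeasure.continuous_integral_boundedContinuousFunction _
  have hseq : Tendsto (fun n => ∫ ω, cylFun A η ω ∂(ν n : Measure Cfg)) atTop (𝓝 L) := by
    refine (hL S F h0).congr fun n => ?_
    show Zp (S n) (F n) A η 0 / _ = ∫ ω, cylFun A η ω ∂ustMeasure (S n) (F n)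
    rw [ustMeasure_integral (h0.tree n) _ (cylFun A η).continuous.measurable]
    congr 1
    refine Finset.sum_congr rfl fun T _ => ?_
    rw [cylFun_eq]
    by_cases hT : tcfg T ∈ cyl A η <;> simp [hT, wt]
  have hcl : ClusterPt (∫ ω, cylFun A η ω ∂(μ : Measure Cfg))
      (map (fun n => ∫ ω, cylFun A η ω ∂(ν n : Measure Cfg)) atTop) := by
    have := hμ.map hc.continuousAt (ly := map (fun m : ProbabilityMeasure Cfg =>
      ∫ ω, cylFun A η ω ∂(m : Measure Cfg)) (map ν atTop)) tendsto_map
    rwa [Filter.map_map] at this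
  rw [← integral_cylFun]
  exact eq_of_nhds_neBot (hcl.mono hseq).neBot

theorem cyl_ext {μ ν : Measure Cfg} [IsProbabilityMeasure μ] [IsProbabilityMeasure ν]
    (h : ∀ A η, μ.real (cyl A η) = ν.real (cyl A η)) : μ = ν := by
  classical
  let P : (I : Finset (Sym2 ℕ)) → Measure (∀ _e : I, Bool) := fun I => μ.map I.restrict
  have h1 : IsProjectiveLimit μ P := fun I => rfl
  have h2 : IsProjectiveLimit ν P := by
    intro I
    refine Measure.ext_of_singleton fun b => ?_
    let η : Cfg := fun e => if he : e ∈ I then b ⟨e, he⟩ else false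
    have hpre : (I.restrict : Cfg → ∀ _e : I, Bool) ⁻¹' {b} = cyl I η := by
      ext ω
      simp only [Set.mem_preimage, Set.mem_singleton_iff, cyl, Set.mem_ofPred_eq, funext_iff,
        Finset.restrict, Subtype.forall]
      refine forall₂_congr fun e he => ?_
      simp [η, he]
    simp only [P]
    rw [Measure.map_apply (Finset.measurable_restrict _) (measurableSet_singleton _),
      Measure.map_apply (Finset.measurable_restrict _) (measurableSet_singleton _), hpre,
      ← ofReal_measureReal, ← ofReal_measureReal, h]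
  exact h1.unique h2

theorem spec_unique {a : Cfg} (ha : Good a) {μ ν : Measure Cfg} (hμ : Spec a μ) (hν : Spec a ν) :
    μ = ν := by
  have h0 := ball_exh ha (seed_single a 0)
  have := hμ.1
  have := hν.1
  exact cyl_ext fun A η => tendsto_nhds_unique (hμ.2 _ _ h0 A η) (hν.2 _ _ h0 A η)

open scoped Classical in
/-- The free uniform spanning forest measure of a coded graph. -/
def fusf (a : Cfg) : Measure Cfg :=
  if h : Good a then Classical.choose (exists_spec h) else Measure.dirac fun _ => false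

theorem fusf_spec {a : Cfg} (ha : Good a) : Spec a (fusf a) := by
  rw [fusf, dif_pos ha]; exact Classical.choose_spec (exists_spec ha)

instance fusf_prob (a : Cfg) : IsProbabilityMeasure (fusf a) := by
  by_cases ha : Good a
  · exact (fusf_spec ha).1
  · rw [fusf, dif_neg ha]; infer_instance

open scoped Classical in
/-- Functions of finitely many edges are averages over cylinders. -/
theorem sum_cyl {A : Finset (Sym2 ℕ)} {f : Cfg → ℝ} (hf : ∀ ω ω', (∀ e ∈ A, ω e = ω' e) → f ω = f ω')
    (ω : Cfg) : f ω = ∑ U ∈ A.powerset, (cyl A (tcfg U)).indicator (fun _ => f (tcfg U)) ω := by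
  rw [Finset.sum_eq_single (A.filter fun e => ω e = true)]
  · have : ω ∈ cyl A (tcfg (A.filter fun e => ω e = true)) := fun e he => by simp [tcfg, he]
    rw [Set.indicator_of_mem this]
    exact hf _ _ this
  · intro U hU hne
    refine Set.indicator_of_notMem (fun hh : ω ∈ cyl A (tcfg U) => hne ?_) _
    ext e
    rw [Finset.mem_powerset] at hU
    rw [Finset.mem_filter]
    exact ⟨fun he => ⟨hU he, by simpa [tcfg, he] using hh e (hU he)⟩,
      fun he => by simpa [tcfg, he.2] using hh e he.1⟩
  · intro h; exact absurd (Finset.mem_powerset.2 (Finset.filter_subset _ _)) h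

theorem measurable_local {A : Finset (Sym2 ℕ)} {f : Cfg → ℝ}
    (hf : ∀ ω ω', (∀ e ∈ A, ω e = ω' e) → f ω = f ω') : Measurable f := by
  classical
  rw [show f = fun ω => ∑ U ∈ A.powerset, (cyl A (tcfg U)).indicator (fun _ => f (tcfg U)) ω from
    funext (sum_cyl hf)]
  exact Finset.measurable_sum _ fun U _ => measurable_const.indicator (measurableSet_cyl _ _)

open scoped Classical in
theorem integral_local_tendsto {a : Cfg} (ha : Good a) {A : Finset (Sym2 ℕ)} {f : Cfg → ℝ}
    (hf : ∀ ω ω', (∀ e ∈ A, ω e = ω' e) → f ω = f ω') {S F} (h : Exh a S F) :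
    Tendsto (fun n => (∑ T ∈ trees (S n) (F n), f (tcfg T)) / Zf (S n) (F n) 0) atTop
      (𝓝 (∫ ω, f ω ∂fusf a)) := by
  have hi : ∫ ω, f ω ∂fusf a =
      ∑ U ∈ A.powerset, (fusf a).real (cyl A (tcfg U)) * f (tcfg U) := by
    rw [integral_congr_ae (ae_of_all (fusf a) (sum_cyl hf)), integral_finsetSum]
    · refine Finset.sum_congr rfl fun U _ => ?_
      rw [integral_indicator (measurableSet_cyl _ _), setIntegral_const, smul_eq_mul]
    · exact fun U _ => (integrable_const _).indicator (measurableSet_cyl _ _)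
  rw [hi]
  refine Tendsto.congr (fun n => ?_) (tendsto_finsetSum _ fun U _ =>
    ((fusf_spec ha).2 S F h A (tcfg U)).mul_const (f (tcfg U)))
  rw [Finset.sum_div]
  simp only [ratio, Zp, wt, Pi.zero_apply, Finset.sum_const_zero, Real.exp_zero, Finset.sum_div,
    Finset.sum_mul]
  rw [Finset.sum_comm]
  refine Finset.sum_congr rfl fun T _ => ?_
  rw [sum_cyl hf (tcfg T), Finset.sum_div]
  refine Finset.sum_congr rfl fun U _ => ?_
  rw [Set.indicator_apply]
  split_ifs <;> ring

/-- Tilting identity: the marginal of the tilted forest is the transfer current. -/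
theorem fusf_bayes {a : Cfg} (ha : Good a) {y : Sym2 ℕ → ℝ} {B : Finset (Sym2 ℕ)}
    (hy : ∀ e ∉ B, y e = 0) (e : Sym2 ℕ) :
    ∫ ω, (if ω e then Real.exp (∑ j ∈ B, if ω j then y j else 0) else 0) ∂fusf a =
      marg a y e * ∫ ω, Real.exp (∑ j ∈ B, if ω j then y j else 0) ∂fusf a := by
  classical
  have h0 := ball_exh ha (seed_single a 0)
  have h1 : ∀ ω ω' : Cfg, (∀ j ∈ B, ω j = ω' j) →
      Real.exp (∑ j ∈ B, if ω j then y j else 0) = Real.exp (∑ j ∈ B, if ω' j then y j else 0) :=
    fun ω ω' h => by rw [Finset.sum_congr rfl fun j hj => by rw [h j hj]]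
  have h2 : ∀ ω ω' : Cfg, (∀ j ∈ insert e B, ω j = ω' j) →
      (if ω e then Real.exp (∑ j ∈ B, if ω j then y j else 0) else 0) =
        (if ω' e then Real.exp (∑ j ∈ B, if ω' j then y j else 0) else 0) :=
    fun ω ω' h => by
      rw [h e (Finset.mem_insert_self _ _), h1 ω ω' fun j hj => h j (Finset.mem_insert_of_mem hj)]
  refine tendsto_nhds_unique (integral_local_tendsto ha h2 h0) ?_
  rw [marg_eq ha (bdd_of_supp hy)]
  refine ((h0.entry_tendsto (bdd_of_supp hy) e e).mul (integral_local_tendsto ha h1 h0)).congr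
    fun n => ?_
  have hw : ∀ T : Finset (Sym2 ℕ), Real.exp (∑ j ∈ B, if tcfg T j then y j else 0) = wt y T := by
    intro T
    simp only [tcfg, decide_eq_true_eq, wt]
    congr 1
    rw [← Finset.sum_filter]
    refine Finset.sum_subset (fun j hj => (Finset.mem_filter.1 hj).2) fun j hj hj' => ?_
    exact hy j fun hB => hj' (Finset.mem_filter.2 ⟨hB, hj⟩)
  simp only [hw]
  rw [← curr_self_entry, curr_self]
  have : ∀ T : Finset (Sym2 ℕ), (if tcfg T e = true then wt y T else 0) =
      if e ∈ T then wt y T else 0 := fun T => by simp [tcfg]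
  simp only [this, ← Finset.sum_filter]
  have hZ := Zf_pos y (h0.tree n)
  change _ / Zf _ _ y * (Zf _ _ y / _) = _
  field_simp

theorem fusf_nonedge {a : Cfg} (ha : Good a) {e : Sym2 ℕ} (he : e ∉ eset a) :
    fusf a {ω | ω e = true} = 0 := by
  classical
  have h0 := ball_exh ha (seed_single a 0)
  have hs : {ω : Cfg | ω e = true} = cyl {e} (fun _ => true) := by ext ω; simp [cyl]
  have := (fusf_spec ha).2 _ _ h0 {e} (fun _ => true)
  have hz : ∀ n, ratio (ballS a {0} n) (edgesIn a (ballS a {0} n)) {e} (fun _ => true) = 0 := by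
    intro n
    unfold ratio Zp
    rw [Finset.sum_eq_zero, zero_div]
    intro T hT
    refine if_neg fun hh => he ?_
    have he' : e ∈ T := by simpa [tcfg] using hh e (Finset.mem_singleton_self e)
    exact h0.sub n ((mem_trees.1 hT).1 he')
  simp only [hz] at this
  rw [hs, ← ofReal_measureReal, ← tendsto_nhds_unique tendsto_const_nhds this, ENNReal.ofReal_zero]

end

end Vale.Agent.P143
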