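import Vale.Agent.P143.Model

/-!
The seeds recovered from the joint space are independent and uniform.
-/

namespace Vale.Agent.P143

open Finset Filter Topology MeasureTheory ProbabilityTheory
open scoped ENNReal

noncomputable section

/-- Resampling one coordinate of an infinite product. -/
theorem lintegral_resample {ι α : Type*} [MeasurableSpace α] [DecidableEq ι] (μ : Measure α)
    [IsProbabilityMeasure μ] (i : ι) {f : (ι → α) → ℝ≥0∞} (hf : Measurable f) :
    ∫⁻ x, f x ∂Measure.infinitePi (fun _ : ι => μ) =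
      ∫⁻ x, ∫⁻ q, f (Function.update x i q) ∂μ ∂Measure.infinitePi (fun _ : ι => μ) := by
  have hm : Measurable fun p : (ι → α) × α => Function.update p.1 i p.2 := measurable_update'
  have hmap : ((Measure.infinitePi fun _ : ι => μ).prod μ).map
      (fun p : (ι → α) × α => Function.update p.1 i p.2) = Measure.infinitePi (fun _ : ι => μ) := by
    refine Measure.eq_infinitePi _ fun s t ht => ?_
    rw [Measure.map_apply hm (MeasurableSet.pi s.countable_toSet fun j _ => ht j)]
    have hpre : (fun p : (ι → α) × α => Function.update p.1 i p.2) ⁻¹' (s : Set ι).pi t =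
        (↑(s.erase i) : Set ι).pi t ×ˢ (if i ∈ s then t i else Set.univ) := by
      ext ⟨x, q⟩
      simp only [Set.mem_preimage, Set.mem_pi, Finset.mem_coe, Set.mem_prod, Finset.mem_erase]
      constructor
      · intro h
        refine ⟨fun j hj => by simpa [Function.update_of_ne hj.1] using h j hj.2, ?_⟩
        split_ifs with hi
        · simpa using h i hi
        · trivial
      · rintro ⟨h1, h2⟩ j hj
        by_cases hji : j = i
        · subst hji; simpa [hj] using h2
        · simpa [Function.update_of_ne hji] using h1 j ⟨hji, hj⟩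
    rw [hpre, Measure.prod_prod, Measure.infinitePi_pi _ fun j _ => ht j]
    split_ifs with hi
    · exact Finset.prod_erase_mul s (fun j => μ (t j)) hi
    · rw [Finset.erase_eq_of_notMem hi, measure_univ, mul_one]
  conv_lhs => rw [← hmap]
  rw [lintegral_map hf hm]
  exact lintegral_prod _ (hf.comp hm).aemeasurable

/-- Splitting a product of pairs. -/
theorem infinitePi_split {ι α β : Type*} [MeasurableSpace α] [MeasurableSpace β] (μ : Measure α)
    (ν : Measure β) [IsProbabilityMeasure μ] [IsProbabilityMeasure ν] :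
    ((Measure.infinitePi fun _ : ι => μ).prod (Measure.infinitePi fun _ : ι => ν)).map
      (fun p i => (p.1 i, p.2 i)) = Measure.infinitePi (fun _ : ι => μ.prod ν) := by
  classical
  refine (Measure.isProjectiveLimit_infinitePi (fun _ : ι => μ.prod ν)).unique ?_ |>.symm
  intro I
  have hm : Measurable fun p : (ι → α) × (ι → β) => fun i => (p.1 i, p.2 i) := by fun_prop
  rw [Measure.map_map (Finset.measurable_restrict I) hm]
  have hcomp : (I.restrict ∘ fun p : (ι → α) × (ι → β) => fun i => (p.1 i, p.2 i)) =
      (MeasurableEquiv.arrowProdEquivProdArrow α β I).symm ∘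
        Prod.map (I.restrict (π := fun _ => α)) (I.restrict (π := fun _ => β)) := by
    funext p; funext i; rfl
  rw [hcomp, ← Measure.map_map (MeasurableEquiv.measurable _) (by fun_prop),
    ← Measure.map_prod_map _ _ (Finset.measurable_restrict I) (Finset.measurable_restrict I),
    Measure.infinitePi_map_restrict, Measure.infinitePi_map_restrict]
  exact ((measurePreserving_arrowProdEquivProdArrow α β I (fun _ => μ) (fun _ => ν)).symm _).map_eq

/-- The noise of observations. -/
abbrev VW := Idx → ℝ

/-- The law of one seed. -/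
def seed3 : Measure (ℝ × ℝ × ℝ) := unif.prod (unif.prod unif)

instance : IsProbabilityMeasure seed3 := by unfold seed3; infer_instance

/-- The observation from the forest and the noise. -/
def Xf (σ : Cfg) (v : VW) (i : Idx) : Bool :=
  if v i < 3 / 4 then σ i.1 else !σ i.1

theorem measurable_Xf : Measurable (Function.uncurry Xf) := by
  refine measurable_pi_lambda _ fun i => ?_
  unfold Function.uncurry Xf
  refine Measurable.ite (measurableSet_lt (by fun_prop) measurable_const) (by fun_prop) ?_
  exact (measurable_from_top (f := fun b : Bool => !b)).comp (by fun_prop)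

/-- The law of the observations. -/
def obsLaw (a : Cfg) : Measure (Idx → Bool) :=
  ((fusf a).prod (Measure.infinitePi fun _ : Idx => unif)).map (Function.uncurry Xf)

instance (a : Cfg) : IsProbabilityMeasure (obsLaw a) :=
  Measure.isProbabilityMeasure_map measurable_Xf.aemeasurable

/-- The likelihood of one observation. -/
def lik (s b : Bool) : ℝ := if s = b then 3 / 4 else 1 / 4

theorem lik_pos (s b : Bool) : 0 < lik s b := by unfold lik; split_ifs <;> norm_num

theorem unif_lik (s b : Bool) :
    unif {v : ℝ | (if v < 3 / 4 then s else !s) = b} = ENNReal.ofReal (lik s b) := by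
  have h1 : unif (Set.Iio (3 / 4 : ℝ)) = ENNReal.ofReal (3 / 4) := by
    rw [unif, Measure.restrict_apply measurableSet_Iio]
    have : Set.Iio (3 / 4 : ℝ) ∩ Set.Icc 0 1 = Set.Ico 0 (3 / 4) := by
      ext x; simp only [Set.mem_inter_iff, Set.mem_Iio, Set.mem_Icc, Set.mem_Ico]
      constructor
      · intro h; exact ⟨h.2.1, h.1⟩
      · intro h; exact ⟨h.2, h.1, by linarith [h.2]⟩
    rw [this, Real.volume_Ico, sub_zero]
  cases s <;> cases b <;> simp only [lik]
  all_goals
    first
    | (have hset : {v : ℝ | (if v < 3 / 4 then false else !false) = false} = Set.Iio (3 / 4) := by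
        ext v; by_cases hv : v < 3 / 4 <;> simp [hv]
       rw [hset, h1]; simp)
    | (have hset : {v : ℝ | (if v < 3 / 4 then false else !false) = true} = (Set.Iio (3 / 4))ᶜ := by
        ext v; by_cases hv : v < 3 / 4 <;> simp [hv]
       rw [hset, prob_compl_eq_one_sub measurableSet_Iio, h1, ← ENNReal.ofReal_one,
        ← ENNReal.ofReal_sub _ (by norm_num)]
       norm_num)
    | (have hset : {v : ℝ | (if v < 3 / 4 then true else !true) = true} = Set.Iio (3 / 4) := by
        ext v; by_cases hv : v < 3 / 4 <;> simp [hv]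
       rw [hset, h1]; simp)
    | (have hset : {v : ℝ | (if v < 3 / 4 then true else !true) = false} = (Set.Iio (3 / 4))ᶜ := by
        ext v; by_cases hv : v < 3 / 4 <;> simp [hv]
       rw [hset, prob_compl_eq_one_sub measurableSet_Iio, h1, ← ENNReal.ofReal_one,
        ← ENNReal.ofReal_sub _ (by norm_num)]
       norm_num)

/-- Agreement of observation configurations. -/
def ocyl (F : Finset Idx) (η : Idx → Bool) : Set (Idx → Bool) := {X | ∀ j ∈ F, X j = η j}

theorem measurableSet_ocyl (F : Finset Idx) (η : Idx → Bool) : MeasurableSet (ocyl F η) := by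
  have : ocyl F η = ⋂ j ∈ F, (fun X : Idx → Bool => X j) ⁻¹' {η j} := by ext X; simp [ocyl]
  rw [this]
  exact MeasurableSet.biInter F.countable_toSet
    fun j _ => (measurable_pi_apply (X := fun _ : Idx => Bool) j) (measurableSet_singleton _)

theorem obsLaw_ocyl (a : Cfg) (F : Finset Idx) (η : Idx → Bool) :
    obsLaw a (ocyl F η) = ∫⁻ σ, ENNReal.ofReal (∏ j ∈ F, lik (σ j.1) (η j)) ∂fusf a := by
  unfold obsLaw
  rw [Measure.map_apply measurable_Xf (measurableSet_ocyl F η),
    Measure.prod_apply (measurable_Xf (measurableSet_ocyl F η))]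
  refine lintegral_congr fun σ => ?_
  have : Prod.mk σ ⁻¹' (Function.uncurry Xf ⁻¹' ocyl F η) =
      (F : Set Idx).pi fun j => {v : ℝ | (if v < 3 / 4 then σ j.1 else !σ j.1) = η j} := by
    ext v; simp [ocyl, Xf, Set.mem_pi]
  rw [this, Measure.infinitePi_pi, ENNReal.ofReal_prod_of_nonneg fun j _ => (lik_pos _ _).le]
  · exact Finset.prod_congr rfl fun j _ => unif_lik _ _
  · intro j _
    exact measurableSet_eq_fun (Measurable.ite measurableSet_Iio measurable_const measurable_const)
      measurable_const

/-- Log-conductances from finitely many observations. -/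
def yFin (F : Finset Idx) (X : Idx → Bool) (e : Sym2 ℕ) : ℝ :=
  ∑ j ∈ F, if j.1 = e then (if X j then kap else -kap) else 0

theorem lik_exp (s b : Bool) :
    lik s b = lik false b * Real.exp (if s then (if b then kap else -kap) else 0) := by
  cases s <;> cases b <;> simp [lik, kap, Real.exp_neg, Real.exp_log] <;> norm_num

theorem prod_lik (F : Finset Idx) (η : Idx → Bool) (σ : Cfg) :
    ∏ j ∈ F, lik (σ j.1) (η j) = (∏ j ∈ F, lik false (η j)) *
      Real.exp (∑ e ∈ F.image Prod.fst, if σ e then yFin F η e else 0) := by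
  classical
  rw [Finset.prod_congr rfl fun j _ => lik_exp (σ j.1) (η j), Finset.prod_mul_distrib,
    ← Real.exp_sum]
  congr 2
  rw [← Finset.sum_fiberwise_of_maps_to (g := Prod.fst) (t := F.image Prod.fst)
    fun j hj => Finset.mem_image_of_mem _ hj]
  refine Finset.sum_congr rfl fun e _ => ?_
  rw [Finset.sum_filter, yFin]
  by_cases he : σ e
  · rw [if_pos he]
    refine Finset.sum_congr rfl fun j _ => ?_
    by_cases h : j.1 = e
    · simp [h, he]
    · simp [h]
  · rw [if_neg he]
    refine Finset.sum_eq_zero fun j _ => ?_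
    by_cases h : j.1 = e
    · simp [h, he]
    · simp [h]

/-- Bayes' formula for finitely many observations. -/
theorem bayes_finite {a : Cfg} (ha : Good a) (F : Finset Idx) {i : Idx} (hi : i ∉ F)
    {η : Idx → Bool} (hη : η i = true) :
    obsLaw a (ocyl (insert i F) η) =
      ENNReal.ofReal (1 / 4 + marg a (yFin F η) i.1 / 2) * obsLaw a (ocyl F η) := by
  classical
  set B := F.image Prod.fst
  set C := ∏ j ∈ F, lik false (η j)
  set y := yFin F η with hy
  set W : Cfg → ℝ := fun σ => Real.exp (∑ e ∈ B, if σ e then y e else 0)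
  have hsupp : ∀ e ∉ B, y e = 0 := fun e he => Finset.sum_eq_zero fun j hj => by
    rw [if_neg]; rintro rfl; exact he (Finset.mem_image_of_mem _ hj)
  have hloc : ∀ ω ω' : Cfg, (∀ j ∈ B, ω j = ω' j) → W ω = W ω' := fun ω ω' h => by
    simp only [W]; rw [Finset.sum_congr rfl fun j hj => by rw [h j hj]]
  have hWm : Measurable W := measurable_local hloc
  have hWi : Integrable W (fusf a) := by
    refine Integrable.of_bound hWm.aestronglyMeasurable (Real.exp (∑ e ∈ B, |y e|)) (ae_of_all _ fun σ => ?_)
    rw [Real.norm_eq_abs, abs_of_pos (Real.exp_pos _)]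
    refine Real.exp_le_exp.2 (Finset.sum_le_sum fun e _ => ?_)
    split_ifs <;> simp [le_abs_self]
  have hW0 : ∀ σ, 0 ≤ W σ := fun σ => (Real.exp_pos _).le
  have hC : 0 ≤ C := Finset.prod_nonneg fun j _ => (lik_pos _ _).le
  have hb := fusf_bayes ha hsupp i.1
  have hmem : MeasurableSet {σ : Cfg | σ i.1 = true} :=
    (measurable_pi_apply (X := fun _ : Sym2 ℕ => Bool) i.1) (measurableSet_singleton true)
  have hIi : Integrable (fun σ : Cfg => if σ i.1 then W σ else 0) (fusf a) := by
    have h := hWi.indicator hmem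
    refine h.congr (ae_of_all _ fun σ => ?_)
    by_cases hσ : σ i.1 <;> simp [hσ]
  have e1 : ∀ σ : Cfg, ∏ j ∈ insert i F, lik (σ j.1) (η j) =
      C * (1 / 4 * W σ + 1 / 2 * (if σ i.1 then W σ else 0)) := by
    intro σ
    rw [Finset.prod_insert hi, prod_lik, hη]
    by_cases hσ : σ i.1 <;> simp [lik, hσ, W, C, B, y] <;> ring
  have e2 : ∀ σ : Cfg, ∏ j ∈ F, lik (σ j.1) (η j) = C * W σ := fun σ => prod_lik F η σ
  rw [obsLaw_ocyl, obsLaw_ocyl]
  simp only [e1, e2]
  have hI1 := (hWi.const_mul (1 / 4)).add (hIi.const_mul (1 / 2))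
  have hI2 : Integrable (fun σ => C * (1 / 4 * W σ + 1 / 2 * (if σ i.1 then W σ else 0))) (fusf a) :=
    hI1.const_mul C
  rw [← ofReal_integral_eq_lintegral_ofReal (hWi.const_mul C)
      (ae_of_all _ fun σ => mul_nonneg hC (hW0 σ)),
    ← ofReal_integral_eq_lintegral_ofReal hI2 (ae_of_all _ fun σ => mul_nonneg hC (by
      have := hW0 σ; split_ifs <;> positivity)),
    ← ENNReal.ofReal_mul (by have := (marg_mem a y i.1).1; linarith)]
  congr 1
  rw [integral_const_mul, integral_add (hWi.const_mul (1 / 4)) (hIi.const_mul (1 / 2)),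
    integral_const_mul, integral_const_mul, integral_const_mul]
  simp only [W] at hb ⊢
  rw [hb]
  ring

theorem finite_measure_ext {μ ν : Measure (Idx → Bool)} [IsFiniteMeasure μ] [IsFiniteMeasure ν]
    (h : ∀ F η, μ (ocyl F η) = ν (ocyl F η)) : μ = ν := by
  classical
  let P : (I : Finset Idx) → Measure (∀ _e : I, Bool) := fun I => μ.map I.restrict
  have h1 : IsProjectiveLimit μ P := fun I => rfl
  have h2 : IsProjectiveLimit ν P := by
    intro I
    refine Measure.ext_of_singleton fun b => ?_
    let η : Idx → Bool := fun e => if he : e ∈ I then b ⟨e, he⟩ else false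
    have hpre : (I.restrict : (Idx → Bool) → ∀ _e : I, Bool) ⁻¹' {b} = ocyl I η := by
      ext ω
      simp only [Set.mem_preimage, Set.mem_singleton_iff, ocyl, Set.mem_ofPred_eq, funext_iff,
        Finset.restrict, Subtype.forall]
      refine forall₂_congr fun e he => ?_
      simp [η, he]
    simp only [P]
    rw [Measure.map_apply (Finset.measurable_restrict _) (measurableSet_singleton _),
      Measure.map_apply (Finset.measurable_restrict _) (measurableSet_singleton _), hpre, h]
  exact h1.unique h2

open scoped Classical in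
/-- Erase all observations outside `L`. -/
def mask (L : Set Idx) (X : Idx → Bool) : Idx → Bool := fun j => if j ∈ L then X j else false

theorem measurable_mask (L : Set Idx) : Measurable (mask L) := by
  classical
  refine measurable_pi_lambda _ fun j => ?_
  unfold mask
  split_ifs
  · exact measurable_pi_apply _
  · exact measurable_const

/-- The slots observed before time `t`. -/
def past (a : Cfg) (T : Idx → ℝ × ℝ) (t : ℝ) : Set Idx := {j | Ring a T j ∧ tim T j < t}

theorem yOf_mask (a : Cfg) (T : Idx → ℝ × ℝ) (X : Idx → Bool) {t t' : ℝ} (h : t' ≤ t) :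
    yOf a T (mask (past a T t) X) t' = yOf a T X t' := by
  classical
  refine yOf_congr (fun _ => Iff.rfl) fun j hj => ?_
  have : j ∈ past a T t := ⟨hj.1, hj.2.trans_le h⟩
  simp [mask, this]

/-- Conditional law of one observation given the past. -/
theorem obs_cond {a : Cfg} (ha : Good a) {T : Idx → ℝ × ℝ} (hT : ∀ j, 0 ≤ (T j).2) (i : Idx)
    {H : (Idx → Bool) → ℝ≥0∞} (hH : Measurable H)
    (hHm : ∀ X, H (mask (past a T (tim T i)) X) = H X) :
    ∫⁻ X, (if X i then H X else 0) ∂obsLaw a =
      ∫⁻ X, ENNReal.ofReal (pr a T X i) * H X ∂obsLaw a := by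
  classical
  set t := tim T i with ht
  set L := past a T t
  have hiL : i ∉ L := fun h => lt_irrefl _ h.2
  set ρ := obsLaw a
  have hp : Measurable fun X : Idx → Bool => ENNReal.ofReal (pr a T X i) :=
    (measurable_pr (fa := fun _ => a) (fT := fun _ => T) measurable_const measurable_const
      measurable_id i).ennreal_ofReal
  have hset : MeasurableSet {X : Idx → Bool | X i = true} :=
    (measurable_pi_apply (X := fun _ : Idx => Bool) i) (measurableSet_singleton true)
  have : IsFiniteMeasure (ρ.withDensity fun X => ENNReal.ofReal (pr a T X i)) := by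
    refine isFiniteMeasure_withDensity (ne_top_of_le_ne_top ENNReal.one_ne_top ?_)
    calc ∫⁻ X, ENNReal.ofReal (pr a T X i) ∂ρ ≤ ∫⁻ _X, (1 : ℝ≥0∞) ∂ρ := lintegral_mono fun X => by
          rw [← ENNReal.ofReal_one]
          exact ENNReal.ofReal_le_ofReal (by linarith [(pr_mem a T X i).2])
      _ = 1 := by simp
  have hid : (ρ.restrict {X | X i = true}).map (mask L) =
      (ρ.withDensity fun X => ENNReal.ofReal (pr a T X i)).map (mask L) := by
    refine finite_measure_ext fun F η => ?_
    rw [Measure.map_apply (measurable_mask L) (measurableSet_ocyl F η),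
      Measure.map_apply (measurable_mask L) (measurableSet_ocyl F η)]
    by_cases hout : ∀ j ∈ F, j ∉ L → η j = false
    swap
    · push Not at hout
      obtain ⟨j, hj, hjL, hne⟩ := hout
      have : mask L ⁻¹' ocyl F η = ∅ := by
        ext X
        simp only [Set.mem_preimage, ocyl, Set.mem_ofPred_eq, Set.mem_empty_iff_false, iff_false]
        exact fun h => hne (by simpa [mask, hjL] using (h j hj).symm)
      simp [this]
    set F' := F.filter (fun j => j ∈ L)
    have hpre : mask L ⁻¹' ocyl F η = ocyl F' η := by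
      ext X
      simp only [Set.mem_preimage, ocyl, Set.mem_ofPred_eq, F', Finset.mem_filter]
      constructor
      · rintro h j ⟨hj, hjL⟩; simpa [mask, hjL] using h j hj
      · intro h j hj
        by_cases hjL : j ∈ L
        · simpa [mask, hjL] using h j ⟨hj, hjL⟩
        · simpa [mask, hjL] using (hout j hj hjL).symm
    rw [hpre, Measure.restrict_apply (measurableSet_ocyl F' η),
      withDensity_apply _ (measurableSet_ocyl F' η)]
    -- finite subsets exhausting `L`
    obtain ⟨en, hen⟩ := exists_surjective_nat Idx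
    let Lk : ℕ → Finset Idx := fun k => (((Finset.range k).image en).filter (· ∈ L)) ∪ F'
    have hLk : ∀ k, ∀ j ∈ Lk k, j ∈ L := by
      intro k j hj
      rcases Finset.mem_union.1 hj with hj | hj
      · exact (Finset.mem_filter.1 hj).2
      · exact (Finset.mem_filter.1 hj).2
    have hLcov : ∀ j ∈ L, ∀ᶠ k in atTop, j ∈ Lk k := by
      intro j hj
      obtain ⟨m, hm⟩ := hen j
      filter_upwards [eventually_gt_atTop m] with k hk
      exact Finset.mem_union_left _ (Finset.mem_filter.2
        ⟨Finset.mem_image.2 ⟨m, Finset.mem_range.2 hk, hm⟩, hj⟩)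
    let q : ℕ → (Idx → Bool) → ℝ := fun k X => 1 / 4 + marg a (yFin (Lk k) X) i.1 / 2
    have hqloc : ∀ k X ξ, (∀ j ∈ Lk k, X j = ξ j) → q k X = q k ξ := fun k X ξ h => by
      simp only [q]
      congr 2
      refine congrArg (fun y => marg a y i.1) (funext fun e => Finset.sum_congr rfl fun j hj => ?_)
      rw [h j hj]
    let pat : Finset Idx → Idx → Bool := fun U j => decide (j ∈ U ∨ j = i)
    have hsplit : ∀ k, ρ (ocyl F' η ∩ {X | X i = true}) =
        ∫⁻ X in ocyl F' η, ENNReal.ofReal (q k X) ∂ρ := by
      intro k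
      set Us := (Lk k).powerset.filter (fun U => pat U ∈ ocyl F' η)
      have hiU : i ∉ Lk k := fun h => hiL (hLk k i h)
      have hdec : ocyl F' η = ⋃ U ∈ Us, ocyl (Lk k) (pat U) := by
        ext X
        simp only [Set.mem_iUnion, exists_prop]
        constructor
        · intro hX
          refine ⟨(Lk k).filter (fun j => X j = true), Finset.mem_filter.2
            ⟨Finset.mem_powerset.2 (Finset.filter_subset _ _), fun j hj => ?_⟩, fun j hj => ?_⟩
          · have hjk : j ∈ Lk k := Finset.mem_union_right _ hj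
            have hji : j ≠ i := fun h => hiU (h ▸ hjk)
            rw [← hX j hj]
            simp [pat, hjk, hji]
          · have hji : j ≠ i := fun h => hiU (h ▸ hj)
            simp [pat, hj, hji]
        · rintro ⟨U, hU, hX⟩ j hj
          rw [hX j (Finset.mem_union_right _ hj)]
          exact (Finset.mem_filter.1 hU).2 j hj
      have hdisj : (↑Us : Set (Finset Idx)).PairwiseDisjoint fun U => ocyl (Lk k) (pat U) := by
        intro U hU V hV hne
        refine Set.disjoint_left.2 fun X h1 h2 => hne ?_
        have hUs : U ⊆ Lk k := Finset.mem_powerset.1 (Finset.mem_filter.1 hU).1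
        have hVs : V ⊆ Lk k := Finset.mem_powerset.1 (Finset.mem_filter.1 hV).1
        ext j
        by_cases hj : j ∈ Lk k
        · have := (h1 j hj).symm.trans (h2 j hj)
          have hji : j ≠ i := fun h => hiU (h ▸ hj)
          simpa [pat, hji] using this
        · exact ⟨fun h => absurd (hUs h) hj, fun h => absurd (hVs h) hj⟩
      rw [hdec, Set.iUnion₂_inter, lintegral_biUnion_finset hdisj (fun U _ => measurableSet_ocyl _ _),
        measure_biUnion_finset (fun U hU V hV hne => ((hdisj hU hV hne).mono Set.inter_subset_left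
          Set.inter_subset_left)) fun U _ => (measurableSet_ocyl _ _).inter hset]
      refine Finset.sum_congr rfl fun U _ => ?_
      have hins : ocyl (Lk k) (pat U) ∩ {X | X i = true} = ocyl (insert i (Lk k)) (pat U) := by
        ext X; simp [ocyl, pat, and_comm]
      rw [hins, bayes_finite ha (Lk k) hiU (by simp [pat]),
        setLIntegral_congr_fun (measurableSet_ocyl _ _) fun X hX => by
          rw [hqloc k X (pat U) hX], setLIntegral_const]
    have hconv : ∀ X, Tendsto (fun k => ENNReal.ofReal (q k X)) atTop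
        (𝓝 (ENNReal.ofReal (pr a T X i))) := by
      intro X
      refine (ENNReal.continuous_ofReal.tendsto _).comp ?_
      simp only [q, pr]
      refine ((Tendsto.div_const ?_ 2)).const_add _
      set N := ⌊t⌋₊ + 1
      have hLN : ∀ j ∈ L, j.2 < N := by
        intro j hj
        have : (j.2 : ℝ) ≤ t := by have := hT j; have := hj.2; unfold tim at this; linarith
        exact Nat.lt_succ_of_le (Nat.le_floor this)
      have hy : ∀ k e, yFin (Lk k) X e = ∑ n ∈ Finset.range N,
          if (e, n) ∈ Lk k then (if X (e, n) then kap else -kap) else 0 := by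
        intro k e
        rw [yFin, ← Finset.sum_filter, ← Finset.sum_filter]
        refine (Finset.sum_nbij (fun n => (e, n)) ?_ ?_ ?_ ?_).symm
        · intro n hn; simp only [Finset.mem_filter, Finset.mem_range] at hn; simp [hn.2]
        · intro n _ m _ h; exact (Prod.ext_iff.1 h).2
        · intro j hj
          simp only [Finset.coe_filter, Set.mem_ofPred_eq] at hj
          refine ⟨j.2, ?_, Prod.ext hj.2.symm rfl⟩
          have hje : (e, j.2) = j := Prod.ext hj.2.symm rfl
          simp only [Finset.coe_filter, Finset.mem_range, Set.mem_ofPred_eq, hje]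
          exact ⟨hLN j (hLk k j hj.1), hj.1⟩
        · intro n _; rfl
      have hB : ∀ k e, |yFin (Lk k) X e| ≤ N * kap := by
        intro k e
        rw [hy k e]
        refine (Finset.abs_sum_le_sum_abs _ _).trans ((Finset.sum_le_sum (g := fun _ => kap)
          fun n _ => ?_).trans (by simp))
        split_ifs <;> simp [abs_of_nonneg kap_nonneg, kap_nonneg]
      have hlim : ∀ e, Tendsto (fun k => yFin (Lk k) X e) atTop (𝓝 (yOf a T X t e)) := by
        intro e
        simp only [hy]
        unfold yOf
        refine tendsto_finsetSum _ fun n _ => ?_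
        by_cases hn : (e, n) ∈ L
        · rw [if_pos (show Ring a T (e, n) ∧ tim T (e, n) < t from hn)]
          exact tendsto_const_nhds.congr' ((hLcov _ hn).mono fun k hk => by simp [hk])
        · rw [if_neg (show ¬(Ring a T (e, n) ∧ tim T (e, n) < t) from hn)]
          exact tendsto_const_nhds.congr fun k => by simp [show (e, n) ∉ Lk k from fun h => hn (hLk k _ h)]
      have hyb := abs_yOf_le a T X t
      rw [marg_eq ha hyb]
      simp only [marg_eq ha (hB _)]
      exact Pe_tendsto (Fk := fun _ => eset a) (fun _ => subset_rfl)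
        (fun e he => Filter.Eventually.of_forall fun _ => he) hyb hB hlim i.1 i.1
    have hmeas : ∀ k, Measurable fun X : Idx → Bool => ENNReal.ofReal (q k X) := by
      intro k
      have h1 : Measurable fun X : Idx → Bool => yFin (Lk k) X :=
        measurable_pi_lambda _ fun e => Finset.measurable_sum _ fun j _ => by
          by_cases h : j.1 = e
          · simp only [h, if_true]
            exact (measurable_from_top (f := fun b : Bool => if b then kap else -kap)).comp
              (measurable_pi_apply j)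
          · simp only [h, if_false]; exact measurable_const
      exact (measurable_const.add (((measurable_marg i.1).comp
        (measurable_const.prodMk h1)).div_const 2)).ennreal_ofReal
    have hlimI := tendsto_lintegral_of_dominated_convergence (μ := ρ.restrict (ocyl F' η))
      (fun _ => (1 : ℝ≥0∞)) hmeas (fun k => ae_of_all _ fun X => by
        rw [← ENNReal.ofReal_one]
        refine ENNReal.ofReal_le_ofReal ?_
        have := (marg_mem a (yFin (Lk k) X) i.1).2
        simp only [q]; linarith) (by simp) (ae_of_all _ hconv)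
    exact tendsto_nhds_unique (tendsto_const_nhds.congr hsplit) hlimI
  have h1 : ∫⁻ X, H X ∂(ρ.restrict {X | X i = true}).map (mask L) =
      ∫⁻ X, H X ∂(ρ.withDensity fun X => ENNReal.ofReal (pr a T X i)).map (mask L) := by rw [hid]
  rw [lintegral_map hH (measurable_mask L), lintegral_map hH (measurable_mask L)] at h1
  simp only [hHm] at h1
  rw [lintegral_withDensity_eq_lintegral_mul _ hp hH] at h1
  rw [← lintegral_indicator hset] at h1
  refine Eq.trans ?_ h1
  refine lintegral_congr fun X => ?_
  by_cases hX : X i <;> simp [hX]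

/-- The threshold as a function of the observations and the auxiliary uniform. -/
def uMap (a : Cfg) (T : Idx → ℝ × ℝ) (X : Idx → Bool) (i : Idx) (w : ℝ) : ℝ :=
  open scoped Classical in
  if Ring a T i then (if X i then w * pr a T X i else pr a T X i + w * (1 - pr a T X i)) else w

theorem uOf_eq (a : Cfg) (ω : Omg) (i : Idx) :
    uOf a ω i = uMap a (tq ω) (Xt ω) i (ω.2 i).2.2 := rfl

theorem split_unif {p : ℝ} (h0 : 0 < p) (h1 : p < 1) {B : Set ℝ} (hB : MeasurableSet B) :
    ENNReal.ofReal p * unif ((fun w => w * p) ⁻¹' B) +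
      ENNReal.ofReal (1 - p) * unif ((fun w => p + w * (1 - p)) ⁻¹' B) = unif B := by
  have h1' : 0 < 1 - p := by linarith
  have e1 : ENNReal.ofReal p * unif ((fun w => w * p) ⁻¹' B) = volume (B ∩ Set.Icc 0 p) := by
    rw [unif, Measure.restrict_apply (hB.preimage (by fun_prop))]
    have : (fun w => w * p) ⁻¹' B ∩ Set.Icc (0 : ℝ) 1 = (fun w => w * p) ⁻¹' (B ∩ Set.Icc 0 p) := by
      ext w
      simp only [Set.mem_inter_iff, Set.mem_preimage, Set.mem_Icc]
      refine and_congr_right fun _ => ⟨fun ⟨a, b⟩ => ⟨mul_nonneg a h0.le, ?_⟩, fun ⟨a, b⟩ => ⟨?_, ?_⟩⟩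
      · exact mul_le_of_le_one_left h0.le b
      · exact nonneg_of_mul_nonneg_left a h0
      · exact le_of_mul_le_mul_right (by linarith) h0
    rw [this, Real.volume_preimage_mul_right h0.ne', ← mul_assoc, ← ENNReal.ofReal_mul h0.le,
      abs_of_pos (inv_pos.2 h0), mul_inv_cancel₀ h0.ne', ENNReal.ofReal_one, one_mul]
  have e2 : ENNReal.ofReal (1 - p) * unif ((fun w => p + w * (1 - p)) ⁻¹' B) =
      volume (B ∩ Set.Icc p 1) := by
    rw [unif, Measure.restrict_apply (hB.preimage (by fun_prop))]
    have : (fun w => p + w * (1 - p)) ⁻¹' B ∩ Set.Icc (0 : ℝ) 1 =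
        (fun w => w * (1 - p)) ⁻¹' ((fun z => p + z) ⁻¹' (B ∩ Set.Icc p 1)) := by
      ext w
      simp only [Set.mem_inter_iff, Set.mem_preimage, Set.mem_Icc]
      refine and_congr_right fun _ => ⟨fun ⟨a, b⟩ => ⟨?_, ?_⟩, fun ⟨a, b⟩ => ⟨?_, ?_⟩⟩
      · nlinarith
      · nlinarith
      · exact nonneg_of_mul_nonneg_left (by linarith) h1'
      · exact le_of_mul_le_mul_right (by linarith) h1'
    rw [this, Real.volume_preimage_mul_right h1'.ne', measure_preimage_add, ← mul_assoc,
      ← ENNReal.ofReal_mul h1'.le, abs_of_pos (inv_pos.2 h1'), mul_inv_cancel₀ h1'.ne',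
      ENNReal.ofReal_one, one_mul]
  rw [e1, e2, unif, Measure.restrict_apply hB,
    ← measure_union_add_inter (B ∩ Set.Icc 0 p) (hB.inter measurableSet_Icc),
    ← Set.inter_union_distrib_left, Set.Icc_union_Icc_eq_Icc h0.le h1.le]
  have : volume (B ∩ Set.Icc 0 p ∩ (B ∩ Set.Icc p 1)) = 0 := by
    refine measure_mono_null (t := ({p} : Set ℝ)) ?_ Real.volume_singleton
    rintro x ⟨⟨-, hx⟩, ⟨-, hx'⟩⟩
    exact le_antisymm hx.2 hx'.1
  rw [this, add_zero]

/-- Given the observations, the probability that the threshold lies in `B`. -/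
def gFun (a : Cfg) (T : Idx → ℝ × ℝ) (B : Idx → Set ℝ) (i : Idx) (X : Idx → Bool) : ℝ≥0∞ :=
  unif (uMap a T X i ⁻¹' B i)

theorem measurable_uMap (a : Cfg) (T : Idx → ℝ × ℝ) (i : Idx) :
    Measurable fun p : (Idx → Bool) × ℝ => uMap a T p.1 i p.2 := by
  classical
  have hp : Measurable fun p : (Idx → Bool) × ℝ => pr a T p.1 i :=
    measurable_pr (fa := fun _ => a) (fT := fun _ => T) measurable_const measurable_const
      measurable_fst i
  unfold uMap
  by_cases hr : Ring a T i
  · simp only [hr, if_true]
    exact Measurable.ite ((measurable_pi_apply (X := fun _ : Idx => Bool) i).comp measurable_fst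
      (measurableSet_singleton true)) (measurable_snd.mul hp)
      (hp.add (measurable_snd.mul (measurable_const.sub hp)))
  · simp only [hr, if_false]; exact measurable_snd

theorem measurable_gFun {a : Cfg} {T : Idx → ℝ × ℝ} {B : Idx → Set ℝ}
    (hB : ∀ i, MeasurableSet (B i)) (i : Idx) : Measurable (gFun a T B i) :=
  measurable_measure_prodMk_left (measurable_uMap a T i (hB i))

/-- The thresholds are independent and uniform, given admissible times. -/
theorem thresholds_law {a : Cfg} (ha : Good a) {T : Idx → ℝ × ℝ} (hT : ∀ j, 0 ≤ (T j).2)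
    (hinj : ∀ i j, i ≠ j → tim T i ≠ tim T j) {B : Idx → Set ℝ} (hB : ∀ i, MeasurableSet (B i))
    (F : Finset Idx) :
    ∫⁻ X, ∏ i ∈ F, gFun a T B i X ∂obsLaw a = ∏ i ∈ F, unif (B i) := by
  classical
  induction F using Finset.strongInduction with
  | H F ih =>
    rcases F.eq_empty_or_nonempty with rfl | hne
    · simp
    by_cases hn : ∃ i ∈ F, ¬ Ring a T i
    · obtain ⟨i, hi, hr⟩ := hn
      have hg : ∀ X, gFun a T B i X = unif (B i) := fun X => by
        have : uMap a T X i = id := funext fun w => if_neg hr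
        simp [gFun, this]
      rw [lintegral_congr fun X => (Finset.mul_prod_erase F (fun j => gFun a T B j X) hi).symm]
      simp only [hg]
      rw [lintegral_const_mul _ (Finset.measurable_prod _ fun j _ => measurable_gFun hB j),
        ih _ (Finset.erase_ssubset hi), Finset.mul_prod_erase F (fun j => unif (B j)) hi]
    push Not at hn
    obtain ⟨i, hi, hmax⟩ := F.exists_max_image (tim T) hne
    set t := tim T i with ht
    set H : (Idx → Bool) → ℝ≥0∞ := fun X => ∏ j ∈ F.erase i, gFun a T B j X
    set p : (Idx → Bool) → ℝ := fun X => pr a T X i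
    set A1 : (Idx → Bool) → ℝ≥0∞ := fun X => unif ((fun w => w * p X) ⁻¹' B i)
    set A0 : (Idx → Bool) → ℝ≥0∞ := fun X => unif ((fun w => p X + w * (1 - p X)) ⁻¹' B i)
    have hHm : Measurable H := Finset.measurable_prod _ fun j _ => measurable_gFun hB j
    have hpm : Measurable p :=
      measurable_pr (fa := fun _ => a) (fT := fun _ => T) measurable_const measurable_const
        measurable_id i
    have hA1m : Measurable A1 := measurable_measure_prodMk_left
      (((measurable_snd.mul (hpm.comp measurable_fst)) :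
        Measurable fun q : (Idx → Bool) × ℝ => q.2 * p q.1) (hB i))
    have hA0m : Measurable A0 := measurable_measure_prodMk_left
      ((((hpm.comp measurable_fst).add (measurable_snd.mul (measurable_const.sub
        (hpm.comp measurable_fst)))) :
        Measurable fun q : (Idx → Bool) × ℝ => p q.1 + q.2 * (1 - p q.1)) (hB i))
    have hpM : ∀ X, p (mask (past a T t) X) = p X := fun X => by
      show 1 / 4 + marg a (yOf a T (mask (past a T t) X) t) i.1 / 2 = _
      rw [yOf_mask a T X (le_refl t)]
      rfl
    have hHM : ∀ X, H (mask (past a T t) X) = H X := fun X => by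
      refine Finset.prod_congr rfl fun j hj => ?_
      obtain ⟨hji, hjF⟩ := Finset.mem_erase.1 hj
      have hlt : tim T j < t := lt_of_le_of_ne (hmax j hjF) (hinj j i hji)
      have hj' : j ∈ past a T t := ⟨hn j hjF, hlt⟩
      simp only [gFun]
      congr 1
      congr 1
      funext w
      have hXj : mask (past a T t) X j = X j := by simp [mask, hj']
      have hpj : pr a T (mask (past a T t) X) j = pr a T X j := by
        unfold pr; rw [yOf_mask a T X hlt.le]
      unfold uMap
      rw [hXj, hpj]
    have hg : ∀ X, gFun a T B i X = if X i then A1 X else A0 X := fun X => by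
      have hu : uMap a T X i = if X i then (fun w => w * p X) else fun w => p X + w * (1 - p X) := by
        funext w
        by_cases hX : X i <;> simp [uMap, hn i hi, hX, p]
      by_cases hX : X i <;> simp [gFun, hu, hX, A1, A0]
    have hc1 := obs_cond ha hT i (hA1m.mul hHm) (fun X => by
      simp only [Pi.mul_apply, ← ht, hHM, A1, hpM])
    have hc0 := obs_cond ha hT i (hA0m.mul hHm) (fun X => by
      simp only [Pi.mul_apply, ← ht, hHM, A0, hpM])
    have hsplit : ∀ X, ∏ j ∈ F, gFun a T B j X =
        (if X i then A1 X * H X else 0) + (if X i then 0 else A0 X * H X) := fun X => by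
      rw [← Finset.mul_prod_erase F (fun j => gFun a T B j X) hi, hg]
      split_ifs <;> simp [H]
    have hsetm : MeasurableSet {X : Idx → Bool | X i = true} :=
      (measurable_pi_apply (X := fun _ : Idx => Bool) i) (measurableSet_singleton true)
    have hfin0 : ∫⁻ X, (if X i then A0 X * H X else 0) ∂obsLaw a ≠ ⊤ := by
      refine ne_top_of_le_ne_top ENNReal.one_ne_top ?_
      calc _ ≤ ∫⁻ _X, (1 : ℝ≥0∞) ∂obsLaw a := lintegral_mono fun X => by
            split_ifs
            · exact mul_le_one' prob_le_one (Finset.prod_le_one' fun j _ => prob_le_one)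
            · simp
        _ = 1 := by simp
    have hkey : ∫⁻ X, (if X i then 0 else A0 X * H X) ∂obsLaw a =
        ∫⁻ X, ENNReal.ofReal (1 - p X) * (A0 X * H X) ∂obsLaw a := by
      have htot : ∫⁻ X, (if X i then A0 X * H X else 0) ∂obsLaw a +
            ∫⁻ X, (if X i then 0 else A0 X * H X) ∂obsLaw a =
          ∫⁻ X, ENNReal.ofReal (p X) * (A0 X * H X) ∂obsLaw a +
            ∫⁻ X, ENNReal.ofReal (1 - p X) * (A0 X * H X) ∂obsLaw a := by
        rw [← lintegral_add_left (f := fun X : Idx → Bool => if X i = true then A0 X * H X else 0)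
            (Measurable.ite hsetm (hA0m.mul hHm) measurable_const),
          ← lintegral_add_left (f := fun X => ENNReal.ofReal (p X) * (A0 X * H X))
            (hpm.ennreal_ofReal.mul (hA0m.mul hHm))]
        refine lintegral_congr fun X => ?_
        obtain ⟨h0, h1⟩ := pr_mem a T X i
        have h0' : 0 ≤ p X := by simp only [p]; linarith
        have h1' : 0 ≤ 1 - p X := by simp only [p]; linarith
        rw [← add_mul, ← ENNReal.ofReal_add h0' h1', add_sub_cancel, ENNReal.ofReal_one, one_mul]
        split_ifs <;> simp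
      rw [show (∫⁻ X, (if X i then A0 X * H X else 0) ∂obsLaw a) =
        ∫⁻ X, ENNReal.ofReal (p X) * (A0 X * H X) ∂obsLaw a from hc0] at htot hfin0
      exact (ENNReal.add_right_inj hfin0).1 htot
    rw [lintegral_congr hsplit,
      lintegral_add_left (f := fun X : Idx → Bool => if X i = true then A1 X * H X else 0)
        (Measurable.ite hsetm (hA1m.mul hHm) measurable_const), hkey,
      show (∫⁻ X, (if X i then A1 X * H X else 0) ∂obsLaw a) =
        ∫⁻ X, ENNReal.ofReal (p X) * (A1 X * H X) ∂obsLaw a from hc1,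
      ← lintegral_add_left (f := fun X => ENNReal.ofReal (p X) * (A1 X * H X))
        (hpm.ennreal_ofReal.mul (hA1m.mul hHm))]
    have : ∀ X, ENNReal.ofReal (p X) * (A1 X * H X) + ENNReal.ofReal (1 - p X) * (A0 X * H X) =
        unif (B i) * H X := fun X => by
      obtain ⟨h0, h1⟩ := pr_mem a T X i
      rw [← mul_assoc, ← mul_assoc, ← add_mul,
        split_unif (by simp only [p]; linarith) (by simp only [p]; linarith) (hB i)]
    rw [lintegral_congr this, lintegral_const_mul _ hHm, ih _ (Finset.erase_ssubset hi),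
      Finset.mul_prod_erase F (fun j => unif (B j)) hi]

theorem unif_singleton (c : ℝ) : unif {c} = 0 := by
  rw [unif, Measure.restrict_apply (measurableSet_singleton c)]
  exact measure_mono_null Set.inter_subset_left Real.volume_singleton

/-- Almost all times are distinct and nonnegative. -/
theorem times_ae : ∀ᵐ T ∂Measure.infinitePi (fun _ : Idx => sq2),
    (∀ j, 0 ≤ (T j).2) ∧ ∀ i j, i ≠ j → tim T i ≠ tim T j := by
  classical
  rw [Filter.eventually_and, ae_all_iff, ae_all_iff]
  refine ⟨fun j => ?_, fun i => ae_all_iff.2 fun j => ?_⟩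
  · have h := measurePreserving_eval_infinitePi (fun _ : Idx => sq2) j
    have hs : ∀ᵐ z ∂sq2, (0 : ℝ) ≤ z.2 := by
      have h2 : (sq2.map Prod.snd) = unif := by simp [sq2]
      have : ∀ᵐ w ∂(sq2.map Prod.snd), (0 : ℝ) ≤ w := by
        rw [h2, unif]
        exact (ae_restrict_iff' measurableSet_Icc).2 (ae_of_all _ fun w hw => hw.1)
      exact ae_of_ae_map measurable_snd.aemeasurable this
    exact h.quasiMeasurePreserving.ae hs
  · by_cases hij : i = j
    · exact ae_of_all _ fun T h => absurd hij h
    have hm : MeasurableSet {T : Idx → ℝ × ℝ | tim T i = tim T j} :=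
      measurableSet_eq_fun (measurable_tim measurable_id i) (measurable_tim measurable_id j)
    have hz : ∫⁻ T, {T : Idx → ℝ × ℝ | tim T i = tim T j}.indicator 1 T
        ∂Measure.infinitePi (fun _ : Idx => sq2) = 0 := by
      rw [lintegral_resample sq2 i (measurable_one.indicator hm)]
      refine (lintegral_congr fun T => ?_).trans lintegral_zero
      have hmu : Measurable fun q : ℝ × ℝ => Function.update T i q := measurable_update T
      have he : ∀ q : ℝ × ℝ, {T : Idx → ℝ × ℝ | tim T i = tim T j}.indicator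
          (1 : (Idx → ℝ × ℝ) → ℝ≥0∞) (Function.update T i q) =
          (Set.univ ×ˢ {(tim T j - i.2 : ℝ)}).indicator (1 : (ℝ × ℝ) → ℝ≥0∞) q := by
        intro q
        have : (Function.update T i q ∈ {T : Idx → ℝ × ℝ | tim T i = tim T j}) ↔
            q ∈ Set.univ ×ˢ {(tim T j - i.2 : ℝ)} := by
          simp only [Set.mem_ofPred_eq, tim, Function.update_self,
            Function.update_of_ne (Ne.symm hij), Set.mem_prod, Set.mem_univ, true_and,
            Set.mem_singleton_iff]
          constructor <;> intro h <;> linarith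
        simp only [Set.indicator_apply, this, Pi.one_apply]
      rw [lintegral_congr he, lintegral_indicator_one (MeasurableSet.univ.prod
        (measurableSet_singleton _)), sq2, Measure.prod_prod, unif_singleton, mul_zero]
    rw [lintegral_indicator_one hm] at hz
    have hnot : ∀ᵐ T ∂Measure.infinitePi (fun _ : Idx => sq2), tim T i ≠ tim T j := by
      rw [ae_iff]; simpa using hz
    exact hnot.mono fun T h _ => h

theorem prob_thresholds (a : Cfg) (T : Idx → ℝ × ℝ) {B : Idx → Set ℝ}
    (hB : ∀ i, MeasurableSet (B i)) (F : Finset Idx) :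
    ((fusf a).prod (Measure.infinitePi fun _ : Idx => sq2))
        {z | ∀ i ∈ F, uMap a T (Xf z.1 fun j => (z.2 j).1) i (z.2 i).2 ∈ B i} =
      ∫⁻ X, ∏ i ∈ F, gFun a T B i X ∂obsLaw a := by
  classical
  set ν := Measure.infinitePi (fun _ : Idx => unif)
  let spl : (Idx → ℝ) × (Idx → ℝ) → Idx → ℝ × ℝ := fun p i => (p.1 i, p.2 i)
  have hspl : Measurable spl := by fun_prop
  have hν : (ν.prod ν).map spl = Measure.infinitePi (fun _ : Idx => sq2) := infinitePi_split unif unif
  have hX : Measurable fun z : Cfg × (Idx → ℝ × ℝ) => Xf z.1 fun j => (z.2 j).1 :=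
    measurable_Xf.comp (by fun_prop : Measurable fun z : Cfg × (Idx → ℝ × ℝ) =>
      (z.1, fun j => (z.2 j).1))
  have hSm : MeasurableSet
      {z : Cfg × (Idx → ℝ × ℝ) | ∀ i ∈ F, uMap a T (Xf z.1 fun j => (z.2 j).1) i (z.2 i).2 ∈ B i} := by
    have : {z : Cfg × (Idx → ℝ × ℝ) | ∀ i ∈ F,
        uMap a T (Xf z.1 fun j => (z.2 j).1) i (z.2 i).2 ∈ B i} =
        ⋂ i ∈ F, (fun z : Cfg × (Idx → ℝ × ℝ) =>
          uMap a T (Xf z.1 fun j => (z.2 j).1) i (z.2 i).2) ⁻¹' B i := by ext z; simp
    rw [this]
    exact MeasurableSet.biInter F.countable_toSet fun i _ =>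
      ((measurable_uMap a T i).comp (hX.prodMk (by fun_prop))) (hB i)
  rw [Measure.prod_apply hSm]
  have hinner : ∀ σ : Cfg, Measure.infinitePi (fun _ : Idx => sq2) (Prod.mk σ ⁻¹'
      {z | ∀ i ∈ F, uMap a T (Xf z.1 fun j => (z.2 j).1) i (z.2 i).2 ∈ B i}) =
      ∫⁻ v, ∏ i ∈ F, gFun a T B i (Xf σ v) ∂ν := by
    intro σ
    rw [← hν, Measure.map_apply hspl (measurable_prodMk_left hSm),
      Measure.prod_apply (hspl (measurable_prodMk_left hSm))]
    refine lintegral_congr fun v => ?_
    have : Prod.mk v ⁻¹' (spl ⁻¹' (Prod.mk σ ⁻¹'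
        {z | ∀ i ∈ F, uMap a T (Xf z.1 fun j => (z.2 j).1) i (z.2 i).2 ∈ B i})) =
        (F : Set Idx).pi fun i => uMap a T (Xf σ v) i ⁻¹' B i := by
      ext w; simp [spl, Set.mem_pi]
    rw [this, Measure.infinitePi_pi]
    · rfl
    · exact fun i _ => ((measurable_uMap a T i).comp (measurable_prodMk_left (x := Xf σ v))) (hB i)
  simp only [hinner]
  unfold obsLaw
  have hm : Measurable fun X => ∏ i ∈ F, gFun a T B i X :=
    Finset.measurable_prod _ fun i _ => measurable_gFun hB i
  rw [lintegral_map hm measurable_Xf]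
  exact (lintegral_prod _ (hm.comp measurable_Xf).aemeasurable).symm

/-- The target law of the seeds. -/
def seedLaw (a : Cfg) : Measure Seeds :=
  open scoped Classical in
  Measure.infinitePi fun i : Idx => if i.1 ∈ eset a then seed3 else Measure.dirac (2, 0, 0)

instance (a : Cfg) (i : Idx) [Decidable (i.1 ∈ eset a)] :
    IsProbabilityMeasure (if i.1 ∈ eset a then seed3 else Measure.dirac ((2, 0, 0) : ℝ × ℝ × ℝ)) := by
  split_ifs <;> infer_instance

theorem seed3_apply {t : Set (ℝ × ℝ × ℝ)} (ht : MeasurableSet t) :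
    seed3 t = ∫⁻ z, unif {u | (z.1, z.2, u) ∈ t} ∂sq2 := by
  have h := (measurePreserving_prodAssoc unif unif unif).map_eq
  unfold seed3 sq2
  rw [← h, Measure.map_apply (MeasurableEquiv.measurable _) ht,
    Measure.prod_apply (MeasurableEquiv.measurable _ ht)]
  rfl

/-- The seeds recovered from the joint space have the product law. -/
theorem seedsOf_law {a : Cfg} (ha : Good a) : (jlaw a).map (seedsOf a) = seedLaw a := by
  classical
  refine Measure.eq_infinitePi _ fun s t ht => ?_
  have hm : Measurable (seedsOf a) := measurable_seedsOf.comp measurable_prodMk_left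
  rw [Measure.map_apply hm (MeasurableSet.pi s.countable_toSet fun i _ => ht i)]
  set s1 := s.filter (fun i : Idx => i.1 ∈ eset a)
  set s0 := s.filter (fun i : Idx => i.1 ∉ eset a)
  by_cases h0 : ∀ i ∈ s0, ((2, 0, 0) : ℝ × ℝ × ℝ) ∈ t i
  swap
  · push Not at h0
    obtain ⟨i, hi, hit⟩ := h0
    obtain ⟨his, hie⟩ := Finset.mem_filter.1 hi
    rw [Finset.prod_eq_zero his (by
      rw [if_neg hie, Measure.dirac_apply' _ (ht i), Set.indicator_of_notMem hit])]
    refine measure_mono_null (t := (∅ : Set Omg)) (fun ω hω => ?_) measure_empty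
    exact hit (by simpa [seedsOf, hie] using hω i his)
  have hrhs : ∏ i ∈ s, (if i.1 ∈ eset a then seed3 else Measure.dirac (2, 0, 0)) (t i) =
      ∏ i ∈ s1, seed3 (t i) := by
    rw [← Finset.prod_filter_mul_prod_filter_not s (fun i : Idx => i.1 ∈ eset a)]
    rw [Finset.prod_eq_one (s := s.filter fun i : Idx => ¬ i.1 ∈ eset a) fun i hi => by
      rw [if_neg (Finset.mem_filter.1 hi).2, Measure.dirac_apply_of_mem (h0 i hi)], mul_one]
    exact Finset.prod_congr rfl fun i hi => by rw [if_pos (Finset.mem_filter.1 hi).2]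
  rw [hrhs]
  set μT := Measure.infinitePi (fun _ : Idx => sq2)
  let spl : (Idx → ℝ × ℝ) × (Idx → ℝ × ℝ) → Noise := fun p i => (p.1 i, p.2 i)
  have hspl : Measurable spl := by fun_prop
  have hj : jlaw a = ((fusf a).prod (μT.prod μT)).map (Prod.map id spl) := by
    rw [← Measure.map_prod_map _ _ measurable_id hspl, Measure.map_id]
    unfold jlaw qlaw
    rw [infinitePi_split sq2 sq2]
  let G : Cfg × (Idx → ℝ × ℝ) × (Idx → ℝ × ℝ) → ℝ≥0∞ :=
    Set.indicator {z | ∀ i ∈ s1, ((z.2.1 i).1, (z.2.1 i).2,
      uMap a z.2.1 (Xf z.1 fun j => (z.2.2 j).1) i (z.2.2 i).2) ∈ t i} 1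
  have hpre : Prod.map id spl ⁻¹' (seedsOf a ⁻¹' (s : Set Idx).pi t) =
      {z | ∀ i ∈ s1, ((z.2.1 i).1, (z.2.1 i).2,
        uMap a z.2.1 (Xf z.1 fun j => (z.2.2 j).1) i (z.2.2 i).2) ∈ t i} := by
    ext z
    simp only [Set.mem_preimage, Set.mem_pi, Finset.mem_coe, Set.mem_ofPred_eq, s1,
      Finset.mem_filter]
    constructor
    · rintro h i ⟨hi, he⟩
      have := h i hi
      simp only [seedsOf, he, if_true, uOf_eq] at this
      exact this
    · intro h i hi
      by_cases he : i.1 ∈ eset a
      · simp only [seedsOf, he, if_true, uOf_eq]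
        exact h i ⟨hi, he⟩
      · simp only [seedsOf, he, if_false]
        exact h0 i (Finset.mem_filter.2 ⟨hi, he⟩)
  have hSm : MeasurableSet (seedsOf a ⁻¹' (s : Set Idx).pi t) :=
    hm (MeasurableSet.pi s.countable_toSet fun i _ => ht i)
  have hGm : MeasurableSet (Prod.map id spl ⁻¹' (seedsOf a ⁻¹' (s : Set Idx).pi t)) :=
    (measurable_id.prodMap hspl) hSm
  rw [hj, Measure.map_apply (measurable_id.prodMap hspl) hSm]
  -- integrate first over the times
  rw [← lintegral_indicator_one hGm, lintegral_prod _ (measurable_one.indicator hGm).aemeasurable]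
  have hsw : ∀ σ : Cfg, ∫⁻ p, (Prod.map id spl ⁻¹' (seedsOf a ⁻¹' (s : Set Idx).pi t)).indicator
        (1 : Cfg × (Idx → ℝ × ℝ) × (Idx → ℝ × ℝ) → ℝ≥0∞) (σ, p) ∂μT.prod μT =
      ∫⁻ T, ∫⁻ q, (Prod.map id spl ⁻¹' (seedsOf a ⁻¹' (s : Set Idx).pi t)).indicator
        (1 : Cfg × (Idx → ℝ × ℝ) × (Idx → ℝ × ℝ) → ℝ≥0∞) (σ, T, q) ∂μT ∂μT := fun σ =>
    lintegral_prod (μ := μT) (ν := μT) _
      ((measurable_one.indicator hGm).comp measurable_prodMk_left).aemeasurable
  simp only [hsw]
  rw [lintegral_lintegral_swap]
  swap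
  · refine (Measurable.lintegral_prod_right' (f := fun z : (Cfg × (Idx → ℝ × ℝ)) × (Idx → ℝ × ℝ) =>
      (Prod.map id spl ⁻¹' (seedsOf a ⁻¹' (s : Set Idx).pi t)).indicator (1 : Cfg × (Idx → ℝ × ℝ) × (Idx → ℝ × ℝ) → ℝ≥0∞)
        (z.1.1, z.1.2, z.2)) ?_).aemeasurable
    exact (measurable_one.indicator hGm).comp ((measurable_fst.comp measurable_fst).prodMk
      ((measurable_snd.comp measurable_fst).prodMk measurable_snd))
  have hT : ∀ᵐ T ∂μT, ∫⁻ σ, ∫⁻ q, (Prod.map id spl ⁻¹' (seedsOf a ⁻¹' (s : Set Idx).pi t)).indicator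
      (1 : Cfg × (Idx → ℝ × ℝ) × (Idx → ℝ × ℝ) → ℝ≥0∞) (σ, T, q) ∂μT ∂fusf a =
      ∏ i ∈ s1, unif {u | ((T i).1, (T i).2, u) ∈ t i} := by
    filter_upwards [times_ae] with T hT
    let B : Idx → Set ℝ := fun i => {u | ((T i).1, (T i).2, u) ∈ t i}
    have hB : ∀ i, MeasurableSet (B i) := fun i =>
      (by fun_prop : Measurable fun u : ℝ => (((T i).1, (T i).2, u) : ℝ × ℝ × ℝ)) (ht i)
    rw [← thresholds_law ha hT.1 hT.2 hB s1, ← prob_thresholds a T hB s1, hpre]
    rw [hpre] at hGm
    have hsec : MeasurableSet {z : Cfg × (Idx → ℝ × ℝ) | ∀ i ∈ s1,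
        uMap a T (Xf z.1 fun j => (z.2 j).1) i (z.2 i).2 ∈ B i} :=
      (by fun_prop : Measurable fun z : Cfg × (Idx → ℝ × ℝ) => (z.1, T, z.2)) hGm
    rw [← lintegral_indicator_one hsec, lintegral_prod _ (measurable_one.indicator hsec).aemeasurable]
    rfl
  rw [lintegral_congr_ae hT]
  have hgm : ∀ i : Idx, Measurable fun z : ℝ × ℝ => unif {u | (z.1, z.2, u) ∈ t i} := fun i =>
    measurable_measure_prodMk_left
      ((by fun_prop : Measurable fun p : (ℝ × ℝ) × ℝ => ((p.1.1, p.1.2, p.2) : ℝ × ℝ × ℝ)) (ht i))
  rw [lintegral_prod_eq_prod_lintegral_of_indepFun s1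
    (fun (i : Idx) (T : Idx → ℝ × ℝ) => unif {u | ((T i).1, (T i).2, u) ∈ t i})
    (iIndepFun_infinitePi (P := fun _ : Idx => sq2)
      (X := fun (i : Idx) (z : ℝ × ℝ) => unif {u | (z.1, z.2, u) ∈ t i}) hgm)
    (fun i => (hgm i).comp (measurable_pi_apply i))]
  refine Finset.prod_congr rfl fun i _ => ?_
  rw [seed3_apply (ht i), ← (measurePreserving_eval_infinitePi (fun _ : Idx => sq2) i).lintegral_comp (hgm i)]

end

end Vale.Agent.P143
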