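import Vale.Agent.P143.Bridge

/-!
The observation process, its fixed-point iteration, and elementary properties.
-/

namespace Vale.Agent.P143

open Finset Filter Topology MeasureTheory ProbabilityTheory

noncomputable section

/-- Index of an observation slot: an edge and a time interval. -/
abbrev Idx := Sym2 ℕ × ℕ

/-- Seeds: activation, time offset, threshold. -/
abbrev Seeds := Idx → ℝ × ℝ × ℝ

/-- Activation and time, observation noise and auxiliary uniform. -/
abbrev Noise := Idx → (ℝ × ℝ) × (ℝ × ℝ)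

/-- The joint space of a forest and its observations. -/
abbrev Omg := Cfg × Noise

/-- The neighbours of a vertex. -/
def nbrs (a : Cfg) (v : ℕ) : Finset ℕ := (ballS a {v} 1).erase v

/-- The observation rate of an edge. -/
def rate (a : Cfg) (e : Sym2 ℕ) : ℝ :=
  1 / ((∑ x ∈ e.toFinset, (nbrs a x).card : ℕ) : ℝ)

/-- An observation happens in the slot `i`. -/
def Ring (a : Cfg) (T : Idx → ℝ × ℝ) (i : Idx) : Prop := i.1 ∈ eset a ∧ (T i).1 < rate a i.1

/-- The time of the slot `i`. -/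
def tim (T : Idx → ℝ × ℝ) (i : Idx) : ℝ := i.2 + (T i).2

/-- The log-likelihood ratio of one observation. -/
def kap : ℝ := Real.log 3

open scoped Classical in
/-- The log-conductances produced by the observations before time `t`. -/
def yOf (a : Cfg) (T : Idx → ℝ × ℝ) (X : Idx → Bool) (t : ℝ) (e : Sym2 ℕ) : ℝ :=
  ∑ n ∈ Finset.range (⌊t⌋₊ + 1),
    if Ring a T (e, n) ∧ tim T (e, n) < t then (if X (e, n) then kap else -kap) else 0

/-- The predicted probability of a positive observation. -/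
def pr (a : Cfg) (T : Idx → ℝ × ℝ) (X : Idx → Bool) (i : Idx) : ℝ :=
  1 / 4 + marg a (yOf a T X (tim T i)) i.1 / 2

/-- Activation and times contained in seeds. -/
def tp (s : Seeds) : Idx → ℝ × ℝ := fun i => ((s i).1, (s i).2.1)

/-- One step of the iteration. -/
def step (a : Cfg) (s : Seeds) (X : Idx → Bool) : Idx → Bool :=
  fun i => decide ((s i).2.2 < pr a (tp s) X i)

/-- The iteration. -/
def it (a : Cfg) (s : Seeds) : ℕ → Idx → Bool
  | 0 => fun _ => false
  | k + 1 => step a s (it a s k)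

/-- Activation and times in the joint space. -/
def tq (ω : Omg) : Idx → ℝ × ℝ := fun i => (ω.2 i).1

open scoped Classical in
/-- The true observation. -/
def Xt (ω : Omg) (i : Idx) : Bool := if (ω.2 i).2.1 < 3 / 4 then ω.1 i.1 else !ω.1 i.1

open scoped Classical in
/-- The threshold recovered from an observation. -/
def uOf (a : Cfg) (ω : Omg) (i : Idx) : ℝ :=
  if Ring a (tq ω) i then
    (if Xt ω i then (ω.2 i).2.2 * pr a (tq ω) (Xt ω) i
      else pr a (tq ω) (Xt ω) i + (ω.2 i).2.2 * (1 - pr a (tq ω) (Xt ω) i))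
  else (ω.2 i).2.2

open scoped Classical in
/-- The seeds recovered from the joint space. -/
def seedsOf (a : Cfg) (ω : Omg) : Seeds :=
  fun i => if i.1 ∈ eset a then ((ω.2 i).1.1, (ω.2 i).1.2, uOf a ω i) else (2, 0, 0)

/-- The uniform law on the unit square. -/
def sq2 : Measure (ℝ × ℝ) := unif.prod unif

instance : IsProbabilityMeasure sq2 := by unfold sq2; infer_instance

/-- The law of the noise. -/
def qlaw : Measure Noise := Measure.infinitePi (fun _ : Idx => sq2.prod sq2)

instance : IsProbabilityMeasure qlaw := by unfold qlaw; infer_instance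

/-- The joint law. -/
def jlaw (a : Cfg) : Measure Omg := (fusf a).prod qlaw

instance (a : Cfg) : IsProbabilityMeasure (jlaw a) := by unfold jlaw; infer_instance

theorem kap_nonneg : 0 ≤ kap := Real.log_nonneg (by norm_num)

theorem abs_yOf_le (a : Cfg) (T : Idx → ℝ × ℝ) (X : Idx → Bool) (t : ℝ) (e : Sym2 ℕ) :
    |yOf a T X t e| ≤ (⌊t⌋₊ + 1 : ℕ) * kap := by
  unfold yOf
  refine (Finset.abs_sum_le_sum_abs _ _).trans ((Finset.sum_le_sum (g := fun _ => kap)
    fun n _ => ?_).trans (by simp))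
  split_ifs <;> simp [abs_of_nonneg kap_nonneg, kap_nonneg]

theorem pr_mem (a : Cfg) (T : Idx → ℝ × ℝ) (X : Idx → Bool) (i : Idx) :
    1 / 4 ≤ pr a T X i ∧ pr a T X i ≤ 3 / 4 := by
  obtain ⟨h0, h1⟩ := marg_mem a (yOf a T X (tim T i)) i.1
  unfold pr; constructor <;> linarith

theorem yOf_congr {a : Cfg} {T T' : Idx → ℝ × ℝ} {X X' : Idx → Bool} {t : ℝ}
    (h1 : ∀ i, (Ring a T i ∧ tim T i < t) ↔ (Ring a T' i ∧ tim T' i < t))
    (h2 : ∀ i, Ring a T i ∧ tim T i < t → X i = X' i) : yOf a T X t = yOf a T' X' t := by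
  classical
  funext e
  refine Finset.sum_congr rfl fun n _ => ?_
  by_cases h : Ring a T (e, n) ∧ tim T (e, n) < t
  · rw [if_pos h, if_pos ((h1 _).1 h), h2 _ h]
  · rw [if_neg h, if_neg fun h' => h ((h1 _).2 h')]

theorem tp_seedsOf {a : Cfg} {ω : Omg} {i : Idx} (hi : i.1 ∈ eset a) :
    tp (seedsOf a ω) i = tq ω i := by
  simp [tp, seedsOf, tq, hi]

theorem ring_seedsOf {a : Cfg} {ω : Omg} {i : Idx} :
    Ring a (tp (seedsOf a ω)) i ↔ Ring a (tq ω) i := by
  unfold Ring
  refine and_congr_right fun h => ?_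
  rw [tp_seedsOf h]

theorem tim_seedsOf {a : Cfg} {ω : Omg} {i : Idx} (hi : i.1 ∈ eset a) :
    tim (tp (seedsOf a ω)) i = tim (tq ω) i := by
  unfold tim; rw [tp_seedsOf hi]

theorem yOf_seedsOf (a : Cfg) (ω : Omg) (X : Idx → Bool) (t : ℝ) :
    yOf a (tp (seedsOf a ω)) X t = yOf a (tq ω) X t := by
  refine yOf_congr (fun i => ⟨fun h => ?_, fun h => ?_⟩) (fun _ _ => rfl)
  · exact ⟨ring_seedsOf.1 h.1, tim_seedsOf h.1.1 ▸ h.2⟩
  · exact ⟨ring_seedsOf.2 h.1, (tim_seedsOf h.1.1).symm ▸ h.2⟩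

theorem pr_seedsOf {a : Cfg} {ω : Omg} (X : Idx → Bool) {i : Idx} (hi : i.1 ∈ eset a) :
    pr a (tp (seedsOf a ω)) X i = pr a (tq ω) X i := by
  unfold pr; rw [yOf_seedsOf, tim_seedsOf hi]

theorem it_succ_seedsOf {a : Cfg} {ω : Omg} {i : Idx} (hr : Ring a (tq ω) i) (k : ℕ) :
    it a (seedsOf a ω) (k + 1) i =
      decide (uOf a ω i < pr a (tq ω) (it a (seedsOf a ω) k) i) := by
  have h : (seedsOf a ω i).2.2 = uOf a ω i := by simp [seedsOf, hr.1]
  show decide (_ < _) = _
  rw [h, pr_seedsOf _ hr.1]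

/-- The observations strictly before `t` coincide. -/
def SamePast (a : Cfg) (t : ℝ) (ω ω' : Omg) : Prop :=
  ω.1 = ω'.1 ∧ ∀ i, ((Ring a (tq ω) i ∧ tim (tq ω) i < t) ↔
      (Ring a (tq ω') i ∧ tim (tq ω') i < t)) ∧
    (Ring a (tq ω) i ∧ tim (tq ω) i < t → ω.2 i = ω'.2 i)

theorem SamePast.mono {a : Cfg} {t t' : ℝ} {ω ω' : Omg} (h : SamePast a t ω ω') (ht : t' ≤ t) :
    SamePast a t' ω ω' := by
  refine ⟨h.1, fun i => ⟨⟨fun hi => ?_, fun hi => ?_⟩,
    fun hi => (h.2 i).2 ⟨hi.1, hi.2.trans_le ht⟩⟩⟩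
  · have h' := (h.2 i).2 ⟨hi.1, hi.2.trans_le ht⟩
    exact ⟨((h.2 i).1.1 ⟨hi.1, hi.2.trans_le ht⟩).1, by simpa [tim, tq, h'] using hi.2⟩
  · have hh := (h.2 i).1.2 ⟨hi.1, hi.2.trans_le ht⟩
    have h' := (h.2 i).2 hh
    exact ⟨hh.1, by simpa [tim, tq, h'] using hi.2⟩

theorem SamePast.yX {a : Cfg} {t : ℝ} {ω ω' : Omg} (h : SamePast a t ω ω') :
    yOf a (tq ω) (Xt ω) t = yOf a (tq ω') (Xt ω') t :=
  yOf_congr (fun i => (h.2 i).1) fun i hi => by simp [Xt, h.1, (h.2 i).2 hi]

theorem SamePast.uOf_eq {a : Cfg} {t : ℝ} {ω ω' : Omg} (h : SamePast a t ω ω') {i : Idx}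
    (hi : Ring a (tq ω) i ∧ tim (tq ω) i < t) : uOf a ω i = uOf a ω' i := by
  have hq := (h.2 i).2 hi
  have hi' := (h.2 i).1.1 hi
  have htim : tim (tq ω') i = tim (tq ω) i := by simp [tim, tq, hq]
  have hX : Xt ω i = Xt ω' i := by simp [Xt, h.1, hq]
  have hp : pr a (tq ω) (Xt ω) i = pr a (tq ω') (Xt ω') i := by
    unfold pr; rw [htim, (h.mono hi.2.le).yX]
  simp only [uOf, if_pos hi.1, if_pos hi'.1, hX, hp, hq]

theorem SamePast.it_eq {a : Cfg} (k : ℕ) :
    ∀ {t : ℝ} {ω ω' : Omg}, SamePast a t ω ω' → ∀ i, Ring a (tq ω) i ∧ tim (tq ω) i < t →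
      it a (seedsOf a ω) k i = it a (seedsOf a ω') k i := by
  induction k with
  | zero => intros; rfl
  | succ k ih =>
    intro t ω ω' h i hi
    have hi' := (h.2 i).1.1 hi
    have htim : tim (tq ω') i = tim (tq ω) i := by simp [tim, tq, (h.2 i).2 hi]
    rw [it_succ_seedsOf hi.1, it_succ_seedsOf hi'.1, h.uOf_eq hi]
    congr 2
    unfold pr
    rw [htim]
    have h' := h.mono hi.2.le
    rw [yOf_congr (fun j => (h'.2 j).1) (fun j hj => ih h' j hj)]

theorem SamePast.yA {a : Cfg} {t : ℝ} {ω ω' : Omg} (h : SamePast a t ω ω') (k : ℕ) :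
    yOf a (tq ω) (it a (seedsOf a ω) k) t = yOf a (tq ω') (it a (seedsOf a ω') k) t :=
  yOf_congr (fun i => (h.2 i).1) fun i hi => SamePast.it_eq k h i hi

/-! ### Measurability -/

theorem measurable_nbrs_card (v : ℕ) : Measurable (fun a : Cfg => (nbrs a v).card) := by
  refine measurable_to_countable' fun c => ?_
  have : (fun a : Cfg => (nbrs a v).card) ⁻¹' {c} =
      ⋃ s ∈ {s : Finset ℕ | (s.erase v).card = c}, {a | ballS a {v} 1 = s} := by
    ext a; simp [nbrs]
  rw [this]
  exact MeasurableSet.biUnion (Set.to_countable _) fun s _ => ballS_fiber {v} 1 s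

theorem measurable_rate (e : Sym2 ℕ) : Measurable (fun a : Cfg => rate a e) := by
  have h : Measurable (fun a : Cfg => ((∑ x ∈ e.toFinset, (nbrs a x).card : ℕ) : ℝ)) :=
    measurable_from_top.comp (Finset.measurable_sum _ fun x _ => measurable_nbrs_card x)
  unfold rate
  exact measurable_const.div h

theorem measurableSet_ring {α : Type*} [MeasurableSpace α] {fa : α → Cfg}
    {fT : α → Idx → ℝ × ℝ} (ha : Measurable fa) (hT : Measurable fT) (i : Idx) :
    MeasurableSet {x | Ring (fa x) (fT x) i} := by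
  have : {x | Ring (fa x) (fT x) i} =
      fa ⁻¹' {a | i.1 ∈ eset a} ∩ {x | (fT x i).1 < rate (fa x) i.1} := rfl
  rw [this]
  exact (ha (measurable_coord i.1)).inter
    (measurableSet_lt ((measurable_pi_iff.1 hT i).fst) ((measurable_rate i.1).comp ha))

theorem measurable_tim {α : Type*} [MeasurableSpace α] {fT : α → Idx → ℝ × ℝ}
    (hT : Measurable fT) (i : Idx) : Measurable fun x => tim (fT x) i :=
  measurable_const.add ((measurable_pi_iff.1 hT i).snd)

theorem measurable_yOf {α : Type*} [MeasurableSpace α] {fa : α → Cfg} {fT : α → Idx → ℝ × ℝ}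
    {fX : α → Idx → Bool} {ft : α → ℝ} (ha : Measurable fa) (hT : Measurable fT)
    (hX : Measurable fX) (ht : Measurable ft) :
    Measurable fun x => yOf (fa x) (fT x) (fX x) (ft x) := by
  classical
  refine measurable_pi_lambda _ fun e => ?_
  have hterm : ∀ n, Measurable fun x =>
      if Ring (fa x) (fT x) (e, n) ∧ tim (fT x) (e, n) < ft x then
        (if fX x (e, n) then kap else -kap) else 0 := fun n =>
    Measurable.ite ((measurableSet_ring ha hT (e, n)).inter
        (measurableSet_lt (measurable_tim hT (e, n)) ht))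
      ((measurable_from_top (f := fun b : Bool => if b then kap else -kap)).comp
        (measurable_pi_iff.1 hX (e, n))) measurable_const
  unfold yOf
  have hfl : Measurable fun x => ⌊ft x⌋₊ := Nat.measurable_floor.comp ht
  intro s hs
  have : (fun x => ∑ n ∈ Finset.range (⌊ft x⌋₊ + 1),
      if Ring (fa x) (fT x) (e, n) ∧ tim (fT x) (e, n) < ft x then
        (if fX x (e, n) then kap else -kap) else 0) ⁻¹' s =
      ⋃ m : ℕ, (fun x => ⌊ft x⌋₊) ⁻¹' {m} ∩ (fun x => ∑ n ∈ Finset.range (m + 1),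
        if Ring (fa x) (fT x) (e, n) ∧ tim (fT x) (e, n) < ft x then
          (if fX x (e, n) then kap else -kap) else 0) ⁻¹' s := by
    ext x; simp
  rw [this]
  exact MeasurableSet.iUnion fun m => (hfl (measurableSet_singleton m)).inter
    ((Finset.measurable_sum _ fun n _ => hterm n) hs)

theorem measurable_pr {α : Type*} [MeasurableSpace α] {fa : α → Cfg} {fT : α → Idx → ℝ × ℝ}
    {fX : α → Idx → Bool} (ha : Measurable fa) (hT : Measurable fT) (hX : Measurable fX)
    (i : Idx) : Measurable fun x => pr (fa x) (fT x) (fX x) i :=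
  measurable_const.add (((measurable_marg i.1).comp
    (ha.prodMk (measurable_yOf ha hT hX (measurable_tim hT i)))).div_const 2)

theorem measurable_tp : Measurable tp := by
  unfold tp; fun_prop

theorem measurable_tq : Measurable tq := by
  unfold tq; fun_prop

theorem measurable_it {α : Type*} [MeasurableSpace α] {fa : α → Cfg} {fs : α → Seeds}
    (ha : Measurable fa) (hs : Measurable fs) :
    ∀ k, Measurable fun x => it (fa x) (fs x) k
  | 0 => measurable_const
  | k + 1 => by
    refine measurable_pi_lambda _ fun i => measurable_to_bool ?_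
    have : (fun x => it (fa x) (fs x) (k + 1) i) ⁻¹' {true} =
        {x | (fs x i).2.2 < pr (fa x) (tp (fs x)) (it (fa x) (fs x) k) i} := by
      ext x; simp [it, step]
    rw [this]
    exact measurableSet_lt (measurable_pi_iff.1 hs i).snd.snd
      (measurable_pr ha (measurable_tp.comp hs) (measurable_it ha hs k) i)

theorem measurable_Xt : Measurable Xt := by
  classical
  refine measurable_pi_lambda _ fun i => ?_
  unfold Xt
  refine Measurable.ite (measurableSet_lt (by fun_prop) measurable_const) (by fun_prop) ?_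
  exact (measurable_from_top (f := fun b : Bool => !b)).comp (by fun_prop)

theorem measurable_uOf (i : Idx) : Measurable fun p : Cfg × Omg => uOf p.1 p.2 i := by
  classical
  have hT : Measurable fun p : Cfg × Omg => tq p.2 := measurable_tq.comp measurable_snd
  have hX : Measurable fun p : Cfg × Omg => Xt p.2 := measurable_Xt.comp measurable_snd
  have hp := measurable_pr measurable_fst hT hX i
  have hw : Measurable fun p : Cfg × Omg => (p.2.2 i).2.2 := by fun_prop
  unfold uOf
  refine Measurable.ite (measurableSet_ring measurable_fst hT i) ?_ hw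
  exact Measurable.ite ((measurable_pi_iff.1 hX i) (measurableSet_singleton true))
    (hw.mul hp) (hp.add (hw.mul (measurable_const.sub hp)))

theorem measurable_seedsOf : Measurable fun p : Cfg × Omg => seedsOf p.1 p.2 := by
  classical
  refine measurable_pi_lambda _ fun i => ?_
  unfold seedsOf
  refine Measurable.ite (measurable_fst (measurable_coord i.1)) ?_ measurable_const
  exact ((by fun_prop : Measurable fun p : Cfg × Omg => (p.2.2 i).1.1)).prodMk
    (((by fun_prop : Measurable fun p : Cfg × Omg => (p.2.2 i).1.2)).prodMk (measurable_uOf i))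

/-- The forest measures as a kernel. -/
def fker : Kernel Cfg Cfg := ⟨fusf, measurable_fusf⟩

instance : IsMarkovKernel fker := ⟨fun a => fusf_prob a⟩

theorem measurable_jlaw_lintegral {f : Cfg → Omg → ENNReal}
    (hf : Measurable (Function.uncurry f)) : Measurable fun a => ∫⁻ ω, f a ω ∂jlaw a := by
  have h1 : ∀ a, ∫⁻ ω, f a ω ∂jlaw a = ∫⁻ σ, ∫⁻ q, f a (σ, q) ∂qlaw ∂fker a := fun a =>
    lintegral_prod _ (hf.comp measurable_prodMk_left).aemeasurable
  simp only [h1]
  have h2 : Measurable fun p : Cfg × Cfg => ∫⁻ q, f p.1 (p.2, q) ∂qlaw := by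
    refine Measurable.lintegral_prod_right' (f := fun z : (Cfg × Cfg) × Noise => f z.1.1 (z.1.2, z.2)) ?_
    exact hf.comp ((measurable_fst.comp measurable_fst).prodMk
      ((measurable_snd.comp measurable_fst).prodMk measurable_snd))
  exact h2.lintegral_kernel_prod_right' (κ := fker)

/-! ### Naturality -/

/-- The relabelling of observation slots. -/
def iperm (φ : ℕ ≃ ℕ) : Idx ≃ Idx := (eperm φ).prodCongr (Equiv.refl ℕ)

theorem iperm_apply (φ : ℕ ≃ ℕ) (i : Idx) : iperm φ i = (eperm φ i.1, i.2) := rfl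

theorem iperm_symm_apply (φ : ℕ ≃ ℕ) (i : Idx) :
    (iperm φ).symm (iperm φ i) = i := (iperm φ).symm_apply_apply i

theorem nbrs_relabel (φ : ℕ ≃ ℕ) (a : Cfg) (v : ℕ) :
    nbrs (relabel φ a) (φ v) = (nbrs a v).image φ := by
  have h := ballS_relabel φ a {v} 1
  rw [Finset.image_singleton] at h
  simp [nbrs, h, Finset.image_erase φ.injective]

theorem toFinset_eperm (φ : ℕ ≃ ℕ) (e : Sym2 ℕ) : (eperm φ e).toFinset = e.toFinset.image φ := by
  ext w
  obtain ⟨v, rfl⟩ := φ.surjective w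
  simp [mem_eperm]

theorem rate_relabel (φ : ℕ ≃ ℕ) (a : Cfg) (e : Sym2 ℕ) :
    rate (relabel φ a) (eperm φ e) = rate a e := by
  unfold rate
  rw [toFinset_eperm, Finset.sum_image φ.injective.injOn]
  simp [nbrs_relabel, Finset.card_image_of_injective _ φ.injective]

theorem ring_relabel (φ : ℕ ≃ ℕ) (a : Cfg) (T : Idx → ℝ × ℝ) (i : Idx) :
    Ring (relabel φ a) (T ∘ (iperm φ).symm) (iperm φ i) ↔ Ring a T i := by
  simp only [Ring, Function.comp_apply, iperm_symm_apply]
  simp only [iperm_apply, mem_eset_relabel, rate_relabel]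

theorem tim_relabel (φ : ℕ ≃ ℕ) (T : Idx → ℝ × ℝ) (i : Idx) :
    tim (T ∘ (iperm φ).symm) (iperm φ i) = tim T i := by
  simp only [tim, Function.comp_apply, iperm_symm_apply]
  simp [iperm_apply]

theorem yOf_relabel (φ : ℕ ≃ ℕ) (a : Cfg) (T : Idx → ℝ × ℝ) (X : Idx → Bool) (t : ℝ) :
    yOf (relabel φ a) (T ∘ (iperm φ).symm) (X ∘ (iperm φ).symm) t =
      yOf a T X t ∘ (eperm φ).symm := by
  classical
  funext e
  obtain ⟨d, rfl⟩ := (eperm φ).surjective e
  simp only [Function.comp_apply, Equiv.symm_apply_apply, yOf]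
  refine Finset.sum_congr rfl fun n _ => ?_
  have h1 := ring_relabel φ a T (d, n)
  have h2 := tim_relabel φ T (d, n)
  have h3 : (iperm φ).symm (eperm φ d, n) = (d, n) := iperm_symm_apply φ (d, n)
  rw [iperm_apply] at h1 h2
  simp only at h1 h2
  simp only [h1, h2, h3]

theorem pr_relabel (φ : ℕ ≃ ℕ) (a : Cfg) (T : Idx → ℝ × ℝ) (X : Idx → Bool) (i : Idx) :
    pr (relabel φ a) (T ∘ (iperm φ).symm) (X ∘ (iperm φ).symm) (iperm φ i) = pr a T X i := by
  unfold pr
  rw [tim_relabel, yOf_relabel]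
  congr 2
  exact marg_relabel φ a _ i.1

theorem it_relabel (φ : ℕ ≃ ℕ) (a : Cfg) (s : Seeds) :
    ∀ k, it (relabel φ a) (s ∘ (iperm φ).symm) k = it a s k ∘ (iperm φ).symm
  | 0 => rfl
  | k + 1 => by
    funext i
    obtain ⟨j, rfl⟩ := (iperm φ).surjective i
    simp only [it, step, Function.comp_apply, iperm_symm_apply, it_relabel φ a s k]
    have : tp (s ∘ (iperm φ).symm) = tp s ∘ (iperm φ).symm := rfl
    rw [this, pr_relabel]

/-- The relabelling of the joint space. -/
def jperm (φ : ℕ ≃ ℕ) (ω : Omg) : Omg := (relabel φ ω.1, ω.2 ∘ (iperm φ).symm)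

theorem Xt_relabel (φ : ℕ ≃ ℕ) (ω : Omg) : Xt (jperm φ ω) = Xt ω ∘ (iperm φ).symm := by
  funext i
  obtain ⟨j, rfl⟩ := (iperm φ).surjective i
  simp only [Xt, jperm, Function.comp_apply, iperm_symm_apply]
  simp only [iperm_apply, relabel_apply]

theorem tq_relabel (φ : ℕ ≃ ℕ) (ω : Omg) : tq (jperm φ ω) = tq ω ∘ (iperm φ).symm := rfl

theorem seedsOf_relabel (φ : ℕ ≃ ℕ) (a : Cfg) (ω : Omg) :
    seedsOf (relabel φ a) (jperm φ ω) = seedsOf a ω ∘ (iperm φ).symm := by
  classical
  funext i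
  obtain ⟨j, rfl⟩ := (iperm φ).surjective i
  have he : (iperm φ j).1 ∈ eset (relabel φ a) ↔ j.1 ∈ eset a := mem_eset_relabel φ a j.1
  have hu : uOf (relabel φ a) (jperm φ ω) (iperm φ j) = uOf a ω j := by
    simp only [uOf, Xt_relabel, tq_relabel, ring_relabel, pr_relabel, Function.comp_apply,
      iperm_symm_apply]
    simp only [jperm, Function.comp_apply, iperm_symm_apply]
  simp only [seedsOf, Function.comp_apply, iperm_symm_apply, hu]
  simp only [he, jperm, Function.comp_apply, iperm_symm_apply]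

theorem measurable_jperm (φ : ℕ ≃ ℕ) : Measurable (jperm φ) :=
  ((measurable_relabel φ).comp measurable_fst).prodMk
    (measurable_pi_lambda _ fun i => (measurable_pi_apply ((iperm φ).symm i)).comp measurable_snd)

theorem jlaw_relabel (φ : ℕ ≃ ℕ) (a : Cfg) : jlaw (relabel φ a) = (jlaw a).map (jperm φ) := by
  have hq : qlaw.map (fun q : Noise => q ∘ (iperm φ).symm) = qlaw := by
    unfold qlaw
    conv_rhs => rw [← Measure.infinitePi_map_piCongrLeft (fun _ : Idx => sq2.prod sq2) (iperm φ)]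
    congr 1
    funext q i
    obtain ⟨j, rfl⟩ := (iperm φ).surjective i
    rw [MeasurableEquiv.piCongrLeft_apply_apply]
    simp
  have hm : Measurable (fun q : Noise => q ∘ (iperm φ).symm) :=
    measurable_pi_lambda _ fun i => measurable_pi_apply _
  unfold jlaw jperm
  rw [fusf_relabel]
  conv_lhs => rw [← hq]
  rw [Measure.map_prod_map _ _ (measurable_relabel φ) hm]
  rfl

theorem lintegral_relabel (φ : ℕ ≃ ℕ) (a : Cfg) {f : Omg → ENNReal} (hf : Measurable f) :
    ∫⁻ ω, f ω ∂jlaw (relabel φ a) = ∫⁻ ω, f (jperm φ ω) ∂jlaw a := by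
  rw [jlaw_relabel, lintegral_map hf (measurable_jperm φ)]

/-! ### Elementary facts on good graphs -/

theorem mem_nbrs {a : Cfg} (ha : Good a) {v w : ℕ} : w ∈ nbrs a v ↔ s(v, w) ∈ eset a := by
  simp only [nbrs, Finset.mem_erase, mem_ballS ha, InBall, Finset.mem_singleton, exists_eq_left]
  constructor
  · rintro ⟨hne, h | h⟩
    · exact absurd h hne
    · exact h
  · intro h
    exact ⟨fun hh => h.1 (by simp [hh]), Or.inr h⟩

theorem two_le_deg {a : Cfg} (ha : Good a) {e : Sym2 ℕ} (he : e ∈ eset a) :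
    ∀ x ∈ e, 1 ≤ (nbrs a x).card := by
  intro x hx
  obtain ⟨z, rfl⟩ := Sym2.mem_iff_exists.1 hx
  exact Finset.card_pos.2 ⟨z, (mem_nbrs ha).2 he⟩

theorem rate_bounds {a : Cfg} (ha : Good a) {e : Sym2 ℕ} (he : e ∈ eset a) :
    0 < rate a e ∧ rate a e ≤ 1 / 2 ∧
      ∀ x ∈ e, rate a e * ((nbrs a x).card : ℝ) ≤ 1 := by
  have hcard : e.toFinset.card = 2 := Sym2.card_toFinset_of_not_isDiag e he.1
  have h2 : 2 ≤ ∑ x ∈ e.toFinset, (nbrs a x).card := by
    calc 2 = ∑ _x ∈ e.toFinset, 1 := by simp [hcard]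
      _ ≤ _ := Finset.sum_le_sum fun x hx => two_le_deg ha he x (Sym2.mem_toFinset.1 hx)
  have h2' : (2 : ℝ) ≤ ((∑ x ∈ e.toFinset, (nbrs a x).card : ℕ) : ℝ) := by exact_mod_cast h2
  refine ⟨one_div_pos.2 (by linarith), one_div_le_one_div_of_le two_pos h2', fun x hx => ?_⟩
  have hle : (((nbrs a x).card : ℕ) : ℝ) ≤ ((∑ x ∈ e.toFinset, (nbrs a x).card : ℕ) : ℝ) :=
    Nat.cast_le.2 (Finset.single_le_sum (f := fun z => (nbrs a z).card) (fun z _ => Nat.zero_le _)
      (Sym2.mem_toFinset.2 hx))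
  unfold rate
  rw [one_div_mul_eq_div, div_le_one (by linarith)]
  exact hle

end

end Vale.Agent.P143
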