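import Vale.Agent.P143.Tree

/-!
Orthogonal projections attached to a set of edges and log-conductances: identification with the
transfer current of a finite graph, continuity, and the Lipschitz estimate.
-/

namespace Vale.Agent.P143

open Finset Filter Topology
open scoped RealInnerProductSpace

noncomputable section

/-- Square summable functions on pairs of vertices. -/
abbrev Hs := lp (fun _ : Sym2 ℕ => ℝ) 2

/-- The basis vector at an edge. -/
def dlt (e : Sym2 ℕ) : Hs := lp.single 2 e 1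

/-- A finitely supported vector. -/
def vec (s : Finset (Sym2 ℕ)) (c : Sym2 ℕ → ℝ) : Hs := ∑ e ∈ s, lp.single 2 e (c e)

theorem vec_apply (s : Finset (Sym2 ℕ)) (c : Sym2 ℕ → ℝ) (e : Sym2 ℕ) :
    vec s c e = if e ∈ s then c e else 0 := by
  classical
  unfold vec
  rw [lp.coeFn_sum, Finset.sum_apply]
  simp [Pi.single_apply, Finset.sum_ite_eq]

theorem inner_dlt (e : Sym2 ℕ) (x : Hs) : ⟪dlt e, x⟫ = x e := by
  simp [dlt, lp.inner_single_left]

theorem inner_vec (s : Finset (Sym2 ℕ)) (c : Sym2 ℕ → ℝ) (x : Hs) :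
    ⟪vec s c, x⟫ = ∑ e ∈ s, c e * x e := by
  unfold vec
  rw [sum_inner]
  simp [lp.inner_single_left, mul_comm]

theorem dlt_apply (e j : Sym2 ℕ) : dlt e j = if j = e then 1 else 0 := by
  classical
  simp [dlt, Pi.single_apply]

theorem inner_eq (x z : Hs) : ⟪x, z⟫ = ∑' e, x e * z e := by
  rw [lp.inner_eq_tsum]; simp [mul_comm]

theorem summable_mul_Hs (x z : Hs) : Summable fun e => x e * z e := by
  have := lp.summable_inner (𝕜 := ℝ) x z
  simpa [mul_comm] using this

theorem norm_sq_eq (x : Hs) : ‖x‖ ^ 2 = ∑' e, x e ^ 2 := by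
  rw [← real_inner_self_eq_norm_sq, inner_eq]; simp [pow_two]

theorem summable_sq_Hs (x : Hs) : Summable fun e => x e ^ 2 := by
  simpa [pow_two] using summable_mul_Hs x x

/-- Multiplication by a bounded function. -/
def mulB (a : Sym2 ℕ → ℝ) (C : ℝ) (ha : ∀ e, |a e| ≤ C) (x : Hs) : Hs :=
  ⟨fun e => a e * x e, by
    refine Memℓp.mono (g := fun e => C * ‖x e‖) ?_ (fun e => ?_)
    · exact ((lp.memℓp x).norm).const_mul C
    · rw [norm_mul]; exact mul_le_mul_of_nonneg_right (ha e) (norm_nonneg _)⟩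

theorem mulB_apply (a : Sym2 ℕ → ℝ) (C : ℝ) (ha : ∀ e, |a e| ≤ C) (x : Hs) (e : Sym2 ℕ) :
    mulB a C ha x e = a e * x e := rfl

/-- A cycle (flow without sources) carried by `s`. -/
def IsCyc (s : Finset (Sym2 ℕ)) (z : Sym2 ℕ → ℝ) : Prop :=
  ∀ f : ℕ → ℝ, ∑ e ∈ s, z e * grd f e = 0

/-- The vectors orthogonal to the space of admissible currents. -/
def gen (F : Set (Sym2 ℕ)) (y : Sym2 ℕ → ℝ) : Set Hs :=
  {x | (∃ s : Finset (Sym2 ℕ), ∃ z, ↑s ⊆ F ∧ IsCyc s z ∧
      x = vec s (fun e => Real.exp (-(y e) / 2) * z e)) ∨ ∃ e, e ∉ F ∧ x = dlt e}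

/-- The space of admissible (rescaled) currents. -/
def Rsp (F : Set (Sym2 ℕ)) (y : Sym2 ℕ → ℝ) : Submodule ℝ Hs := (Submodule.span ℝ (gen F y))ᗮ

instance (F : Set (Sym2 ℕ)) (y : Sym2 ℕ → ℝ) : (Rsp F y).HasOrthogonalProjection := by
  have : CompleteSpace (Rsp F y) := (Submodule.isClosed_orthogonal _).completeSpace_coe
  infer_instance

/-- The orthogonal projection on admissible currents. -/
def Pr (F : Set (Sym2 ℕ)) (y : Sym2 ℕ → ℝ) : Hs →L[ℝ] Hs := (Rsp F y).starProjection

/-- Entries of the projection. -/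
def Pe (F : Set (Sym2 ℕ)) (y : Sym2 ℕ → ℝ) (e g : Sym2 ℕ) : ℝ := Pr F y (dlt g) e

theorem mem_Rsp_iff {F : Set (Sym2 ℕ)} {y : Sym2 ℕ → ℝ} {x : Hs} :
    x ∈ Rsp F y ↔
      (∀ (s : Finset (Sym2 ℕ)) (z : Sym2 ℕ → ℝ), ↑s ⊆ F → IsCyc s z →
        ∑ e ∈ s, Real.exp (-(y e) / 2) * z e * x e = 0) ∧ ∀ e, e ∉ F → x e = 0 := by
  constructor
  · intro hx
    have h := (Submodule.mem_orthogonal _ x).1 hx
    refine ⟨fun s z hs hz => ?_, fun e he => ?_⟩
    · have := h _ (Submodule.subset_span (Or.inl ⟨s, z, hs, hz, rfl⟩))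
      rwa [inner_vec] at this
    · have := h _ (Submodule.subset_span (Or.inr ⟨e, he, rfl⟩))
      rwa [inner_dlt] at this
  · rintro ⟨h1, h2⟩
    refine (Submodule.mem_orthogonal _ x).2 fun u hu => ?_
    induction hu using Submodule.span_induction with
    | mem u hu =>
      rcases hu with ⟨s, z, hs, hz, rfl⟩ | ⟨e, he, rfl⟩
      · rw [inner_vec]; exact h1 s z hs hz
      · rw [inner_dlt]; exact h2 e he
    | zero => simp
    | add u v _ _ hu hv => rw [inner_add_left, hu, hv, add_zero]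
    | smul c u _ hu => rw [inner_smul_left, hu, mul_zero]

theorem gen_mem_orth {F : Set (Sym2 ℕ)} {y : Sym2 ℕ → ℝ} {x : Hs} (hx : x ∈ gen F y) :
    x ∈ (Rsp F y)ᗮ :=
  Submodule.le_orthogonal_orthogonal _ (Submodule.subset_span hx)

theorem Pr_orth {F : Set (Sym2 ℕ)} {y : Sym2 ℕ → ℝ} {x : Hs} (hx : x ∈ (Rsp F y)ᗮ) :
    Pr F y x = 0 :=
  (Submodule.starProjection_apply_eq_zero_iff (Rsp F y)).2 hx

theorem Pe_symm (F : Set (Sym2 ℕ)) (y : Sym2 ℕ → ℝ) (e g : Sym2 ℕ) :
    Pe F y e g = Pe F y g e := by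
  unfold Pe Pr
  rw [← inner_dlt e, ← inner_dlt g, ← Submodule.inner_starProjection_left_eq_right,
    real_inner_comm]

theorem Pe_outside {F : Set (Sym2 ℕ)} {y : Sym2 ℕ → ℝ} {g : Sym2 ℕ} (hg : g ∉ F) (e : Sym2 ℕ) :
    Pe F y e g = 0 := by
  unfold Pe
  rw [Pr_orth (gen_mem_orth (Or.inr ⟨g, hg, rfl⟩))]
  simp

open scoped Classical in
/-- The entry of the projection in a finite graph, in terms of trees. -/
def entry (S : Finset ℕ) (F : Finset (Sym2 ℕ)) (y : Sym2 ℕ → ℝ) (e g : Sym2 ℕ) : ℝ :=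
  if e ∈ F ∧ g ∈ F then Real.exp ((y e - y g) / 2) * curr S F y e g else 0

theorem Pe_finite {S : Finset ℕ} {F : Finset (Sym2 ℕ)}
    (hF : ∀ e ∈ F, ¬ e.IsDiag ∧ ∀ v ∈ e, v ∈ S) (hne : (trees S F).Nonempty)
    (y : Sym2 ℕ → ℝ) (e g : Sym2 ℕ) : Pe (↑F) y e g = entry S F y e g := by
  classical
  by_cases hg : g ∈ F
  swap
  · rw [Pe_outside (by simpa using hg)]; simp [entry, hg]
  set p : Hs := vec F (fun e => Real.exp ((y e - y g) / 2) * curr S F y e g) with hp
  have hR : p ∈ Rsp (↑F) y := by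
    rw [mem_Rsp_iff]
    refine ⟨fun s z hs hz => ?_, fun e' he' => ?_⟩
    · obtain ⟨f, hf⟩ := curr_grd S F y g
      have : ∀ e' ∈ s, Real.exp (-(y e') / 2) * z e' * p e' =
          Real.exp (-(y g) / 2) * (z e' * grd f e') := by
        intro e' he'
        have heF : e' ∈ F := by exact_mod_cast hs he'
        rw [hp, vec_apply, if_pos heF, hf,
          show (y e' - y g) / 2 = y e' / 2 + -(y g) / 2 by ring, Real.exp_add,
          show -(y e') / 2 = -(y e' / 2) by ring, Real.exp_neg]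
        field_simp
      rw [Finset.sum_congr rfl this, ← Finset.mul_sum, hz f, mul_zero]
    · rw [hp, vec_apply, if_neg (by simpa using he')]
  have hO : dlt g - p ∈ (Rsp (↑F) y)ᗮ := by
    refine gen_mem_orth (Or.inl ⟨F, fun e' => Real.exp (y e') * Real.exp (-(y g) / 2) *
      ((if e' = g then 1 else 0) - curr S F y e' g), subset_refl _, fun f => ?_, ?_⟩)
    · have := curr_orth hF hne y hg f
      have h2 : ∀ e' ∈ F, Real.exp (y e') * Real.exp (-(y g) / 2) *
          ((if e' = g then 1 else 0) - curr S F y e' g) * grd f e' = Real.exp (-(y g) / 2) *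
          (Real.exp (y e') * ((if e' = g then 1 else 0) - curr S F y e' g) * grd f e') :=
        fun _ _ => by ring
      rw [Finset.sum_congr rfl h2, ← Finset.mul_sum, this, mul_zero]
    · refine lp.ext (funext fun e' => ?_)
      rw [lp.coeFn_sub, Pi.sub_apply, dlt_apply, hp, vec_apply, vec_apply]
      by_cases he' : e' ∈ F
      · rw [if_pos he', if_pos he',
          show Real.exp (-(y e') / 2) * (Real.exp (y e') * Real.exp (-(y g) / 2) *
            ((if e' = g then 1 else 0) - curr S F y e' g)) =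
            Real.exp ((y e' - y g) / 2) * ((if e' = g then 1 else 0) - curr S F y e' g) by
          rw [show (y e' - y g) / 2 = -(y e') / 2 + y e' + -(y g) / 2 by ring, Real.exp_add,
            Real.exp_add]; ring]
        by_cases heg : e' = g
        · subst heg; simp
        · simp [heg]
      · have : e' ≠ g := fun h => he' (h ▸ hg)
        simp [he', this]
  have := Submodule.eq_starProjection_of_mem_orthogonal hR hO
  unfold Pe Pr
  rw [this, hp, vec_apply]
  simp [entry, hg]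

theorem norm_sub_Pr_le {F : Set (Sym2 ℕ)} {y : Sym2 ℕ → ℝ} {r : Hs} (hr : r ∈ Rsp F y)
    (x : Hs) : ‖x - Pr F y x‖ ≤ ‖x - r‖ := by
  unfold Pr
  rw [Submodule.starProjection_minimal]
  exact ciInf_le ⟨0, by rintro _ ⟨u, rfl⟩; exact norm_nonneg _⟩ (⟨r, hr⟩ : Rsp F y)

theorem norm_Pr_le (F : Set (Sym2 ℕ)) (y : Sym2 ℕ → ℝ) (x : Hs) : ‖Pr F y x‖ ≤ ‖x‖ :=
  Submodule.norm_starProjection_apply_le _ _

theorem exp_bound {B t : ℝ} (h : |t| ≤ 2 * B) : |Real.exp (t / 2)| ≤ Real.exp B := by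
  rw [abs_of_pos (Real.exp_pos _)]
  exact Real.exp_le_exp.2 (by linarith [abs_le.1 h])

/-- Strong continuity of the projections. -/
theorem Pr_tendsto {F : Set (Sym2 ℕ)} {Fk : ℕ → Set (Sym2 ℕ)} (hsub : ∀ k, Fk k ⊆ F)
    (hcov : ∀ e ∈ F, ∀ᶠ k in atTop, e ∈ Fk k) {y : Sym2 ℕ → ℝ} {yk : ℕ → Sym2 ℕ → ℝ} {B : ℝ}
    (hy : ∀ e, |y e| ≤ B) (hyk : ∀ k e, |yk k e| ≤ B)
    (hlim : ∀ e, Tendsto (fun k => yk k e) atTop (𝓝 (y e))) (x : Hs) :
    Tendsto (fun k => Pr (Fk k) (yk k) x) atTop (𝓝 (Pr F y x)) := by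
  classical
  -- vectors of the limiting space are fixed in the limit
  have hfix : ∀ r ∈ Rsp F y, Tendsto (fun k => Pr (Fk k) (yk k) r) atTop (𝓝 r) := by
    intro r hr
    obtain ⟨hr1, hr2⟩ := mem_Rsp_iff.1 hr
    let a : ℕ → Sym2 ℕ → ℝ := fun k e =>
      if e ∈ Fk k then Real.exp ((yk k e - y e) / 2) else 0
    have ha : ∀ k e, |a k e| ≤ Real.exp B := by
      intro k e
      simp only [a]
      split_ifs
      · exact exp_bound (by have := abs_sub (yk k e) (y e); linarith [hy e, hyk k e])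
      · simpa using (Real.exp_pos B).le
    let rk : ℕ → Hs := fun k => mulB (a k) _ (ha k) r
    have hrk : ∀ k, rk k ∈ Rsp (Fk k) (yk k) := by
      intro k
      rw [mem_Rsp_iff]
      refine ⟨fun s z hs hz => ?_, fun e he => ?_⟩
      · rw [← hr1 s z (hs.trans (hsub k)) hz]
        refine Finset.sum_congr rfl fun e he => ?_
        have : e ∈ Fk k := hs he
        simp only [rk, mulB_apply, a, if_pos this]
        rw [show -(y e) / 2 = -(yk k e) / 2 + (yk k e - y e) / 2 by ring, Real.exp_add]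
        ring
      · simp [rk, mulB_apply, a, he]
    have hto : Tendsto (fun k => ‖r - rk k‖ ^ 2) atTop (𝓝 0) := by
      simp only [norm_sq_eq, lp.coeFn_sub, Pi.sub_apply, rk, mulB_apply]
      rw [show (0 : ℝ) = ∑' _ : Sym2 ℕ, (0 : ℝ) by simp]
      refine tendsto_tsum_of_dominated_convergence
        (bound := fun e => (1 + Real.exp B) ^ 2 * r e ^ 2)
        ((summable_sq_Hs r).mul_left _) (fun e => ?_)
        (Filter.Eventually.of_forall fun k e => ?_)
      · by_cases he : e ∈ F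
        · have h1 : Tendsto (fun k => Real.exp ((yk k e - y e) / 2)) atTop (𝓝 1) := by
            have := ((((hlim e).sub_const (y e)).div_const 2)).rexp
            simpa using this
          have h2 : Tendsto (fun k => (r e - Real.exp ((yk k e - y e) / 2) * r e) ^ 2)
              atTop (𝓝 0) := by
            have := ((tendsto_const_nhds (x := r e)).sub (h1.mul_const (r e))).pow 2
            simpa using this
          exact h2.congr' ((hcov e he).mono fun k hk => by simp only [a, if_pos hk])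
        · simp [hr2 e he]
      · rw [Real.norm_eq_abs, abs_pow, sq_abs]
        rw [show r e - a k e * r e = (1 - a k e) * r e by ring, mul_pow]
        refine mul_le_mul_of_nonneg_right ?_ (sq_nonneg _)
        have h1 := ha k e
        have : |1 - a k e| ≤ 1 + Real.exp B := by
          have := abs_sub (1 : ℝ) (a k e); rw [abs_one] at this; linarith
        calc (1 - a k e) ^ 2 = |1 - a k e| ^ 2 := (sq_abs _).symm
          _ ≤ _ := pow_le_pow_left₀ (abs_nonneg _) this 2
    have hto' : Tendsto (fun k => ‖r - rk k‖) atTop (𝓝 0) := by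
      have := hto.sqrt
      simpa [Real.sqrt_sq (norm_nonneg _)] using this
    rw [tendsto_iff_norm_sub_tendsto_zero]
    refine squeeze_zero (fun k => norm_nonneg _) (fun k => ?_) hto'
    rw [norm_sub_rev]
    exact norm_sub_Pr_le (hrk k) r
  -- vectors orthogonal to the limiting space tend to zero
  have hzero : ∀ u ∈ (Rsp F y)ᗮ, Tendsto (fun k => Pr (Fk k) (yk k) u) atTop (𝓝 0) := by
    let M : Submodule ℝ Hs :=
      { carrier := {u | Tendsto (fun k => Pr (Fk k) (yk k) u) atTop (𝓝 0)}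
        add_mem' := fun {u v} hu hv => by simpa using hu.add hv
        zero_mem' := by simp
        smul_mem' := fun c u hu => by simpa using hu.const_smul c }
    have hclosed : IsClosed (M : Set Hs) := by
      refine IsSeqClosed.isClosed fun us u hus hu => ?_
      show Tendsto (fun k => Pr (Fk k) (yk k) u) atTop (𝓝 0)
      rw [NormedAddGroup.tendsto_nhds_zero]
      intro ε hε
      obtain ⟨n, hn⟩ := ((tendsto_iff_norm_sub_tendsto_zero.1 hu).eventually
        (gt_mem_nhds (half_pos hε))).exists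
      have hn' : Tendsto (fun k => Pr (Fk k) (yk k) (us n)) atTop (𝓝 0) := hus n
      rw [NormedAddGroup.tendsto_nhds_zero] at hn'
      filter_upwards [hn' _ (half_pos hε)] with k hk
      calc ‖Pr (Fk k) (yk k) u‖
          = ‖Pr (Fk k) (yk k) (us n) - Pr (Fk k) (yk k) (us n - u)‖ := by rw [map_sub]; simp
        _ ≤ ‖Pr (Fk k) (yk k) (us n)‖ + ‖Pr (Fk k) (yk k) (us n - u)‖ := norm_sub_le _ _
        _ < ε := by linarith [norm_Pr_le (Fk k) (yk k) (us n - u)]
    have hgen : Submodule.span ℝ (gen F y) ≤ M := by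
      rw [Submodule.span_le]
      rintro u (⟨s, z, hs, hz, rfl⟩ | ⟨e, he, rfl⟩)
      · show Tendsto _ _ _
        have hev : ∀ᶠ k in atTop, ∀ e ∈ s, e ∈ Fk k :=
          (Finset.eventually_all s).2 fun e he => hcov e (hs he)
        let uk : ℕ → Hs := fun k => vec s (fun e => Real.exp (-(yk k e) / 2) * z e)
        have huk : Tendsto (fun k => ‖vec s (fun e => Real.exp (-(y e) / 2) * z e) - uk k‖)
            atTop (𝓝 0) := by
          have heq : ∀ k, ‖vec s (fun e => Real.exp (-(y e) / 2) * z e) - uk k‖ ≤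
              ∑ e ∈ s, |Real.exp (-(y e) / 2) * z e - Real.exp (-(yk k e) / 2) * z e| := by
            intro k
            simp only [uk, vec, ← Finset.sum_sub_distrib, ← lp.single_sub]
            refine (norm_sum_le _ _).trans (Finset.sum_le_sum fun e _ => ?_)
            rw [lp.norm_single (by norm_num), Real.norm_eq_abs]
          refine squeeze_zero (fun k => norm_nonneg _) heq ?_
          rw [show (0 : ℝ) = ∑ e ∈ s, (0 : ℝ) by simp]
          refine tendsto_finsetSum _ fun e _ => ?_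
          have h := ((((hlim e).neg).div_const 2).rexp.mul_const (z e))
          have := ((tendsto_const_nhds (x := Real.exp (-(y e) / 2) * z e)).sub h).abs
          simpa using this
        rw [NormedAddGroup.tendsto_nhds_zero]
        intro ε hε
        filter_upwards [hev, huk.eventually (gt_mem_nhds hε)] with k hk hk2
        have h0 : Pr (Fk k) (yk k) (uk k) = 0 :=
          Pr_orth (gen_mem_orth (Or.inl ⟨s, z, fun e he => hk e he, hz, rfl⟩))
        refine lt_of_le_of_lt ?_ hk2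
        calc ‖Pr (Fk k) (yk k) (vec s fun e => Real.exp (-(y e) / 2) * z e)‖
            = ‖Pr (Fk k) (yk k) (vec s (fun e => Real.exp (-(y e) / 2) * z e) - uk k)‖ := by
              rw [map_sub, h0, sub_zero]
          _ ≤ _ := norm_Pr_le _ _ _
      · show Tendsto _ _ _
        have : ∀ k, Pr (Fk k) (yk k) (dlt e) = 0 := fun k =>
          Pr_orth (gen_mem_orth (Or.inr ⟨e, fun h => he (hsub k h), rfl⟩))
        simp [this]
    intro u hu
    have h2 : u ∈ (Submodule.span ℝ (gen F y)).topologicalClosure := by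
      rw [← Submodule.orthogonal_orthogonal_eq_closure]; exact hu
    exact (Submodule.topologicalClosure_minimal _ hgen hclosed) h2
  have hdec : x = Pr F y x + (x - Pr F y x) := by abel
  have h1 := hfix (Pr F y x) (Submodule.starProjection_apply_mem _ _)
  have h2 := hzero (x - Pr F y x) (Submodule.sub_starProjection_mem_orthogonal _)
  have := h1.add h2
  rw [add_zero] at this
  refine this.congr fun k => ?_
  rw [← map_add, ← hdec]

theorem Pe_tendsto {F : Set (Sym2 ℕ)} {Fk : ℕ → Set (Sym2 ℕ)} (hsub : ∀ k, Fk k ⊆ F)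
    (hcov : ∀ e ∈ F, ∀ᶠ k in atTop, e ∈ Fk k) {y : Sym2 ℕ → ℝ} {yk : ℕ → Sym2 ℕ → ℝ} {B : ℝ}
    (hy : ∀ e, |y e| ≤ B) (hyk : ∀ k e, |yk k e| ≤ B)
    (hlim : ∀ e, Tendsto (fun k => yk k e) atTop (𝓝 (y e))) (e g : Sym2 ℕ) :
    Tendsto (fun k => Pe (Fk k) (yk k) e g) atTop (𝓝 (Pe F y e g)) := by
  have h := ((Pr_tendsto hsub hcov hy hyk hlim (dlt g)))
  have := (h.const_sub 0).norm
  have hc : Continuous fun x : Hs => ⟪dlt e, x⟫ := continuous_const.inner continuous_id
  have := (hc.tendsto _).comp h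
  simpa [Function.comp_def, inner_dlt, Pe] using this

/-- Rescaling moves one space of currents onto the other. -/
theorem scale_mem {F : Set (Sym2 ℕ)} {y y' : Sym2 ℕ → ℝ} {C : ℝ}
    (ha : ∀ e, |Real.exp ((y' e - y e) / 2)| ≤ C) {x : Hs} (hx : x ∈ Rsp F y) :
    mulB (fun e => Real.exp ((y' e - y e) / 2)) C ha x ∈ Rsp F y' := by
  obtain ⟨h1, h2⟩ := mem_Rsp_iff.1 hx
  rw [mem_Rsp_iff]
  refine ⟨fun s z hs hz => ?_, fun e he => by simp [mulB_apply, h2 e he]⟩
  rw [← h1 s z hs hz]
  refine Finset.sum_congr rfl fun e _ => ?_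
  rw [mulB_apply, show -(y e) / 2 = -(y' e) / 2 + (y' e - y e) / 2 by ring, Real.exp_add]
  ring

theorem Pe_diag_eq (F : Set (Sym2 ℕ)) (y : Sym2 ℕ → ℝ) (g : Sym2 ℕ) :
    Pe F y g g = ⟪dlt g, Pr F y (dlt g)⟫ := (inner_dlt g _).symm

theorem pyth (F : Set (Sym2 ℕ)) (y : Sym2 ℕ → ℝ) (g : Sym2 ℕ) :
    ‖dlt g - Pr F y (dlt g)‖ ^ 2 + ‖Pr F y (dlt g)‖ ^ 2 = 1 := by
  have h1 : ⟪dlt g - Pr F y (dlt g), Pr F y (dlt g)⟫ = 0 :=
    Submodule.starProjection_inner_eq_zero _ _ (Submodule.starProjection_apply_mem _ _)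
  have h := norm_add_sq_real (dlt g - Pr F y (dlt g)) (Pr F y (dlt g))
  rw [h1, sub_add_cancel] at h
  have : ‖dlt g‖ = 1 := by simp [dlt, lp.norm_single]
  rw [this] at h
  linarith

theorem Pe_diag_mem (F : Set (Sym2 ℕ)) (y : Sym2 ℕ → ℝ) (g : Sym2 ℕ) :
    Pe F y g g ∈ Set.Icc (0 : ℝ) 1 := by
  have h1 : ⟪dlt g - Pr F y (dlt g), Pr F y (dlt g)⟫ = 0 :=
    Submodule.starProjection_inner_eq_zero _ _ (Submodule.starProjection_apply_mem _ _)
  rw [inner_sub_left, sub_eq_zero] at h1
  rw [Pe_diag_eq, h1, real_inner_self_eq_norm_sq]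
  refine ⟨sq_nonneg _, ?_⟩
  nlinarith [pyth F y g, sq_nonneg ‖dlt g - Pr F y (dlt g)‖]

/-- The weight with which the edge `j` influences the edge `e`. -/
def infl (F : Set (Sym2 ℕ)) (y : Sym2 ℕ → ℝ) (j e : Sym2 ℕ) : ℝ :=
  Pe F y j e ^ 2 + ((if j = e then 1 else 0) - Pe F y j e) ^ 2

theorem infl_nonneg (F : Set (Sym2 ℕ)) (y : Sym2 ℕ → ℝ) (j e : Sym2 ℕ) : 0 ≤ infl F y j e := by
  unfold infl; positivity

theorem infl_symm (F : Set (Sym2 ℕ)) (y : Sym2 ℕ → ℝ) (j e : Sym2 ℕ) :
    infl F y j e = infl F y e j := by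
  unfold infl
  rw [Pe_symm F y j e]
  by_cases h : j = e
  · subst h; rfl
  · simp [h, Ne.symm h]

theorem infl_sum (F : Set (Sym2 ℕ)) (y : Sym2 ℕ → ℝ) (e : Sym2 ℕ) :
    ∑' j, ENNReal.ofReal (infl F y j e) = 1 := by
  have hs1 := summable_sq_Hs (Pr F y (dlt e))
  have hs2 := summable_sq_Hs (dlt e - Pr F y (dlt e))
  have hfun : (fun j => infl F y j e) =
      fun j => (Pr F y (dlt e)) j ^ 2 + (dlt e - Pr F y (dlt e)) j ^ 2 := by
    funext j; simp only [infl, Pe, lp.coeFn_sub, Pi.sub_apply, dlt_apply]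
  rw [← ENNReal.ofReal_tsum_of_nonneg (fun j => infl_nonneg F y j e)
    (by rw [hfun]; exact hs1.add hs2), hfun, hs1.tsum_add hs2, ← norm_sq_eq, ← norm_sq_eq,
    add_comm, pyth, ENNReal.ofReal_one]

theorem abs_one_sub_exp {B t : ℝ} (h : |t| ≤ 2 * B) :
    |1 - Real.exp (t / 2)| ≤ 1 + Real.exp B := by
  have := abs_sub (1 : ℝ) (Real.exp (t / 2))
  have := exp_bound h
  rw [abs_one] at *
  linarith

open scoped Classical in
/-- The Lipschitz estimate for the diagonal of the projection. -/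
theorem Pe_lipschitz (F : Set (Sym2 ℕ)) {y y' : Sym2 ℕ → ℝ} {B : ℝ}
    (hy : ∀ e, |y e| ≤ B) (hy' : ∀ e, |y' e| ≤ B) (e : Sym2 ℕ) :
    ENNReal.ofReal |Pe F y' e e - Pe F y e e| ≤
      ∑' j, if y j = y' j then 0 else
        ENNReal.ofReal (1 + Real.exp B) *
          (ENNReal.ofReal (infl F y j e) + ENNReal.ofReal (infl F y' j e)) := by
  have hb : ∀ j, |y' j - y j| ≤ 2 * B := fun j => by
    have := abs_sub (y' j) (y j); linarith [hy j, hy' j]
  have hb' : ∀ j, |y j - y' j| ≤ 2 * B := fun j => by rw [abs_sub_comm]; exact hb j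
  set p := Pr F y (dlt e) with hp
  set p' := Pr F y' (dlt e) with hp'
  set q := dlt e - p with hq
  set q' := dlt e - p' with hq'
  set M := mulB (fun j => Real.exp ((y' j - y j) / 2)) _ (fun j => exp_bound (hb j)) p
  set M' := mulB (fun j => Real.exp ((y j - y' j) / 2)) _ (fun j => exp_bound (hb' j)) p'
  have hM : ⟪q', M⟫ = 0 := Submodule.starProjection_inner_eq_zero _ _
    (scale_mem (fun j => exp_bound (hb j)) (Submodule.starProjection_apply_mem _ _))
  have hM' : ⟪q, M'⟫ = 0 := Submodule.starProjection_inner_eq_zero _ _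
    (scale_mem (fun j => exp_bound (hb' j)) (Submodule.starProjection_apply_mem _ _))
  have hid : Pe F y' e e - Pe F y e e = ⟪q, p'⟫ - ⟪q', p⟫ := by
    rw [Pe_diag_eq, Pe_diag_eq, ← hp, ← hp', hq, hq', inner_sub_left, inner_sub_left,
      real_inner_comm p p']
    ring
  have hsum : Pe F y' e e - Pe F y e e =
      ∑' j, (q j * p' j * (1 - Real.exp ((y j - y' j) / 2)) -
        q' j * p j * (1 - Real.exp ((y' j - y j) / 2))) := by
    have e1 : ⟪q, p'⟫ = ⟪q, p' - M'⟫ := by rw [inner_sub_right, hM', sub_zero]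
    have e2 : ⟪q', p⟫ = ⟪q', p - M⟫ := by rw [inner_sub_right, hM, sub_zero]
    rw [hid, e1, e2, inner_eq, inner_eq, ← (summable_mul_Hs _ _).tsum_sub (summable_mul_Hs _ _)]
    refine tsum_congr fun j => ?_
    simp only [M, M', lp.coeFn_sub, Pi.sub_apply, mulB_apply]
    ring
  set t : Sym2 ℕ → ℝ := fun j => q j * p' j * (1 - Real.exp ((y j - y' j) / 2)) -
    q' j * p j * (1 - Real.exp ((y' j - y j) / 2)) with ht
  have hsum' : Pe F y' e e - Pe F y e e = ∑' j, t j := hsum
  have hi : ∀ j, infl F y j e = p j ^ 2 + q j ^ 2 ∧ infl F y' j e = p' j ^ 2 + q' j ^ 2 := by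
    intro j
    simp only [hq, hq', hp, hp', infl, Pe, lp.coeFn_sub, Pi.sub_apply, dlt_apply, and_self]
  have hpt : ∀ j, |t j| ≤ if y j = y' j then 0 else
      (1 + Real.exp B) * (infl F y j e + infl F y' j e) := by
    intro j
    by_cases h : y j = y' j
    · simp [ht, h]
    · rw [if_neg h, (hi j).1, (hi j).2]
      have h1 := abs_one_sub_exp (hb' j)
      have h2 := abs_one_sub_exp (hb j)
      have hK : (0 : ℝ) ≤ 1 + Real.exp B := by positivity
      calc |t j| ≤ |q j * p' j| * (1 + Real.exp B) + |q' j * p j| * (1 + Real.exp B) := by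
            refine (abs_sub _ _).trans (add_le_add ?_ ?_)
            · rw [abs_mul]; exact mul_le_mul_of_nonneg_left h1 (abs_nonneg _)
            · rw [abs_mul]; exact mul_le_mul_of_nonneg_left h2 (abs_nonneg _)
        _ ≤ _ := by
            rw [← add_mul, mul_comm]
            refine mul_le_mul_of_nonneg_left ?_ hK
            have a1 : |q j * p' j| ≤ q j ^ 2 + p' j ^ 2 := by
              rw [abs_le]; constructor <;> nlinarith [sq_nonneg (q j - p' j), sq_nonneg (q j + p' j)]
            have a2 : |q' j * p j| ≤ q' j ^ 2 + p j ^ 2 := by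
              rw [abs_le]; constructor <;> nlinarith [sq_nonneg (q' j - p j), sq_nonneg (q' j + p j)]
            linarith
  have hsb : Summable fun j => if y j = y' j then (0 : ℝ) else
      (1 + Real.exp B) * (infl F y j e + infl F y' j e) := by
    refine Summable.of_nonneg_of_le (fun j => ?_) (fun j => ?_)
      ((((summable_sq_Hs p).add (summable_sq_Hs q)).add
        ((summable_sq_Hs p').add (summable_sq_Hs q'))).mul_left (1 + Real.exp B))
    · exact (abs_nonneg _).trans (hpt j)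
    · rw [(hi j).1, (hi j).2]
      split_ifs
      · positivity
      · rfl
  have hst : Summable fun j => |t j| :=
    Summable.of_nonneg_of_le (fun j => abs_nonneg _) hpt hsb
  calc ENNReal.ofReal |Pe F y' e e - Pe F y e e|
      ≤ ENNReal.ofReal (∑' j, if y j = y' j then (0 : ℝ) else
          (1 + Real.exp B) * (infl F y j e + infl F y' j e)) := by
        refine ENNReal.ofReal_le_ofReal ?_
        rw [hsum', ← Real.norm_eq_abs]
        refine (norm_tsum_le_tsum_norm (by simpa [Real.norm_eq_abs] using hst)).trans ?_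
        exact (by simpa [Real.norm_eq_abs] using hst : Summable fun j => ‖t j‖).tsum_le_tsum
          (fun j => by rw [Real.norm_eq_abs]; exact hpt j) hsb
    _ = _ := by
        rw [ENNReal.ofReal_tsum_of_nonneg (fun j => (abs_nonneg _).trans (hpt j)) hsb]
        refine tsum_congr fun j => ?_
        split_ifs
        · simp
        · rw [ENNReal.ofReal_mul (by positivity), ENNReal.ofReal_add (infl_nonneg _ _ _ _)
            (infl_nonneg _ _ _ _)]

end

end Vale.Agent.P143
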