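import Vale.Agent.P143.Contract

/-!
Seeds computed equivariantly from one uniform label per vertex.
-/

namespace Vale.Agent.P143

open Finset Filter Topology MeasureTheory ProbabilityTheory
open scoped ENNReal

noncomputable section

/-- The private seeds of a vertex. -/
abbrev Slots := ℕ × ℕ → ℝ × ℝ × ℝ

/-- The law of the private seeds. -/
def slotLaw : Measure Slots := Measure.infinitePi (fun _ : ℕ × ℕ => seed3)

instance : IsProbabilityMeasure slotLaw := by unfold slotLaw; infer_instance

theorem exists_lab :
    ∃ f : ℝ → ℝ × Slots, Measurable f ∧ unif.map f = unif.prod slotLaw := by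
  obtain ⟨f, hf, hfm⟩ := Measure.exists_measurable_map_eq (unif.prod slotLaw)
  have hproj : Measurable (Set.projIcc (0 : ℝ) 1 zero_le_one) := continuous_projIcc.measurable
  refine ⟨fun u => f (Set.projIcc 0 1 zero_le_one u), hf.comp hproj, ?_⟩
  have hcoe := unitInterval.measurePreserving_coe
  have h1 : unif.map (Set.projIcc (0 : ℝ) 1 zero_le_one) = (volume : Measure unitInterval) := by
    have h2 : unif = (volume : Measure unitInterval).map ((↑) : unitInterval → ℝ) := hcoe.map_eq.symm
    rw [h2, Measure.map_map hproj measurable_subtype_coe]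
    have : Set.projIcc (0 : ℝ) 1 zero_le_one ∘ ((↑) : unitInterval → ℝ) = id :=
      funext fun x => Set.projIcc_val zero_le_one x
    rw [this, Measure.map_id]
  rw [show (fun u => f (Set.projIcc 0 1 zero_le_one u)) = f ∘ Set.projIcc (0 : ℝ) 1 zero_le_one
    from rfl, ← Measure.map_map hf hproj, h1, hfm]

/-- A label split into an identifier and private seeds. -/
def lab : ℝ → ℝ × Slots := Classical.choose exists_lab

theorem measurable_lab : Measurable lab := (Classical.choose_spec exists_lab).1

theorem lab_law : unif.map lab = unif.prod slotLaw := (Classical.choose_spec exists_lab).2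

/-- The rank of `w` among the neighbours of `v` for the identifiers `ids`. -/
def rnk (a : Cfg) (ids : ℕ → ℝ) (v w : ℕ) : ℕ := ((nbrs a v).filter fun z => ids z < ids w).card

/-- The slot used by the directed pair `(u, v)`, owned by the larger identifier. -/
def pairSeed (a : Cfg) (ids : ℕ → ℝ) (sl : ℕ → Slots) (n : ℕ) (u v : ℕ) : ℝ × ℝ × ℝ :=
  if ids u < ids v then sl v (rnk a ids v u, n)
  else if ids v < ids u then sl u (rnk a ids u v, n) else (2, 0, 0)

theorem pairSeed_comm (a : Cfg) (ids : ℕ → ℝ) (sl : ℕ → Slots) (n u v : ℕ) :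
    pairSeed a ids sl n u v = pairSeed a ids sl n v u := by
  unfold pairSeed
  rcases lt_trichotomy (ids u) (ids v) with h | h | h
  · simp [h, h.not_gt]
  · simp [h]
  · simp [h, h.not_gt]

open scoped Classical in
/-- Seeds from identifiers and private seeds. -/
def seedsFrom (a : Cfg) (ids : ℕ → ℝ) (sl : ℕ → Slots) : Seeds := fun i =>
  if i.1 ∈ eset a then
    Sym2.lift ⟨pairSeed a ids sl i.2, pairSeed_comm a ids sl i.2⟩ i.1
  else (2, 0, 0)

/-- Seeds from vertex labels. -/
def seedsU (a : Cfg) (U : ℕ → ℝ) : Seeds :=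
  seedsFrom a (fun v => (lab (U v)).1) (fun v => (lab (U v)).2)

theorem seedsFrom_mk {a : Cfg} {u v : ℕ} (ids : ℕ → ℝ) (sl : ℕ → Slots) (n : ℕ)
    (h : s(u, v) ∈ eset a) : seedsFrom a ids sl (s(u, v), n) = pairSeed a ids sl n u v := by
  simp [seedsFrom, h]

theorem measurable_rnk (v w : ℕ) : Measurable fun p : Cfg × (ℕ → ℝ) => rnk p.1 p.2 v w := by
  refine measurable_of_code (fun a : Cfg => ballS a {v} 1) (ballS_fiber {v} 1)
    (fun (S : Finset ℕ) (ids : ℕ → ℝ) => ((S.erase v).filter fun z => ids z < ids w).card) fun S => ?_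
  simp only [Finset.card_filter]
  exact Finset.measurable_sum _ fun z _ =>
    Measurable.ite (measurableSet_lt (measurable_pi_apply z) (measurable_pi_apply w))
      measurable_const measurable_const

theorem measurable_slot_read (v w n : ℕ) :
    Measurable fun p : Cfg × (ℕ → ℝ) × (ℕ → Slots) => p.2.2 v (rnk p.1 p.2.1 v w, n) := by
  have h : Measurable fun q : ℕ × Slots => q.2 (q.1, n) :=
    measurable_from_prod_countable_right fun r => measurable_pi_apply (r, n)
  exact h.comp (((measurable_rnk v w).comp
    (measurable_fst.prodMk (measurable_fst.comp measurable_snd))).prodMk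
      ((measurable_pi_apply v).comp (measurable_snd.comp measurable_snd)))

theorem measurable_seedsFrom :
    Measurable fun p : Cfg × (ℕ → ℝ) × (ℕ → Slots) => seedsFrom p.1 p.2.1 p.2.2 := by
  classical
  refine measurable_pi_lambda _ fun i => ?_
  obtain ⟨e, n⟩ := i
  induction e using Sym2.ind with
  | h u v =>
    simp only [seedsFrom, Sym2.lift_mk, pairSeed]
    refine Measurable.ite (measurable_fst (measurable_coord s(u, v))) ?_ measurable_const
    exact Measurable.ite (measurableSet_lt (by fun_prop) (by fun_prop)) (measurable_slot_read v u n)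
      (Measurable.ite (measurableSet_lt (by fun_prop) (by fun_prop)) (measurable_slot_read u v n)
        measurable_const)

theorem measurable_seedsU : Measurable fun p : Cfg × (ℕ → ℝ) => seedsU p.1 p.2 := by
  have h : Measurable fun p : Cfg × (ℕ → ℝ) =>
      (p.1, (fun v => (lab (p.2 v)).1), fun v => (lab (p.2 v)).2) := by
    refine measurable_fst.prodMk (Measurable.prodMk ?_ ?_)
    · exact measurable_pi_lambda _ fun v =>
        measurable_fst.comp (measurable_lab.comp ((measurable_pi_apply v).comp measurable_snd))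
    · exact measurable_pi_lambda _ fun v =>
        measurable_snd.comp (measurable_lab.comp ((measurable_pi_apply v).comp measurable_snd))
  exact measurable_seedsFrom.comp h

theorem seedsU_relabel (φ : ℕ ≃ ℕ) (a : Cfg) (U : ℕ → ℝ) :
    seedsU (relabel φ a) (U ∘ φ.symm) = seedsU a U ∘ (iperm φ).symm := by
  classical
  funext i
  obtain ⟨⟨e, n⟩, rfl⟩ := (iperm φ).surjective i
  rw [Function.comp_apply, iperm_symm_apply, iperm_apply]
  induction e using Sym2.ind with
  | h u v =>
    have hr : ∀ x z, rnk (relabel φ a) (fun w => (lab (U (φ.symm w))).1) (φ x) (φ z) =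
        rnk a (fun w => (lab (U w)).1) x z := fun x z => by
      simp only [rnk, nbrs_relabel, Equiv.symm_apply_apply, Finset.filter_image,
        Finset.card_image_of_injective _ φ.injective]
    simp only [seedsU, seedsFrom, mem_eset_relabel, Function.comp_apply]
    simp only [eperm_mk, Sym2.lift_mk, pairSeed, hr, Equiv.symm_apply_apply]

theorem rnk_lt {a : Cfg} (ids : ℕ → ℝ) {v w w' : ℕ} (hw : w ∈ nbrs a v) (h : ids w < ids w') :
    rnk a ids v w < rnk a ids v w' := by
  refine Finset.card_lt_card (Finset.ssubset_iff_of_subset ?_ |>.2 ⟨w, ?_, ?_⟩)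
  · exact Finset.monotone_filter_right _ fun z _ hz => lt_trans hz h
  · simp [hw, h]
  · simp

/-- The slot read by an edge slot. -/
theorem seeds_index {a : Cfg} (ha : Good a) {ids : ℕ → ℝ} (hid : Function.Injective ids) :
    ∃ g : {i : Idx // i.1 ∈ eset a} → ℕ × ℕ × ℕ, Function.Injective g ∧
      ∀ (sl : ℕ → Slots) (i : {i : Idx // i.1 ∈ eset a}),
        seedsFrom a ids sl i.1 = sl (g i).1 (g i).2 := by
  classical
  have hex : ∀ i : {i : Idx // i.1 ∈ eset a}, ∃ u v, ids u < ids v ∧ i.1.1 = s(u, v) := by
    rintro ⟨⟨e, n⟩, he⟩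
    induction e using Sym2.ind with
    | h u v =>
      have hne : u ≠ v := fun h => he.1 (by simp [h])
      rcases lt_trichotomy (ids u) (ids v) with h | h | h
      · exact ⟨u, v, h, rfl⟩
      · exact absurd (hid h) hne
      · exact ⟨v, u, h, Sym2.eq_swap⟩
  choose lo hi hlt heq using hex
  refine ⟨fun i => (hi i, rnk a ids (hi i) (lo i), i.1.2), fun i j hij => ?_, fun sl i => ?_⟩
  · simp only [Prod.mk.injEq] at hij
    obtain ⟨h1, h2, h3⟩ := hij
    have hm : ∀ k, lo k ∈ nbrs a (hi k) := fun k => (mem_nbrs ha).2 (by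
      rw [Sym2.eq_swap, ← heq k]; exact k.2)
    have hlo : lo i = lo j := by
      rw [← h1] at h2
      rcases lt_trichotomy (ids (lo i)) (ids (lo j)) with h | h | h
      · exact absurd h2 (rnk_lt ids (hm i) h).ne
      · exact hid h
      · exact absurd h2 (rnk_lt ids (h1 ▸ hm j) h).ne'
    exact Subtype.ext (Prod.ext (by rw [heq i, heq j, h1, hlo]) h3)
  · have h := i.2
    rw [heq i] at h
    have : i.1 = (s(lo i, hi i), i.1.2) := Prod.ext (heq i) rfl
    rw [this, seedsFrom_mk ids sl _ h, pairSeed, if_pos (hlt i)]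

theorem seedsFrom_law {a : Cfg} (ha : Good a) {ids : ℕ → ℝ} (hid : Function.Injective ids) :
    (Measure.infinitePi fun _ : ℕ => slotLaw).map (seedsFrom a ids) = seedLaw a := by
  classical
  obtain ⟨g, hg, hgs⟩ := seeds_index ha hid
  have hm : Measurable (seedsFrom a ids) :=
    measurable_seedsFrom.comp ((measurable_const (a := a)).prodMk
      ((measurable_const (a := ids)).prodMk measurable_id))
  -- flatten the private seeds
  let flat : (ℕ → Slots) → (ℕ × ℕ × ℕ → ℝ × ℝ × ℝ) := fun sl p => sl p.1 p.2
  have hflat : (Measure.infinitePi fun _ : ℕ => slotLaw).map flat =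
      Measure.infinitePi (fun _ : ℕ × ℕ × ℕ => seed3) := by
    have := Measure.infinitePi_map_curry_symm (fun (_ : ℕ) (_ : ℕ × ℕ) => seed3)
    exact this
  let pick : (ℕ × ℕ × ℕ → ℝ × ℝ × ℝ) → ({i : Idx // i.1 ∈ eset a} → ℝ × ℝ × ℝ) :=
    fun w i => w (g i)
  let ext : ({i : Idx // i.1 ∈ eset a} → ℝ × ℝ × ℝ) → Seeds :=
    fun w i => if h : i.1 ∈ eset a then w ⟨i, h⟩ else (2, 0, 0)
  have hext : Measurable ext := measurable_pi_lambda _ fun i => by
    by_cases h : i.1 ∈ eset a
    · simp only [ext, dif_pos h]; exact measurable_pi_apply _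
    · simp only [ext, dif_neg h]; exact measurable_const
  have hcomp : seedsFrom a ids = ext ∘ pick ∘ flat := by
    funext sl i
    by_cases h : i.1 ∈ eset a
    · simp only [Function.comp_apply, ext, dif_pos h, pick, flat]
      exact hgs sl ⟨i, h⟩
    · simp [Function.comp_apply, ext, h, seedsFrom]
  have hpick : Measurable pick := measurable_pi_lambda _ fun i => measurable_pi_apply _
  have hflatm : Measurable flat := measurable_pi_lambda _ fun p =>
    (measurable_pi_apply p.2).comp (measurable_pi_apply p.1)
  rw [hcomp, ← Measure.map_map hext (hpick.comp hflatm), ← Measure.map_map hpick hflatm, hflat,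
    Measure.map_infinitePi_infinitePi_of_inj (P := fun _ : ℕ × ℕ × ℕ => seed3) hg]
  refine Measure.eq_infinitePi _ fun s t ht => ?_
  rw [Measure.map_apply hext (MeasurableSet.pi s.countable_toSet fun i _ => ht i)]
  by_cases h0 : ∀ i ∈ s, i.1 ∉ eset a → ((2, 0, 0) : ℝ × ℝ × ℝ) ∈ t i
  swap
  · push Not at h0
    obtain ⟨i, his, hie, hit⟩ := h0
    rw [Finset.prod_eq_zero his (by
      rw [if_neg hie, Measure.dirac_apply' _ (ht i), Set.indicator_of_notMem hit])]
    refine measure_mono_null (t := ∅) (fun w hw => ?_) measure_empty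
    exact hit (by simpa [ext, hie] using hw i his)
  have hpre : ext ⁻¹' (s : Set Idx).pi t =
      (↑(s.subtype (fun i : Idx => i.1 ∈ eset a)) : Set {i : Idx // i.1 ∈ eset a}).pi
        fun i => t i.1 := by
    ext w
    simp only [Set.mem_preimage, Set.mem_pi, Finset.mem_coe, Finset.mem_subtype]
    constructor
    · intro h i hi; simpa [ext, i.2] using h i.1 hi
    · intro h i hi
      by_cases he : i.1 ∈ eset a
      · simpa [ext, he] using h ⟨i, he⟩ hi
      · simpa [ext, he] using h0 i hi he
  rw [hpre, Measure.infinitePi_pi _ fun i _ => ht i.1,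
    ← Finset.prod_filter_mul_prod_filter_not s (fun i : Idx => i.1 ∈ eset a),
    Finset.prod_eq_one (s := s.filter fun i : Idx => ¬ i.1 ∈ eset a) fun i hi => by
      rw [if_neg (Finset.mem_filter.1 hi).2,
        Measure.dirac_apply_of_mem (h0 i (Finset.mem_filter.1 hi).1 (Finset.mem_filter.1 hi).2)],
    mul_one, ← Finset.subtype_map (fun i : Idx => i.1 ∈ eset a), Finset.prod_map]
  refine Finset.prod_congr rfl fun i _ => ?_
  rw [Function.Embedding.coe_subtype, if_pos i.2]

theorem ids_injective_ae :
    ∀ᵐ ids ∂Measure.infinitePi (fun _ : ℕ => unif), Function.Injective ids := by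
  have h : ∀ p : ℕ × ℕ, ∀ᵐ ids ∂Measure.infinitePi (fun _ : ℕ => unif),
      p.1 ≠ p.2 → ids p.1 ≠ ids p.2 := by
    rintro ⟨u, v⟩
    by_cases huv : u = v
    · exact ae_of_all _ fun ids h => absurd huv h
    have hd : MeasurableSet {z : ℝ × ℝ | z.1 = z.2} := measurableSet_eq_fun measurable_fst measurable_snd
    have h0 : (unif.prod unif) {z : ℝ × ℝ | z.1 = z.2} = 0 := by
      rw [Measure.prod_apply hd]
      have : ∀ x : ℝ, unif (Prod.mk x ⁻¹' {z : ℝ × ℝ | z.1 = z.2}) = 0 := fun x => by
        rw [show Prod.mk x ⁻¹' {z : ℝ × ℝ | z.1 = z.2} = {x} by ext; simp [eq_comm]]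
        exact unif_singleton x
      simp [unif_singleton]
    have hmap := Measure.infinitePi_map_eval_prod (P := fun _ : ℕ => unif) huv
    rw [← hmap, Measure.map_apply (by fun_prop) hd] at h0
    rw [ae_iff]
    refine measure_mono_null (fun ids hids => ?_) h0
    simp only [Set.mem_ofPred_eq, Classical.not_imp, not_not] at hids
    exact hids.2
  filter_upwards [ae_all_iff.2 h] with ids hids u v huv
  by_contra hne
  exact hids (u, v) hne huv

/-- The seeds computed from vertex labels have the product law. -/
theorem seedsU_law {a : Cfg} (ha : Good a) : (iidUnif ℕ).map (seedsU a) = seedLaw a := by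
  classical
  set μi := Measure.infinitePi (fun _ : ℕ => unif)
  set μs := Measure.infinitePi (fun _ : ℕ => slotLaw)
  let G : (ℕ → ℝ) × (ℕ → Slots) → Seeds := fun p => seedsFrom a p.1 p.2
  have hG : Measurable G := measurable_seedsFrom.comp ((measurable_const (a := a)).prodMk measurable_id)
  let zp : (ℕ → ℝ × Slots) → (ℕ → ℝ) × (ℕ → Slots) := fun w => (fun v => (w v).1, fun v => (w v).2)
  have hzp : Measurable zp :=
    (measurable_pi_lambda _ fun v => measurable_fst.comp (measurable_pi_apply v)).prodMk
      (measurable_pi_lambda _ fun v => measurable_snd.comp (measurable_pi_apply v))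
  have hlaw : ((iidUnif ℕ).map fun U v => lab (U v)).map zp = μi.prod μs := by
    rw [iidUnif, Measure.infinitePi_map_pi _ fun _ => measurable_lab]
    simp only [lab_law]
    rw [← infinitePi_split unif slotLaw, Measure.map_map hzp (by fun_prop)]
    have : zp ∘ (fun p : (ℕ → ℝ) × (ℕ → Slots) => fun i => (p.1 i, p.2 i)) = id := rfl
    rw [this, Measure.map_id]
  have hlabm : Measurable fun (U : ℕ → ℝ) (v : ℕ) => lab (U v) :=
    measurable_pi_lambda _ fun v => measurable_lab.comp (measurable_pi_apply v)
  have hcomp : seedsU a = G ∘ zp ∘ fun U v => lab (U v) := rfl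
  rw [hcomp, ← Measure.map_map hG (hzp.comp hlabm), ← Measure.map_map hzp hlabm, hlaw]
  refine Measure.ext fun S hS => ?_
  rw [Measure.map_apply hG hS, Measure.prod_apply (hG hS)]
  have : ∀ᵐ ids ∂μi, μs (Prod.mk ids ⁻¹' (G ⁻¹' S)) = seedLaw a S := by
    filter_upwards [ids_injective_ae] with ids hid
    rw [← seedsFrom_law ha hid,
      Measure.map_apply (show Measurable (seedsFrom a ids) from hG.comp measurable_prodMk_left) hS]
    rfl
  rw [lintegral_congr_ae this]
  simp

end

end Vale.Agent.P143
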