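import Vale.Agent.P143.Defs

/-!
The transfer-current formula of a finite weighted graph, proved by exchanging edges.
-/

namespace Vale.Agent.P143

open Finset

noncomputable section

/-- The increment of a potential along an edge, oriented upwards. -/
def grd (f : ℕ → ℝ) (e : Sym2 ℕ) : ℝ := f e.sup - f e.inf

theorem grd_mk (f : ℕ → ℝ) (u v : ℕ) :
    grd f s(u, v) = f (max u v) - f (min u v) := by
  simp [grd, Sym2.sup_mk, Sym2.inf_mk]

theorem grd_eq_zero_iff (f : ℕ → ℝ) (u v : ℕ) : grd f s(u, v) = 0 ↔ f u = f v := by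
  rw [grd_mk]
  rcases le_total u v with h | h
  · rw [max_eq_right h, min_eq_left h, sub_eq_zero]; exact eq_comm
  · rw [max_eq_left h, min_eq_right h, sub_eq_zero]

theorem grd_smul_add (f h : ℕ → ℝ) (c : ℝ) (e : Sym2 ℕ) :
    grd (fun v => f v + c * h v) e = grd f e + c * grd h e := by
  simp [grd]; ring

theorem grd_sum {ι : Type*} (s : Finset ι) (f : ι → ℕ → ℝ) (c : ι → ℝ) (e : Sym2 ℕ) :
    grd (fun v => ∑ i ∈ s, c i * f i v) e = ∑ i ∈ s, c i * grd (f i) e := by
  simp only [grd, mul_sub, Finset.sum_sub_distrib]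

theorem sup_mem_sym2 (e : Sym2 ℕ) : e.sup ∈ e ∧ e.inf ∈ e := by
  induction e using Sym2.ind with
  | h u v => rcases le_total u v with h | h <;> simp [h]

/-- `T` is a spanning tree on the vertex set `S`. -/
def IsT (S : Finset ℕ) (T : Finset (Sym2 ℕ)) : Prop :=
  (∀ e ∈ T, ¬ e.IsDiag ∧ ∀ v ∈ e, v ∈ S) ∧
    ((SimpleGraph.fromEdgeSet (T : Set (Sym2 ℕ))).induce (S : Set ℕ)).IsTree

theorem card_edges {S : Finset ℕ} {T : Finset (Sym2 ℕ)}
    (hT : ∀ e ∈ T, ¬ e.IsDiag ∧ ∀ v ∈ e, v ∈ S) :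
    Nat.card ((SimpleGraph.fromEdgeSet (T : Set (Sym2 ℕ))).induce (S : Set ℕ)).edgeSet
      = T.card := by
  set K := (SimpleGraph.fromEdgeSet (T : Set (Sym2 ℕ))).induce (S : Set ℕ) with hK
  have hinj : Function.Injective (Sym2.map (fun z : {x // x ∈ (S : Set ℕ)} => z.1)) :=
    Sym2.map.injective Subtype.val_injective
  have himg : Sym2.map (fun z : {x // x ∈ (S : Set ℕ)} => z.1) '' K.edgeSet = (T : Set (Sym2 ℕ)) := by
    ext e
    induction e using Sym2.ind with
    | h u v =>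
      constructor
      · rintro ⟨e', he', heq⟩
        induction e' using Sym2.ind with
        | h a b =>
          rw [Sym2.map_mk] at heq
          rw [← heq]
          simp only [hK, SimpleGraph.mem_edgeSet, SimpleGraph.induce, SimpleGraph.comap_adj,
            SimpleGraph.fromEdgeSet_adj] at he'
          exact he'.1
      · intro he
        obtain ⟨hd, hmem⟩ := hT _ he
        refine ⟨s(⟨u, hmem u (by simp)⟩, ⟨v, hmem v (by simp)⟩), ?_, by simp⟩
        simp only [hK, SimpleGraph.mem_edgeSet, SimpleGraph.induce, SimpleGraph.comap_adj,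
          SimpleGraph.fromEdgeSet_adj]
        exact ⟨he, by simpa using hd⟩
  rw [Nat.card_coe_set_eq, ← Set.ncard_image_of_injective _ hinj, himg, Set.ncard_coe_finset]

/-- The linear algebra characterisation of spanning trees. -/
theorem isT_iff {S : Finset ℕ} {T : Finset (Sym2 ℕ)} :
    IsT S T ↔ (∀ e ∈ T, ¬ e.IsDiag ∧ ∀ v ∈ e, v ∈ S) ∧ S.Nonempty ∧ T.card + 1 = S.card ∧
      ∀ f : ℕ → ℝ, (∀ e ∈ T, grd f e = 0) → ∀ u ∈ S, ∀ v ∈ S, f u = f v := by
  classical
  unfold IsT
  refine and_congr_right fun hT => ?_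
  rw [SimpleGraph.isTree_iff_connected_and_card]
  have hc : Nat.card ((SimpleGraph.fromEdgeSet (T : Set (Sym2 ℕ))).induce (S : Set ℕ)).edgeSet
      = T.card := card_edges hT
  rw [hc, Nat.card_coe_set_eq, Set.ncard_coe_finset]
  set K := (SimpleGraph.fromEdgeSet (T : Set (Sym2 ℕ))).induce (S : Set ℕ) with hK
  constructor
  · rintro ⟨hconn, hcard⟩
    refine ⟨?_, hcard, fun f hf u hu v hv => ?_⟩
    · obtain ⟨⟨x, hx⟩⟩ := hconn.nonempty
      exact ⟨x, hx⟩
    · obtain ⟨w⟩ := hconn.preconnected ⟨u, hu⟩ ⟨v, hv⟩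
      have : ∀ (a b : (S : Set ℕ)), K.Walk a b → f a = f b := by
        intro a b p
        induction p with
        | nil => rfl
        | cons hadj p ih =>
          simp only [hK, SimpleGraph.induce, SimpleGraph.comap_adj,
            SimpleGraph.fromEdgeSet_adj] at hadj
          exact ((grd_eq_zero_iff f _ _).1 (hf _ hadj.1)).trans ih
      exact this _ _ w
  · rintro ⟨hne, hcard, hconst⟩
    refine ⟨?_, hcard⟩
    obtain ⟨r, hr⟩ := hne
    rw [SimpleGraph.connected_iff_exists_forall_reachable]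
    refine ⟨⟨r, hr⟩, ?_⟩
    let f : ℕ → ℝ := fun x => if h : x ∈ S then (if K.Reachable ⟨r, hr⟩ ⟨x, h⟩ then 1 else 0) else 0
    have hf : ∀ e ∈ T, grd f e = 0 := by
      intro e he
      induction e using Sym2.ind with
      | h u v =>
        obtain ⟨hd, hmem⟩ := hT _ he
        have hu : u ∈ S := hmem u (by simp)
        have hv : v ∈ S := hmem v (by simp)
        have hadj : K.Adj ⟨u, hu⟩ ⟨v, hv⟩ := by
          simp only [hK, SimpleGraph.induce, SimpleGraph.comap_adj, SimpleGraph.fromEdgeSet_adj]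
          exact ⟨he, by simpa using hd⟩
        rw [grd_eq_zero_iff]
        simp only [f, dif_pos hu, dif_pos hv]
        have : K.Reachable ⟨r, hr⟩ ⟨u, hu⟩ ↔ K.Reachable ⟨r, hr⟩ ⟨v, hv⟩ :=
          ⟨fun h => h.trans hadj.reachable, fun h => h.trans hadj.symm.reachable⟩
        simp only [this]
    rintro ⟨x, hx⟩
    have hxS : x ∈ S := hx
    have := hconst f hf r hr x hxS
    by_contra hno
    simp only [f, dif_pos hr, dif_pos hxS, SimpleGraph.Reachable.refl, if_true, hno,
      if_false] at this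
    exact one_ne_zero this

theorem IsT.const {S : Finset ℕ} {T : Finset (Sym2 ℕ)} (h : IsT S T) {f : ℕ → ℝ}
    (hf : ∀ e ∈ T, grd f e = 0) {u v : ℕ} (hu : u ∈ S) (hv : v ∈ S) : f u = f v :=
  (isT_iff.1 h).2.2.2 f hf u hu v hv

theorem IsT.grd_eq_zero {S : Finset ℕ} {T : Finset (Sym2 ℕ)} (h : IsT S T) {f : ℕ → ℝ}
    (hf : ∀ e ∈ T, grd f e = 0) {e : Sym2 ℕ} (he : ∀ v ∈ e, v ∈ S) : grd f e = 0 :=
  sub_eq_zero.2 (h.const hf (he _ (sup_mem_sym2 e).1) (he _ (sup_mem_sym2 e).2))

theorem IsT.surj {S : Finset ℕ} {T : Finset (Sym2 ℕ)} (h : IsT S T) (b : Sym2 ℕ → ℝ) :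
    ∃ f : ℕ → ℝ, ∀ e ∈ T, grd f e = b e := by
  classical
  obtain ⟨hT, hne, hcard, -⟩ := isT_iff.1 h
  obtain ⟨r, hr⟩ := hne
  let ext : (S → ℝ) → ℕ → ℝ := fun g x => if hx : x ∈ S then g ⟨x, hx⟩ else 0
  let L : (S → ℝ) →ₗ[ℝ] ((T → ℝ) × ℝ) :=
    { toFun := fun g => (fun e => grd (ext g) e.1, g ⟨r, hr⟩)
      map_add' := fun g g' => by
        refine Prod.ext (funext fun e => ?_) rfl
        obtain ⟨-, hm⟩ := hT _ e.2
        simp only [ext, grd, Pi.add_apply, dif_pos (hm _ (sup_mem_sym2 e.1).1),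
          dif_pos (hm _ (sup_mem_sym2 e.1).2), Prod.mk_add_mk]
        ring
      map_smul' := fun c g => by
        refine Prod.ext (funext fun e => ?_) rfl
        obtain ⟨-, hm⟩ := hT _ e.2
        simp only [ext, grd, Pi.smul_apply, dif_pos (hm _ (sup_mem_sym2 e.1).1),
          dif_pos (hm _ (sup_mem_sym2 e.1).2), Prod.smul_mk, smul_eq_mul, RingHom.id_apply]
        ring }
  have hinj : Function.Injective L := by
    rw [← LinearMap.ker_eq_bot, LinearMap.ker_eq_bot']
    intro g hg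
    have h1 : ∀ e ∈ T, grd (ext g) e = 0 := fun e he => congrFun (congrArg Prod.fst hg) ⟨e, he⟩
    have h2 : g ⟨r, hr⟩ = 0 := congrArg Prod.snd hg
    funext x
    have := h.const h1 x.2 hr
    simp only [ext, dif_pos x.2, dif_pos hr] at this
    exact this.trans h2
  have hdim : Module.finrank ℝ (S → ℝ) = Module.finrank ℝ ((T → ℝ) × ℝ) := by
    simp [Module.finrank_prod, hcard]
  obtain ⟨g, hg⟩ := (LinearMap.injective_iff_surjective_of_finrank_eq_finrank hdim).1 hinj
    (fun e => b e.1, 0)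
  exact ⟨ext g, fun e he => congrFun (congrArg Prod.fst hg) ⟨e, he⟩⟩

open scoped Classical in
/-- The potential whose increment on `T` is the indicator of `g`. -/
def pot (S : Finset ℕ) (T : Finset (Sym2 ℕ)) (g : Sym2 ℕ) : ℕ → ℝ :=
  if h : IsT S T then Classical.choose (h.surj (fun e => if e = g then 1 else 0)) else fun _ => 0

open scoped Classical in
theorem pot_spec {S : Finset ℕ} {T : Finset (Sym2 ℕ)} (h : IsT S T) (g : Sym2 ℕ) :
    ∀ e ∈ T, grd (pot S T g) e = if e = g then 1 else 0 := by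
  unfold pot
  rw [dif_pos h]
  exact Classical.choose_spec (h.surj (fun e => if e = g then (1 : ℝ) else 0))

/-- The flow coefficient of the edge `g` of `T` seen by the edge `e`. -/
def coef (S : Finset ℕ) (T : Finset (Sym2 ℕ)) (e g : Sym2 ℕ) : ℝ := grd (pot S T g) e

theorem coef_eq {S : Finset ℕ} {T : Finset (Sym2 ℕ)} (h : IsT S T) {g e : Sym2 ℕ} {f : ℕ → ℝ}
    (hf : ∀ e' ∈ T, grd f e' = if e' = g then 1 else 0) (he : ∀ v ∈ e, v ∈ S) :
    coef S T e g = grd f e := by
  have h0 : ∀ e' ∈ T, grd (fun v => pot S T g v + (-1) * f v) e' = 0 := fun e' he' => by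
    rw [grd_smul_add, pot_spec h g e' he', hf e' he']
    split_ifs <;> ring
  have := h.grd_eq_zero h0 he
  rw [grd_smul_add] at this
  unfold coef; linarith

theorem coef_of_mem {S : Finset ℕ} {T : Finset (Sym2 ℕ)} (h : IsT S T) {g e : Sym2 ℕ}
    (he : e ∈ T) : coef S T e g = if e = g then 1 else 0 := pot_spec h g e he

/-- A gradient is determined by its values on a spanning tree. -/
theorem grd_expand {S : Finset ℕ} {T : Finset (Sym2 ℕ)} (h : IsT S T) (f : ℕ → ℝ) {e : Sym2 ℕ}
    (he : ∀ v ∈ e, v ∈ S) : grd f e = ∑ g ∈ T, grd f g * coef S T e g := by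
  classical
  have h0 : ∀ e' ∈ T,
      grd (fun v => f v + (-1) * ∑ g ∈ T, grd f g * pot S T g v) e' = 0 := fun e' he' => by
    rw [grd_smul_add, grd_sum, Finset.sum_congr rfl fun g _ => by rw [pot_spec h g e' he']]
    simp [Finset.sum_ite_eq, he']
  have := h.grd_eq_zero h0 he
  rw [grd_smul_add, grd_sum] at this
  unfold coef; linarith

theorem pot_two_values {S : Finset ℕ} {T : Finset (Sym2 ℕ)} (h : IsT S T) {g : Sym2 ℕ}
    (hg : g ∈ T) {v : ℕ} (hv : v ∈ S) :
    pot S T g v = pot S T g g.sup ∨ pot S T g v = pot S T g g.inf := by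
  classical
  by_contra hc
  push Not at hc
  have hc1 := hc.1
  have hc2 := hc.2
  let k : ℕ → ℝ := fun x => if pot S T g x = pot S T g v then 1 else 0
  have hk : ∀ e ∈ T, grd k e = 0 := by
    intro e he
    by_cases heg : e = g
    · subst heg
      simp [grd, k, hc1.symm, hc2.symm]
    · have := pot_spec h g e he
      rw [if_neg heg] at this
      have : pot S T g e.sup = pot S T g e.inf := sub_eq_zero.1 this
      simp [grd, k, this]
  have hsup : g.sup ∈ S := (isT_iff.1 h).1 g hg |>.2 _ (sup_mem_sym2 g).1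
  have := h.const hk hv hsup
  simp [k, hc1.symm] at this

theorem coef_sq {S : Finset ℕ} {T : Finset (Sym2 ℕ)} (h : IsT S T) {g e : Sym2 ℕ}
    (hg : g ∈ T) (he : ∀ v ∈ e, v ∈ S) (h0 : coef S T e g ≠ 0) :
    coef S T e g * coef S T e g = 1 := by
  have h1 := pot_two_values h hg (he _ (sup_mem_sym2 e).1)
  have h2 := pot_two_values h hg (he _ (sup_mem_sym2 e).2)
  have hd : pot S T g g.sup - pot S T g g.inf = 1 := by
    have := pot_spec h g g hg
    simpa [grd] using this
  unfold coef grd at h0 ⊢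
  rcases h1 with h1 | h1 <;> rcases h2 with h2 | h2 <;> rw [h1, h2] at h0 ⊢
  · simp at h0
  · rw [hd]; norm_num
  · rw [show pot S T g g.inf - pot S T g g.sup = -1 by linarith]; norm_num
  · simp at h0

/-- Exchange of edges. -/
theorem swap_tree {S : Finset ℕ} {T : Finset (Sym2 ℕ)} (h : IsT S T) {g e : Sym2 ℕ}
    (hg : g ∈ T) (he : e ∉ T) (hd : ¬ e.IsDiag) (heS : ∀ v ∈ e, v ∈ S)
    (h0 : coef S T e g ≠ 0) :
    IsT S (insert e (T.erase g)) ∧
      coef S (insert e (T.erase g)) g e = coef S T e g := by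
  classical
  obtain ⟨hT, hne, hcard, -⟩ := isT_iff.1 h
  have hsq := coef_sq h hg heS h0
  have hgS := (hT g hg).2
  have hnew : IsT S (insert e (T.erase g)) := by
    rw [isT_iff]
    refine ⟨?_, hne, ?_, fun k hk u hu v hv => ?_⟩
    · intro x hx
      rcases Finset.mem_insert.1 hx with rfl | hx
      · exact ⟨hd, heS⟩
      · exact hT x (Finset.mem_of_mem_erase hx)
    · rw [Finset.card_insert_of_notMem (fun hx => he (Finset.mem_of_mem_erase hx)),
        Finset.card_erase_of_mem hg]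
      have : 1 ≤ T.card := Finset.card_pos.2 ⟨g, hg⟩
      omega
    · have h0' : ∀ e' ∈ T, grd (fun x => k x + (-grd k g) * pot S T g x) e' = 0 := by
        intro e' he'
        rw [grd_smul_add, pot_spec h g e' he']
        by_cases heg : e' = g
        · subst heg; simp
        · rw [if_neg heg, hk e' (Finset.mem_insert_of_mem (Finset.mem_erase.2 ⟨heg, he'⟩))]
          simp
      have hee := h.grd_eq_zero h0' heS
      rw [grd_smul_add, hk e (Finset.mem_insert_self _ _)] at hee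
      have hg0 : grd k g = 0 := by
        have : grd k g * coef S T e g = 0 := by unfold coef; linarith
        exact (mul_eq_zero.1 this).resolve_right h0
      have := h.const h0' hu hv
      simpa [hg0] using this
  refine ⟨hnew, ?_⟩
  have hf : ∀ e' ∈ insert e (T.erase g),
      grd (fun x => 0 + coef S T e g * pot S T g x) e' = if e' = e then 1 else 0 := by
    intro e' he'
    rw [grd_smul_add (fun _ => (0:ℝ))]
    rcases Finset.mem_insert.1 he' with rfl | he'
    · simp only [grd, sub_self, zero_add, if_true]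
      exact hsq
    · obtain ⟨hne', he''⟩ := Finset.mem_erase.1 he'
      rw [pot_spec h g e' he'', if_neg hne', if_neg (fun hh : e' = e => he (hh ▸ he''))]
      simp [grd]
  rw [coef_eq hnew hf hgS, grd_smul_add (fun _ => (0:ℝ)), pot_spec h g g hg, if_pos rfl]
  simp [grd]

open scoped Classical in
/-- The spanning trees of the finite graph with vertices `S` and edges `F`. -/
def trees (S : Finset ℕ) (F : Finset (Sym2 ℕ)) : Finset (Finset (Sym2 ℕ)) :=
  F.powerset.filter (IsT S)

theorem mem_trees {S : Finset ℕ} {F T : Finset (Sym2 ℕ)} :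
    T ∈ trees S F ↔ T ⊆ F ∧ IsT S T := by simp [trees]

/-- The weight of a tree for log-conductances `y`. -/
def wt (y : Sym2 ℕ → ℝ) (T : Finset (Sym2 ℕ)) : ℝ := Real.exp (∑ e ∈ T, y e)

theorem wt_pos (y : Sym2 ℕ → ℝ) (T : Finset (Sym2 ℕ)) : 0 < wt y T := Real.exp_pos _

/-- The partition function. -/
def Zf (S : Finset ℕ) (F : Finset (Sym2 ℕ)) (y : Sym2 ℕ → ℝ) : ℝ := ∑ T ∈ trees S F, wt y T

open scoped Classical in
/-- The transfer current from `g` to `e`. -/
def curr (S : Finset ℕ) (F : Finset (Sym2 ℕ)) (y : Sym2 ℕ → ℝ) (e g : Sym2 ℕ) : ℝ :=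
  (∑ T ∈ trees S F, if g ∈ T then wt y T * coef S T e g else 0) / Zf S F y

theorem Zf_pos {S : Finset ℕ} {F : Finset (Sym2 ℕ)} (y : Sym2 ℕ → ℝ)
    (hne : (trees S F).Nonempty) : 0 < Zf S F y :=
  Finset.sum_pos (fun T _ => wt_pos y T) hne

open scoped Classical in
theorem curr_self (S : Finset ℕ) (F : Finset (Sym2 ℕ)) (y : Sym2 ℕ → ℝ) (g : Sym2 ℕ) :
    curr S F y g g = (∑ T ∈ (trees S F).filter (g ∈ ·), wt y T) / Zf S F y := by
  unfold curr
  rw [Finset.sum_filter]
  congr 1
  refine Finset.sum_congr rfl fun T hT => ?_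
  split_ifs with hg
  · rw [coef_of_mem (mem_trees.1 hT).2 hg, if_pos rfl, mul_one]
  · rfl

open scoped Classical in
/-- The transfer current is a gradient in its first variable. -/
theorem curr_grd (S : Finset ℕ) (F : Finset (Sym2 ℕ)) (y : Sym2 ℕ → ℝ) (g : Sym2 ℕ) :
    ∃ f : ℕ → ℝ, ∀ e, curr S F y e g = grd f e := by
  refine ⟨fun v => ∑ T ∈ trees S F,
    (if g ∈ T then wt y T else 0) / Zf S F y * pot S T g v, fun e => ?_⟩
  rw [grd_sum, curr, Finset.sum_div]
  refine Finset.sum_congr rfl fun T _ => ?_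
  unfold coef
  split_ifs <;> ring

/-- The exchange identity behind Kirchhoff's theorem. -/
theorem exchange_sum {S : Finset ℕ} {F : Finset (Sym2 ℕ)}
    (hF : ∀ e ∈ F, ¬ e.IsDiag ∧ ∀ v ∈ e, v ∈ S) (y x γ : Sym2 ℕ → ℝ) :
    ∑ p ∈ (trees S F ×ˢ (F ×ˢ F)).filter
        (fun p => p.2.1 ∉ p.1 ∧ p.2.2 ∈ p.1 ∧ coef S p.1 p.2.1 p.2.2 ≠ 0),
      Real.exp (y p.2.1) * wt y p.1 * coef S p.1 p.2.1 p.2.2 *
        (x p.2.1 * γ p.2.2 - x p.2.2 * γ p.2.1) = 0 := by
  classical
  set s := (trees S F ×ˢ (F ×ˢ F)).filter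
    (fun p => p.2.1 ∉ p.1 ∧ p.2.2 ∈ p.1 ∧ coef S p.1 p.2.1 p.2.2 ≠ 0) with hs
  set t : Finset (Sym2 ℕ) × Sym2 ℕ × Sym2 ℕ → ℝ := fun p =>
    Real.exp (y p.2.1) * wt y p.1 * coef S p.1 p.2.1 p.2.2 *
      (x p.2.1 * γ p.2.2 - x p.2.2 * γ p.2.1) with ht
  let ι : Finset (Sym2 ℕ) × Sym2 ℕ × Sym2 ℕ → Finset (Sym2 ℕ) × Sym2 ℕ × Sym2 ℕ :=
    fun p => (insert p.2.1 (p.1.erase p.2.2), p.2.2, p.2.1)
  have key : ∀ p ∈ s, ι p ∈ s ∧ ι (ι p) = p ∧ t (ι p) = - t p := by
    rintro ⟨T, e, g⟩ hp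
    simp only [hs, Finset.mem_filter, Finset.mem_product, mem_trees] at hp
    obtain ⟨⟨⟨hTF, hT⟩, heF, hgF⟩, he, hg, h0⟩ := hp
    have heg : e ≠ g := fun h => he (h ▸ hg)
    obtain ⟨hnew, hco⟩ := swap_tree hT hg he (hF e heF).1 (hF e heF).2 h0
    refine ⟨?_, ?_, ?_⟩
    · simp only [hs, ι, Finset.mem_filter, Finset.mem_product, mem_trees]
      refine ⟨⟨⟨?_, hnew⟩, hgF, heF⟩, ?_, Finset.mem_insert_self _ _, by rw [hco]; exact h0⟩
      · exact Finset.insert_subset heF ((Finset.erase_subset _ _).trans hTF)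
      · simp [Finset.mem_insert, heg.symm]
    · simp only [ι]
      refine Prod.ext ?_ rfl
      simp only [Finset.erase_insert (fun hx => he (Finset.mem_of_mem_erase hx))]
      exact Finset.insert_erase hg
    · simp only [ht, ι, wt]
      rw [hco, Finset.sum_insert (fun hx => he (Finset.mem_of_mem_erase hx))]
      have hsum : ∑ e' ∈ T, y e' = y g + ∑ e' ∈ T.erase g, y e' :=
        (Finset.add_sum_erase T y hg).symm
      rw [hsum]
      simp only [Real.exp_add]
      ring
  have h2 : ∑ p ∈ s, t p = ∑ p ∈ s, t (ι p) :=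
    Finset.sum_nbij' ι ι (fun p hp => (key p hp).1) (fun p hp => (key p hp).1)
      (fun p hp => (key p hp).2.1) (fun p hp => (key p hp).2.1)
      (fun p hp => by rw [(key p hp).2.1])
  have h3 : ∑ p ∈ s, t (ι p) = - ∑ p ∈ s, t p := by
    rw [← Finset.sum_neg_distrib]; exact Finset.sum_congr rfl fun p hp => (key p hp).2.2
  linarith

open scoped Classical in
/-- Kirchhoff: `δ_g` minus its transfer current is orthogonal to all gradients. -/
theorem curr_orth {S : Finset ℕ} {F : Finset (Sym2 ℕ)}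
    (hF : ∀ e ∈ F, ¬ e.IsDiag ∧ ∀ v ∈ e, v ∈ S) (hne : (trees S F).Nonempty)
    (y : Sym2 ℕ → ℝ) {g : Sym2 ℕ} (_hg : g ∈ F) (h : ℕ → ℝ) :
    ∑ e ∈ F, Real.exp (y e) * ((if e = g then 1 else 0) - curr S F y e g) * grd h e = 0 := by
  set x : Sym2 ℕ → ℝ := fun e => if e = g then 1 else 0 with hx
  set γ := grd h with hγ
  have hsum := exchange_sum hF y x γ
  rw [Finset.sum_filter, Finset.sum_product] at hsum
  have hT : ∀ T ∈ trees S F, ∀ e ∈ F,
      Real.exp (y e) * wt y T * (x e - ∑ g' ∈ T, x g' * coef S T e g') * γ e =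
      ∑ g' ∈ F, if e ∉ T ∧ g' ∈ T ∧ coef S T e g' ≠ 0 then
        Real.exp (y e) * wt y T * coef S T e g' * (x e * γ g' - x g' * γ e) else 0 := by
    intro T hT e he
    obtain ⟨hTF, hT⟩ := mem_trees.1 hT
    by_cases heT : e ∈ T
    · have : ∑ g' ∈ T, x g' * coef S T e g' = x e := by
        rw [Finset.sum_congr rfl fun g' _ => by rw [coef_of_mem hT heT]]
        simp [heT]
      rw [this, Finset.sum_eq_zero fun g' _ => by simp [heT]]
      ring
    · have hexp : γ e = ∑ g' ∈ T, γ g' * coef S T e g' := grd_expand hT h (hF e he).2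
      have e1 : ∀ g' ∈ F, (if e ∉ T ∧ g' ∈ T ∧ coef S T e g' ≠ 0 then
          Real.exp (y e) * wt y T * coef S T e g' * (x e * γ g' - x g' * γ e) else 0) =
          (if g' ∈ T then
            Real.exp (y e) * wt y T * coef S T e g' * (x e * γ g' - x g' * γ e) else 0) := by
        intro g' _
        by_cases hg' : g' ∈ T <;> by_cases hc : coef S T e g' = 0 <;> simp [heT, hg', hc]
      rw [Finset.sum_congr rfl e1, ← Finset.sum_filter,
        show F.filter (· ∈ T) = T by ext z; simpa using fun hz => hTF hz]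
      have e2 : ∀ g' ∈ T, Real.exp (y e) * wt y T * coef S T e g' * (x e * γ g' - x g' * γ e) =
          Real.exp (y e) * wt y T * x e * (γ g' * coef S T e g') -
          Real.exp (y e) * wt y T * γ e * (x g' * coef S T e g') := fun g' _ => by ring
      rw [Finset.sum_congr rfl e2, Finset.sum_sub_distrib, ← Finset.mul_sum, ← Finset.mul_sum,
        ← hexp]
      ring
  have hzero : ∑ T ∈ trees S F, ∑ e ∈ F,
      Real.exp (y e) * wt y T * (x e - ∑ g' ∈ T, x g' * coef S T e g') * γ e = 0 := by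
    rw [← hsum]
    refine Finset.sum_congr rfl fun T hT' => ?_
    rw [Finset.sum_product]
    exact Finset.sum_congr rfl fun e he => hT T hT' e he
  rw [Finset.sum_comm] at hzero
  have hZ := Zf_pos y hne
  have : ∀ e ∈ F, Real.exp (y e) * (x e - curr S F y e g) * γ e * Zf S F y =
      ∑ T ∈ trees S F,
        Real.exp (y e) * wt y T * (x e - ∑ g' ∈ T, x g' * coef S T e g') * γ e := by
    intro e _
    have hc : curr S F y e g * Zf S F y =
        ∑ T ∈ trees S F, wt y T * ∑ g' ∈ T, x g' * coef S T e g' := by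
      rw [curr, div_mul_cancel₀ _ hZ.ne']
      refine Finset.sum_congr rfl fun T _ => ?_
      by_cases hgT : g ∈ T <;> simp [hx, hgT]
    calc Real.exp (y e) * (x e - curr S F y e g) * γ e * Zf S F y
        = Real.exp (y e) * γ e * (x e * Zf S F y - curr S F y e g * Zf S F y) := by ring
      _ = _ := by
        rw [hc, Zf, Finset.mul_sum, ← Finset.sum_sub_distrib, Finset.mul_sum]
        exact Finset.sum_congr rfl fun T _ => by ring
  rw [← Finset.sum_congr rfl this, ← Finset.sum_mul] at hzero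
  simpa [hx, hγ] using (mul_eq_zero.1 hzero).resolve_right hZ.ne'

theorem coef_diag_zero {S : Finset ℕ} {T : Finset (Sym2 ℕ)} {e g : Sym2 ℕ} (he : e.IsDiag) :
    coef S T e g = 0 := by
  induction e using Sym2.ind with
  | h u v =>
    have : u = v := by simpa using he
    subst this
    simp [coef, grd]

end

end Vale.Agent.P143
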