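import Vale.Agent.P143.Seeds

/-!
The free uniform spanning forest as a factor of independent labels on unimodular random graphs.
-/

namespace Vale.Agent.P143

open Finset Filter Topology MeasureTheory ProbabilityTheory
open scoped ENNReal

noncomputable section

open scoped Classical in
/-- The limit of the iteration. -/
def xLim (a : Cfg) (s : Seeds) (i : Idx) : Bool := decide (∃ K, ∀ k, K ≤ k → it a s k i = true)

open scoped Classical in
/-- Signed count of the limiting observations of an edge in the first `M` slots. -/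
def score (a : Cfg) (s : Seeds) (M : ℕ) (e : Sym2 ℕ) : ℤ :=
  ∑ n ∈ Finset.range M, if Ring a (tp s) (e, n) then (if xLim a s (e, n) then 1 else -1) else 0

open scoped Classical in
/-- The edge set decided by majority. -/
def outF (a : Cfg) (s : Seeds) : Cfg :=
  fun e => decide (e ∈ eset a ∧ ∃ M0, ∀ M, M0 ≤ M → 0 < score a s M e)

/-- The factor map. -/
def factorMap (a : Cfg) (U : ℕ → ℝ) : Cfg := outF a (seedsU a U)

theorem measurable_outF : Measurable fun p : Cfg × Seeds => outF p.1 p.2 := by
  classical
  have hx : ∀ i, MeasurableSet {p : Cfg × Seeds | xLim p.1 p.2 i = true} := by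
    intro i
    have : {p : Cfg × Seeds | xLim p.1 p.2 i = true} =
        ⋃ K : ℕ, ⋂ (k : ℕ) (_ : K ≤ k), {p | it p.1 p.2 k i = true} := by
      ext p; simp [xLim]
    rw [this]
    exact MeasurableSet.iUnion fun K => MeasurableSet.iInter fun k => MeasurableSet.iInter fun _ =>
      ((measurable_pi_apply i).comp (measurable_it measurable_fst measurable_snd k))
        (measurableSet_singleton true)
  have hscore : ∀ M e, Measurable fun p : Cfg × Seeds => score p.1 p.2 M e := fun M e =>
    Finset.measurable_sum _ fun n _ =>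
      Measurable.ite (measurableSet_ring measurable_fst (measurable_tp.comp measurable_snd) (e, n))
        (Measurable.ite (hx (e, n)) measurable_const measurable_const) measurable_const
  refine measurable_pi_lambda _ fun e => measurable_to_bool ?_
  have : (fun p : Cfg × Seeds => outF p.1 p.2 e) ⁻¹' {true} = {p | e ∈ eset p.1} ∩
      ⋃ M0 : ℕ, ⋂ (M : ℕ) (_ : M0 ≤ M), (fun p : Cfg × Seeds => score p.1 p.2 M e) ⁻¹' {z | 0 < z} := by
    ext p; simp [outF]
  rw [this]
  exact (measurable_fst (measurable_coord e)).inter (MeasurableSet.iUnion fun M0 =>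
    MeasurableSet.iInter fun M => MeasurableSet.iInter fun _ => hscore M e trivial)

theorem measurable_factorMap : Measurable (Function.uncurry factorMap) :=
  measurable_outF.comp (measurable_fst.prodMk measurable_seedsU)

theorem outF_relabel (φ : ℕ ≃ ℕ) (a : Cfg) (s : Seeds) (e : Sym2 ℕ) :
    outF (relabel φ a) (s ∘ (iperm φ).symm) (eperm φ e) = outF a s e := by
  classical
  have hscore : ∀ M, score (relabel φ a) (s ∘ (iperm φ).symm) M (eperm φ e) = score a s M e := by
    intro M
    refine Finset.sum_congr rfl fun n _ => ?_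
    have h1 := ring_relabel φ a (tp s) (e, n)
    have h2 : ∀ k, it (relabel φ a) (s ∘ (iperm φ).symm) k (iperm φ (e, n)) = it a s k (e, n) :=
      fun k => by rw [it_relabel, Function.comp_apply, iperm_symm_apply]
    have htp : tp (s ∘ (iperm φ).symm) = tp s ∘ (iperm φ).symm := rfl
    rw [iperm_apply] at h1 h2
    simp only [xLim, htp, h1, h2]
    congr
  simp only [outF, mem_eset_relabel, hscore]

theorem factorMap_relabel (φ : ℕ ≃ ℕ) (a : Cfg) (U : ℕ → ℝ) (e : Sym2 ℕ) :
    factorMap (relabel φ a) (U ∘ φ.symm) (e.map φ) = factorMap a U e := by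
  unfold factorMap
  rw [seedsU_relabel, ← eperm_apply, outF_relabel]

open scoped Classical in
/-- The signed observation relative to the truth. -/
def zVal (a : Cfg) (e : Sym2 ℕ) (n : ℕ) (ω : Omg) : ℝ :=
  (if (ω.2 (e, n)).1.1 < rate a e then 1 else 0) * (if (ω.2 (e, n)).2.1 < 3 / 4 then 1 else -1)

theorem majority {a : Cfg} (ha : Good a) {e : Sym2 ℕ} (he : e ∈ eset a) :
    ∀ᵐ ω ∂jlaw a, ∀ᶠ M in atTop, (0 : ℝ) < ∑ n ∈ Finset.range M, zVal a e n ω := by
  classical
  set r := rate a e
  let h : (ℝ × ℝ) × ℝ × ℝ → ℝ := fun z =>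
    (if z.1.1 < r then 1 else 0) * (if z.2.1 < 3 / 4 then 1 else -1)
  have hh : Measurable h :=
    (Measurable.ite (measurableSet_lt (by fun_prop) measurable_const) measurable_const measurable_const).mul
      (Measurable.ite (measurableSet_lt (by fun_prop) measurable_const) measurable_const measurable_const)
  let Z : ℕ → Noise → ℝ := fun n q => h (q (e, n))
  have hZm : ∀ n, Measurable (Z n) := fun n => hh.comp (measurable_pi_apply _)
  have hi : iIndepFun (fun (i : Idx) (q : Noise) => h (q i)) qlaw :=
    iIndepFun_infinitePi (P := fun _ : Idx => sq2.prod sq2) (X := fun _ => h) (fun _ => hh)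
  have hpair : Pairwise (Function.onFun (IndepFun · · qlaw) Z) := fun m n hmn =>
    hi.indepFun (fun hh' => hmn (congrArg Prod.snd hh'))
  have hident : ∀ n, IdentDistrib (Z n) (Z 0) qlaw qlaw := by
    intro n
    refine ⟨(hZm n).aemeasurable, (hZm 0).aemeasurable, ?_⟩
    have hm : ∀ m, qlaw.map (Z m) = (sq2.prod sq2).map h := fun m => by
      rw [show Z m = h ∘ fun q : Noise => q (e, m) from rfl,
        ← Measure.map_map hh (measurable_pi_apply _), qlaw, Measure.infinitePi_map_eval]
    rw [hm, hm]
  have hint : Integrable (Z 0) qlaw := by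
    refine Integrable.of_bound (hZm 0).aestronglyMeasurable 1 (ae_of_all _ fun q => ?_)
    simp only [Z, h, Real.norm_eq_abs, abs_mul]
    refine mul_le_one₀ ?_ (abs_nonneg _) ?_ <;> split_ifs <;> simp
  have hmean : ∫ q, Z 0 q ∂qlaw = r / 2 := by
    have hr := rate_bounds ha he
    calc ∫ q, Z 0 q ∂qlaw = ∫ z, h z ∂sq2.prod sq2 := by
          conv_rhs => rw [← Measure.infinitePi_map_eval (fun _ : Idx => sq2.prod sq2) (e, 0)]
          rw [integral_map (measurable_pi_apply _).aemeasurable hh.aestronglyMeasurable]
          rfl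
      _ = (∫ z : ℝ × ℝ, (if z.1 < r then (1 : ℝ) else 0) ∂sq2) *
            ∫ z : ℝ × ℝ, (if z.1 < 3 / 4 then (1 : ℝ) else -1) ∂sq2 :=
          integral_prod_mul (fun z : ℝ × ℝ => if z.1 < r then (1 : ℝ) else 0)
            (fun z : ℝ × ℝ => if z.1 < 3 / 4 then (1 : ℝ) else -1)
      _ = r / 2 := by
          have hb : ∀ c : ℝ, 0 ≤ c → c ≤ 1 →
              unif.real (Set.Iio c) = c := by
            intro c h0 h1
            rw [measureReal_def, unif, Measure.restrict_apply measurableSet_Iio]
            have : Set.Iio c ∩ Set.Icc (0 : ℝ) 1 = Set.Ico 0 c := by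
              ext x; simp only [Set.mem_inter_iff, Set.mem_Iio, Set.mem_Icc, Set.mem_Ico]
              constructor
              · intro h; exact ⟨h.2.1, h.1⟩
              · intro h; exact ⟨h.2, h.1, by linarith [h.2]⟩
            rw [this, Real.volume_Ico, sub_zero, ENNReal.toReal_ofReal h0]
          have hfst : ∀ g : ℝ → ℝ, ∫ z : ℝ × ℝ, g z.1 ∂sq2 = ∫ x, g x ∂unif := fun g => by
            rw [sq2, integral_fun_fst]; simp
          have h1 : ∫ x, (if x < r then (1 : ℝ) else 0) ∂unif = r := by
            rw [show (fun x : ℝ => if x < r then (1 : ℝ) else 0) = (Set.Iio r).indicator 1 by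
                funext x; simp [Set.indicator_apply],
              integral_indicator_one measurableSet_Iio, hb r hr.1.le (by linarith [hr.2.1])]
          have h2 : ∫ x, (if x < 3 / 4 then (1 : ℝ) else -1) ∂unif = 1 / 2 := by
            rw [show (fun x : ℝ => if x < 3 / 4 then (1 : ℝ) else -1) =
                fun x => 2 * (Set.Iio (3 / 4 : ℝ)).indicator 1 x - 1 by
                funext x; simp [Set.indicator_apply]; split_ifs <;> norm_num]
            have hi1 : Integrable ((Set.Iio (3 / 4 : ℝ)).indicator (1 : ℝ → ℝ)) unif :=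
              (integrable_const (1 : ℝ)).indicator measurableSet_Iio
            rw [integral_sub (hi1.const_mul 2) (integrable_const 1),
              integral_const_mul, integral_indicator_one measurableSet_Iio,
              hb _ (by norm_num) (by norm_num)]
            simp; norm_num
          rw [hfst (fun x => if x < r then (1 : ℝ) else 0),
            hfst (fun x => if x < 3 / 4 then (1 : ℝ) else -1), h1, h2]
          ring
  have hlaw := strong_law_ae_real Z hint hpair hident
  have hq : ∀ᵐ q ∂qlaw, ∀ᶠ M in atTop, (0 : ℝ) < ∑ n ∈ Finset.range M, Z n q := by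
    filter_upwards [hlaw] with q hq
    rw [hmean] at hq
    have hr : 0 < r / 2 := by linarith [(rate_bounds ha he).1]
    filter_upwards [hq.eventually (lt_mem_nhds hr)] with M hM
    by_contra hneg
    exact absurd hM (not_lt.2 (div_nonpos_of_nonpos_of_nonneg (not_lt.1 hneg) (Nat.cast_nonneg M)))
  unfold jlaw
  exact (Measure.quasiMeasurePreserving_snd (μ := fusf a) (ν := qlaw)).ae hq

theorem out_recovers {a : Cfg} (ha : Good a) (hst : ∀ i : Idx, ∀ᵐ ω ∂jlaw a, Stable a ω i) :
    ∀ᵐ ω ∂jlaw a, outF a (seedsOf a ω) = ω.1 := by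
  classical
  have h0 : ∀ e, ∀ᵐ ω ∂jlaw a, e ∉ eset a → ω.1 e = false := by
    intro e
    by_cases he : e ∈ eset a
    · exact ae_of_all _ fun ω h => absurd he h
    have hz := fusf_nonedge ha he
    have h' : ∀ᵐ σ ∂fusf a, σ e = false := by
      rw [ae_iff]; simpa using hz
    exact ((Measure.quasiMeasurePreserving_fst (μ := fusf a) (ν := qlaw)).ae h').mono fun ω h _ => h
  have hm : ∀ e, ∀ᵐ ω ∂jlaw a, e ∈ eset a →
      ∀ᶠ M in atTop, (0 : ℝ) < ∑ n ∈ Finset.range M, zVal a e n ω := by
    intro e
    by_cases he : e ∈ eset a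
    · exact (majority ha he).mono fun ω h _ => h
    · exact ae_of_all _ fun ω h => absurd h he
  filter_upwards [ae_all_iff.2 h0, ae_all_iff.2 hm, ae_all_iff.2 hst] with ω h0 hm hst
  funext e
  by_cases he : e ∈ eset a
  swap
  · rw [h0 e he]; simp [outF, he]
  have hx : ∀ n, Ring a (tq ω) (e, n) → xLim a (seedsOf a ω) (e, n) = Xt ω (e, n) := by
    intro n hr
    obtain ⟨K, hK⟩ := eventually_atTop.1 (hst (e, n) hr)
    cases hX : Xt ω (e, n) with
    | true =>
      exact decide_eq_true ⟨K, fun k hk => by rw [hK k hk, hX]⟩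
    | false =>
      refine decide_eq_false fun ⟨K', hK'⟩ => ?_
      have h1 := hK' (max K K') (le_max_right _ _)
      rw [hK (max K K') (le_max_left _ _), hX] at h1
      exact Bool.false_ne_true h1
  have hscore : ∀ M, ((score a (seedsOf a ω) M e : ℤ) : ℝ) =
      (if ω.1 e then 1 else -1) * ∑ n ∈ Finset.range M, zVal a e n ω := by
    intro M
    unfold score
    rw [Int.cast_sum, Finset.mul_sum]
    refine Finset.sum_congr rfl fun n _ => ?_
    by_cases hr : Ring a (tq ω) (e, n)
    · rw [if_pos (ring_seedsOf.2 hr), hx n hr]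
      have hr' : (ω.2 (e, n)).1.1 < rate a e := hr.2
      unfold Xt zVal
      rw [if_pos hr']
      by_cases hv : (ω.2 (e, n)).2.1 < 3 / 4 <;> cases hσ : ω.1 e <;> simp [hv, hσ]
    · rw [if_neg (fun h => hr (ring_seedsOf.1 h))]
      have : ¬ (ω.2 (e, n)).1.1 < rate a e := fun h => hr ⟨he, h⟩
      simp [zVal, this]
  obtain ⟨M0, hM0⟩ := eventually_atTop.1 (hm e he)
  cases hσ : ω.1 e with
  | true =>
    refine decide_eq_true ⟨he, M0, fun M hM => ?_⟩
    have h := hscore M
    rw [hσ] at h
    simp only [if_true, one_mul] at h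
    have := hM0 M hM
    rw [← h] at this
    exact_mod_cast this
  | false =>
    refine decide_eq_false fun ⟨_, M1, hM1⟩ => ?_
    have h := hscore (max M0 M1)
    rw [hσ] at h
    simp only [Bool.false_eq_true, if_false] at h
    have h1 := hM1 (max M0 M1) (le_max_right _ _)
    have h2 := hM0 (max M0 M1) (le_max_left _ _)
    have h3 : (0 : ℝ) < ((score a (seedsOf a ω) (max M0 M1) e : ℤ) : ℝ) := by exact_mod_cast h1
    linarith

theorem factorMap_law {a : Cfg} (ha : Good a) (hst : ∀ i : Idx, ∀ᵐ ω ∂jlaw a, Stable a ω i) :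
    (iidUnif ℕ).map (factorMap a) = fusf a := by
  have hout : Measurable (outF a) := measurable_outF.comp measurable_prodMk_left
  have hU : Measurable (seedsU a) := measurable_seedsU.comp measurable_prodMk_left
  have hS : Measurable (seedsOf a) := measurable_seedsOf.comp measurable_prodMk_left
  rw [show factorMap a = outF a ∘ seedsU a from rfl, ← Measure.map_map hout hU, seedsU_law ha,
    ← seedsOf_law ha, Measure.map_map hout hS,
    Measure.map_congr (f := outF a ∘ seedsOf a) (g := Prod.fst) (out_recovers ha hst)]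
  simp [jlaw]

/-- On every unimodular random graph the free forest is a graph factor of iid. -/
theorem urg_factor {P : Measure (Cfg × ℕ)} (hP : IsURG P) :
    ∀ᵐ x ∂P, IsFUSF (graphOf x.1) ((iidUnif ℕ).map (factorMap x.1)) := by
  filter_upwards [stable_ae hP, hP.2.1] with x hst hg
  rw [factorMap_law hg hst]
  exact isFUSF_fusf hg

end

end Vale.Agent.P143
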